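import Mathlib

/-! Elementary analytic tools: directional derivatives, differentiation under the integral,
integration by parts and the barrier gradient estimate for the Poisson equation. -/

open MeasureTheory Filter Topology Set

noncomputable section

namespace Vale.Agent.P134

abbrev Sp (n : ℕ) := EuclideanSpace ℝ (Fin n)

variable {n : ℕ}

def ev (i : Fin n) : Sp n := EuclideanSpace.single i 1

def dd (a : Sp n) (w : Sp n → ℝ) (x : Sp n) : ℝ := fderiv ℝ w x a

def lap (w : Sp n → ℝ) (x : Sp n) : ℝ := ∑ i, dd (ev i) (dd (ev i) w) x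

lemma dd_contDiff {w : Sp n → ℝ} (hw : ContDiff ℝ 2 w) (a : Sp n) :
    ContDiff ℝ 1 (dd a w) :=
  (hw.fderiv_right (m := 1) (by norm_num)).clm_apply contDiff_const

lemma dd_continuous {w : Sp n → ℝ} (hw : ContDiff ℝ 1 w) (a : Sp n) :
    Continuous (dd a w) :=
  (hw.continuous_fderiv one_ne_zero).clm_apply continuous_const

lemma dd_dd {w : Sp n → ℝ} (hw : ContDiff ℝ 2 w) (a b x : Sp n) :
    dd a (dd b w) x = fderiv ℝ (fderiv ℝ w) x a b := by
  have h : DifferentiableAt ℝ (fderiv ℝ w) x :=
    (hw.fderiv_right (m := 1) (by norm_num)).differentiable one_ne_zero x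
  simp only [dd]
  have e : fderiv ℝ (fun y => fderiv ℝ w y b) x = (fderiv ℝ (fderiv ℝ w) x).flip b := by
    rw [fderiv_clm_apply h (differentiableAt_const b)]; simp
  show fderiv ℝ (fun y => fderiv ℝ w y b) x a = _
  rw [e]; rfl

lemma dd_comm {w : Sp n → ℝ} (hw : ContDiff ℝ 2 w) (a b x : Sp n) :
    dd a (dd b w) x = dd b (dd a w) x := by
  rw [dd_dd hw, dd_dd hw]
  exact (hw.contDiffAt.isSymmSndFDerivAt (by simp)) a b

lemma laplacian_eq_lap {w : Sp n → ℝ} (hw : ContDiff ℝ 2 w) (x : Sp n) :
    Laplacian.laplacian w x = lap w x := by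
  rw [InnerProductSpace.laplacian_eq_iteratedFDeriv_orthonormalBasis w
    (EuclideanSpace.basisFun (Fin n) ℝ)]
  refine Finset.sum_congr rfl fun i _ => ?_
  rw [iteratedFDeriv_two_apply, dd_dd hw]
  simp [ev, EuclideanSpace.basisFun_apply]

lemma dd_add {f g : Sp n → ℝ} (hf : Differentiable ℝ f) (hg : Differentiable ℝ g) (a x : Sp n) :
    dd a (fun y => f y + g y) x = dd a f x + dd a g x := by
  simp [dd, fderiv_fun_add (hf x) (hg x)]

lemma dd_sub {f g : Sp n → ℝ} (hf : Differentiable ℝ f) (hg : Differentiable ℝ g) (a x : Sp n) :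
    dd a (fun y => f y - g y) x = dd a f x - dd a g x := by
  simp [dd, fderiv_fun_sub (hf x) (hg x)]

lemma dd_mul {f g : Sp n → ℝ} (hf : Differentiable ℝ f) (hg : Differentiable ℝ g) (a x : Sp n) :
    dd a (fun y => f y * g y) x = f x * dd a g x + g x * dd a f x := by
  simp [dd, fderiv_fun_mul (hf x) (hg x)]

lemma dd_translate (w : Sp n → ℝ) (c a x : Sp n) :
    dd a (fun y => w (y + c)) x = dd a w (x + c) := by
  simp [dd, fderiv_comp_add_right]

lemma line_hasDerivAt {w : Sp n → ℝ} (hw : Differentiable ℝ w) (x a : Sp n) (s : ℝ) :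
    HasDerivAt (fun r : ℝ => w (x + r • a)) (dd a w (x + s • a)) s := by
  have h1 : HasDerivAt (fun r : ℝ => x + r • a) a s := by
    simpa using ((hasDerivAt_id s).smul_const a).const_add x
  exact (hw (x + s • a)).hasFDerivAt.comp_hasDerivAt s h1

lemma dd_div {f g : Sp n → ℝ} (hf : Differentiable ℝ f) (hg : Differentiable ℝ g)
    (a x : Sp n) (h0 : g x ≠ 0) :
    dd a (fun y => f y / g y) x = (g x * dd a f x - f x * dd a g x) / (g x) ^ 2 := by
  have hq : DifferentiableAt ℝ (fun y => f y / g y) x := (hf x).mul ((hg x).inv h0)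
  have l1 := line_hasDerivAt hf x a 0
  have l2 := line_hasDerivAt hg x a 0
  have h1 : HasDerivAt (fun r : ℝ => x + r • a) a 0 := by
    simpa using (hasDerivAt_id (0:ℝ)).smul_const a |>.const_add x
  have h2 : HasDerivAt (fun r : ℝ => f (x + r • a) / g (x + r • a))
      (dd a (fun y => f y / g y) x) 0 :=
    HasFDerivAt.comp_hasDerivAt (l := fun y => f y / g y) (f := fun r : ℝ => x + r • a) 0
      (by simpa using hq.hasFDerivAt) h1
  have h3 := l1.div l2 (by simpa using h0)
  rw [h2.unique h3]
  simp
  ring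

lemma integrable_mul_compact {f g : Sp n → ℝ} (hf : Continuous f) (hg : Continuous g)
    (hgc : HasCompactSupport g) : Integrable (fun x => f x * g x) :=
  (hf.mul hg).integrable_of_hasCompactSupport hgc.mul_left

lemma dd_hasCompactSupport {g : Sp n → ℝ} (hgc : HasCompactSupport g) (a : Sp n) :
    HasCompactSupport (dd a g) := (hgc.fderiv ℝ).comp_left (g := fun L : Sp n →L[ℝ] ℝ => L a)
      (by simp)

lemma ibp {f g : Sp n → ℝ} (hf : ContDiff ℝ 1 f) (hg : ContDiff ℝ 1 g)
    (hgc : HasCompactSupport g) (a : Sp n) :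
    ∫ x, f x * dd a g x = - ∫ x, dd a f x * g x :=
  integral_mul_fderiv_eq_neg_fderiv_mul_of_integrable
    (integrable_mul_compact (dd_continuous hf a) hg.continuous hgc)
    (integrable_mul_compact hf.continuous (dd_continuous hg a) (dd_hasCompactSupport hgc a))
    (integrable_mul_compact hf.continuous hg.continuous hgc)
    (fun x _ => hf.differentiable one_ne_zero x) (fun x _ => hg.differentiable one_ne_zero x)

lemma param_deriv_loc {Φ Φ' : ℝ → Sp n → ℝ} (hc : Continuous (fun p : ℝ × Sp n => Φ p.1 p.2))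
    (hc' : Continuous (fun p : ℝ × Sp n => Φ' p.1 p.2)) {K : Set (Sp n)} (hK : IsCompact K)
    (t : ℝ) (hz : ∀ s ∈ Ioo (t - 2) (t + 2), ∀ x, x ∉ K → Φ s x = 0)
    (hd : ∀ s x, HasDerivAt (fun r => Φ r x) (Φ' s x) s) :
    HasDerivAt (fun s => ∫ x, Φ s x) (∫ x, Φ' t x) t := by
  have hz' : ∀ s ∈ Icc (t - 1) (t + 1), ∀ x, x ∉ K → Φ' s x = 0 := by
    intro s hs x hx
    have e : (fun r => Φ r x) =ᶠ[𝓝 s] fun _ => (0:ℝ) := by
      filter_upwards [Ioo_mem_nhds (show t - 2 < s by linarith [hs.1])
        (show s < t + 2 by linarith [hs.2])] with r hr using hz r hr x hx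
    exact ((hd s x).congr_of_eventuallyEq e.symm).unique (hasDerivAt_const s 0)
  obtain ⟨C, hC⟩ := ((isCompact_Icc (a := t - 1) (b := t + 1)).prod hK).exists_bound_of_continuousOn
    hc'.continuousOn
  have hcs : ∀ (G : ℝ → Sp n → ℝ), Continuous (fun p : ℝ × Sp n => G p.1 p.2) →
      ∀ s, Continuous (G s) := fun G hG s => hG.comp (continuous_const.prodMk continuous_id)
  refine (hasDerivAt_integral_of_dominated_loc_of_deriv_le
    (s := Icc (t - 1) (t + 1)) (bound := K.indicator fun _ => C)
    (Icc_mem_nhds (by linarith) (by linarith))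
    (Eventually.of_forall fun s => (hcs Φ hc s).aestronglyMeasurable)
    ((hcs Φ hc t).integrable_of_hasCompactSupport
      (HasCompactSupport.intro hK fun x hx => hz t ⟨by linarith, by linarith⟩ x hx))
    (hcs Φ' hc' t).aestronglyMeasurable ?_ ?_ ?_).2
  · refine Eventually.of_forall fun x s hs => ?_
    by_cases hx : x ∈ K
    · rw [indicator_of_mem hx]; exact hC (s, x) ⟨hs, hx⟩
    · rw [indicator_of_notMem hx, hz' s hs x hx, norm_zero]
  · exact (integrableOn_const hK.measure_lt_top.ne).integrable_indicator hK.measurableSet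
  · exact Eventually.of_forall fun x s _ => hd s x

lemma param_deriv {Φ Φ' : ℝ → Sp n → ℝ} (hc : Continuous (fun p : ℝ × Sp n => Φ p.1 p.2))
    (hc' : Continuous (fun p : ℝ × Sp n => Φ' p.1 p.2)) {K : Set (Sp n)} (hK : IsCompact K)
    (hz : ∀ s x, x ∉ K → Φ s x = 0) (hd : ∀ s x, HasDerivAt (fun r => Φ r x) (Φ' s x) s) (t : ℝ) :
    HasDerivAt (fun s => ∫ x, Φ s x) (∫ x, Φ' t x) t :=
  param_deriv_loc hc hc' hK t (fun s _ => hz s) hd

lemma dd_neg_dir (w : Sp n → ℝ) (a x : Sp n) : dd (-a) w x = - dd a w x := by simp [dd]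

/-- Derivative of the pairing of a shifted test function with a continuous function. -/
lemma shift_deriv {η G : Sp n → ℝ} (hη : ContDiff ℝ 1 η) (hc : HasCompactSupport η)
    (hG : Continuous G) (a : Sp n) (t : ℝ) :
    HasDerivAt (fun s => ∫ x, η (x - s • a) * G x)
      (- ∫ x, dd a η (x - t • a) * G x) t := by
  have hK : IsCompact ((fun p : ℝ × Sp n => p.2 + p.1 • a) '' (Icc (t - 2) (t + 2) ×ˢ tsupport η)) :=
    (isCompact_Icc.prod hc.isCompact).image (by fun_prop)
  have hηc := hη.continuous
  have hd1 := dd_continuous hη a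
  have := param_deriv_loc (Φ := fun s x => η (x - s • a) * G x)
    (Φ' := fun s x => - dd a η (x - s • a) * G x) (by fun_prop) (by fun_prop) hK t
    (fun s hs x hx => by
      have : x - s • a ∉ tsupport η := fun h =>
        hx ⟨(s, x - s • a), ⟨Ioo_subset_Icc_self hs, h⟩, by simp⟩
      simp [image_eq_zero_of_notMem_tsupport this])
    (fun s x => by
      have h := line_hasDerivAt (hη.differentiable one_ne_zero) x (-a) s
      simp only [smul_neg, ← sub_eq_add_neg, dd_neg_dir] at h
      exact h.mul_const (G x))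
  simpa [neg_mul, integral_neg] using this

lemma second_deriv_nonpos {φ φ' : ℝ → ℝ} {d : ℝ} (hmax : IsLocalMax φ 0)
    (h1 : ∀ s, HasDerivAt φ (φ' s) s) (h2 : HasDerivAt φ' d 0) : d ≤ 0 := by
  by_contra hd
  push Not at hd
  have e : deriv φ = φ' := funext fun s => (h1 s).deriv
  have hmin : IsLocalMin φ 0 := isLocalMin_of_deriv_deriv_pos (by rw [e, h2.deriv]; exact hd)
    hmax.deriv_eq_zero (h1 0).continuousAt
  have hev : φ =ᶠ[𝓝 0] fun _ => φ 0 := by
    filter_upwards [hmax, hmin] with s a b
    exact le_antisymm a b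
  have h3 : φ' =ᶠ[𝓝 0] fun _ => (0:ℝ) := by
    have := hev.deriv
    rw [e] at this
    simpa using this
  have h4 := h3.deriv_eq
  rw [h2.deriv] at h4
  simp at h4
  linarith

def InCube (x0 x : Sp n) : Prop := ∀ i, |x i - x0 i| ≤ 1

lemma compact_cube (x0 : Sp n) (m : Fin n) :
    IsCompact {x : Sp n | InCube x0 x ∧ x0 m ≤ x m} := by
  refine Metric.isCompact_of_isClosed_isBounded ?_ ?_
  · simp only [InCube, Set.ofPred_and, Set.ofPred_forall]
    refine IsClosed.inter (isClosed_iInter fun i => isClosed_le ?_ continuous_const)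
      (isClosed_le continuous_const ?_)
    · exact ((PiLp.continuous_apply 2 (fun _ => ℝ) i).sub continuous_const).abs
    · exact PiLp.continuous_apply 2 (fun _ => ℝ) m
  · refine (Metric.isBounded_closedBall (x := x0) (r := Real.sqrt n)).subset fun x hx => ?_
    rw [Metric.mem_closedBall, EuclideanSpace.dist_eq]
    apply Real.sqrt_le_sqrt
    calc ∑ i, dist (x i) (x0 i) ^ 2 ≤ ∑ _i : Fin n, (1:ℝ) := Finset.sum_le_sum fun i _ => by
          rw [Real.dist_eq]; nlinarith [hx.1 i, abs_nonneg (x i - x0 i)]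
      _ = n := by simp

/-- Gradient bound for a twice differentiable function with bounded Laplacian on a cube. -/
lemma grad_bound {w : Sp n → ℝ} (hw : ContDiff ℝ 2 w) (x0 : Sp n) {A B : ℝ}
    (hA : ∀ x, InCube x0 x → |w x| ≤ A) (hB : ∀ x, InCube x0 x → |lap w x| ≤ B) (m : Fin n) :
    |dd (ev m) w x0| ≤ n * A + B / 2 := by
  have hn : (1:ℝ) ≤ n := by exact_mod_cast Fin.pos m
  have hA0 : 0 ≤ A := (abs_nonneg _).trans (hA x0 fun i => by simp)
  have hB0 : 0 ≤ B := (abs_nonneg _).trans (hB x0 fun i => by simp)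
  have hwd : Differentiable ℝ w := hw.differentiable (by norm_num)
  have hdd : ∀ a, Differentiable ℝ (dd a w) := fun a => (dd_contDiff hw a).differentiable one_ne_zero
  set c : ℝ := n * A + B / 2 with hcdef
  -- reflection in the hyperplane through x0
  let rf : Sp n → Sp n := fun x => x - (2 * (x m - x0 m)) • ev m
  have rf_apply : ∀ x i, rf x i = if i = m then 2 * x0 m - x m else x i := by
    intro x i
    by_cases hi : i = m
    · subst hi; simp [rf, ev]; ring
    · simp [rf, ev, hi]
  have rf_cube : ∀ x, InCube x0 x → InCube x0 (rf x) := by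
    intro x hx i
    rw [rf_apply]
    split_ifs with hi
    · subst hi; rw [show 2 * x0 i - x i - x0 i = -(x i - x0 i) by ring, abs_neg]; exact hx i
    · exact hx i
  have rf_line : ∀ x i (s : ℝ), rf (x + s • ev i) = rf x + s • (if i = m then -ev i else ev i) := by
    intro x i s
    ext j
    rw [rf_apply]
    by_cases hi : i = m
    · subst hi
      by_cases hj : j = i
      · subst hj; simp [rf_apply, ev]; ring
      · simp [rf_apply, ev, hj]
    · by_cases hj : j = m
      · subst hj; simp [rf_apply, ev, hi, Ne.symm hi]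
      · simp [rf_apply, hi, hj]
  let g : Sp n → ℝ := fun x => (w x - w (rf x)) / 2
  have key : ∀ σ : ℝ, (σ = 1 ∨ σ = -1) → ∀ x, InCube x0 x → x0 m ≤ x m →
      σ * g x ≤ A * ∑ i, (x i - x0 i) ^ 2 + c * ((x m - x0 m) - (x m - x0 m) ^ 2) := by
    intro σ hσ x hx hxm
    refine le_of_forall_pos_le_add fun ε' hε' => ?_
    set ε : ℝ := ε' / n with hεdef
    have hε : 0 < ε := by positivity
    let ψ : Sp n → ℝ := fun x => σ * g x - (A - ε) * (∑ i, (x i - x0 i) ^ 2)
      - c * ((x m - x0 m) - (x m - x0 m) ^ 2)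
    have hψc : Continuous ψ := by
      have := hw.continuous
      have h1 : ∀ i, Continuous fun x : Sp n => x i := fun i => PiLp.continuous_apply 2 _ i
      have h2 : Continuous rf := by fun_prop
      fun_prop
    obtain ⟨z, hz, hzmax⟩ := (compact_cube x0 m).exists_isMaxOn ⟨x, hx, hxm⟩ hψc.continuousOn
    have hgA : ∀ y, InCube x0 y → σ * g y ≤ A := by
      intro y hy
      have a1 := abs_le.mp (hA y hy)
      have a2 := abs_le.mp (hA _ (rf_cube y hy))
      rcases hσ with h | h <;> subst h <;> simp only [g] <;> linarith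
    have hsum : ∑ i, (z i - x0 i) ^ 2 ≤ (n:ℝ) := by
      calc ∑ i, (z i - x0 i) ^ 2 ≤ ∑ _i : Fin n, (1:ℝ) := Finset.sum_le_sum fun i _ => by
            have := hz.1 i; nlinarith [abs_nonneg (z i - x0 i), sq_abs (z i - x0 i)]
        _ = n := by simp
    have hbar : 0 ≤ (z m - x0 m) - (z m - x0 m) ^ 2 := by
      have h1 := abs_le.mp (hz.1 m); have h2 := hz.2; nlinarith
    have hc0 : 0 ≤ c := by positivity
    have hψz : ψ z ≤ ε' := by
      have hne : ε * ∑ i, (z i - x0 i) ^ 2 ≤ ε' := by
        have := mul_le_mul_of_nonneg_left hsum hε.le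
        have e : ε * n = ε' := by rw [hεdef]; field_simp
        linarith
      by_cases h0 : z m = x0 m
      · have : rf z = z := by
          ext i; rw [rf_apply]; split_ifs with hi
          · subst hi; linarith
          · rfl
        simp only [ψ, g, this, h0]
        have := mul_nonneg hA0 (Finset.sum_nonneg fun i (_ : i ∈ Finset.univ) => sq_nonneg (z i - x0 i))
        ring_nf
        ring_nf at this hne
        nlinarith
      by_cases hb : ∃ i, |z i - x0 i| = 1
      · obtain ⟨i, hi⟩ := hb
        have h1 : (1:ℝ) ≤ ∑ j, (z j - x0 j) ^ 2 := by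
          calc (1:ℝ) = (z i - x0 i) ^ 2 := by rw [← sq_abs, hi]; norm_num
            _ ≤ _ := Finset.single_le_sum (fun j _ => sq_nonneg (z j - x0 j)) (Finset.mem_univ i)
        simp only [ψ]
        have := hgA z hz.1
        have := mul_le_mul_of_nonneg_left h1 hA0
        have := mul_nonneg hc0 hbar
        nlinarith
      -- interior maximum is impossible
      exfalso
      push Not at hb
      have hlt : ∀ i, |z i - x0 i| < 1 := fun i => lt_of_le_of_ne (hz.1 i) (hb i)
      have hltm : x0 m < z m := lt_of_le_of_ne hz.2 (Ne.symm h0)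
      have hline : ∀ i, IsLocalMax (fun s : ℝ => ψ (z + s • ev i)) 0 := by
        intro i
        have hop : ∀ᶠ s : ℝ in 𝓝 0, InCube x0 (z + s • ev i) ∧ x0 m ≤ (z + s • ev i) m := by
          have hcont : ∀ j, Continuous fun s : ℝ => (z + s • ev i) j := fun j => by
            simp only [PiLp.add_apply, PiLp.smul_apply]; fun_prop
          refine Filter.Eventually.and (eventually_all.2 fun j => ?_) ?_
          · have : Tendsto (fun s : ℝ => |(z + s • ev i) j - x0 j|) (𝓝 0) (𝓝 |z j - x0 j|) := by
              simpa using (((hcont j).sub continuous_const).abs.tendsto 0)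
            exact (this.eventually (eventually_lt_nhds (hlt j))).mono fun s h => h.le
          · have : Tendsto (fun s : ℝ => (z + s • ev i) m) (𝓝 0) (𝓝 (z m)) := by
              simpa using (hcont m).tendsto 0
            exact (this.eventually (eventually_gt_nhds hltm)).mono fun s h => h.le
        filter_upwards [hop] with s hs
        simpa using hzmax hs
      have hi : ∀ i, σ * ((dd (ev i) (dd (ev i) w) z - dd (ev i) (dd (ev i) w) (rf z)) / 2)
          - 2 * (A - ε) + (if i = m then 2 * c else 0) ≤ 0 := by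
        intro i
        set a : Sp n := if i = m then -ev i else ev i with hadef
        have hdda : dd a (dd a w) (rf z) = dd (ev i) (dd (ev i) w) (rf z) := by
          rw [dd_dd hw, dd_dd hw, hadef]; split_ifs <;> simp
        set δ : ℝ := if i = m then 1 else 0 with hδ
        have hval : ∀ s : ℝ, ψ (z + s • ev i) = σ * ((w (z + s • ev i) - w (rf z + s • a)) / 2)
            - (A - ε) * ((∑ j, (z j - x0 j) ^ 2) + 2 * (z i - x0 i) * s + s ^ 2)
            - c * ((z m - x0 m + δ * s) - (z m - x0 m + δ * s) ^ 2) := by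
          intro s
          have e1 : ∑ j, ((z + s • ev i) j - x0 j) ^ 2
              = (∑ j, (z j - x0 j) ^ 2) + 2 * (z i - x0 i) * s + s ^ 2 := by
            have : ∀ j, ((z + s • ev i) j - x0 j) ^ 2
                = (z j - x0 j) ^ 2 + (if j = i then 2 * (z i - x0 i) * s + s ^ 2 else 0) := by
              intro j; by_cases hj : j = i
              · subst hj; simp [ev]; ring
              · simp [ev, hj]
            simp only [this, Finset.sum_add_distrib, Finset.sum_ite_eq', Finset.mem_univ, if_true]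
            ring
          have e2 : (z + s • ev i) m - x0 m = z m - x0 m + δ * s := by
            by_cases hm : i = m
            · subst hm; simp [ev, hδ]; ring
            · simp [ev, hδ, hm, Ne.symm hm]
          simp only [ψ, g, e1, e2, rf_line, ← hadef]
        let φ' : ℝ → ℝ := fun s => σ * ((dd (ev i) w (z + s • ev i) - dd a w (rf z + s • a)) / 2)
            - (A - ε) * (2 * (z i - x0 i) + 2 * s)
            - c * (δ - 2 * (z m - x0 m + δ * s) * δ)
        have h1 : ∀ s, HasDerivAt (fun s : ℝ => ψ (z + s • ev i)) (φ' s) s := by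
          intro s
          rw [funext hval]
          have q1 : HasDerivAt (fun s : ℝ => (∑ j, (z j - x0 j) ^ 2) + 2 * (z i - x0 i) * s + s ^ 2)
              (2 * (z i - x0 i) + 2 * s) s := by
            have h := (((hasDerivAt_id s).const_mul (2 * (z i - x0 i))).const_add
              (∑ j, (z j - x0 j) ^ 2)).fun_add (hasDerivAt_pow 2 s)
            simpa using h
          have q2 : HasDerivAt (fun s : ℝ => z m - x0 m + δ * s) δ s := by
            simpa using ((hasDerivAt_id s).const_mul δ).const_add (z m - x0 m)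
          have q3 : HasDerivAt (fun s : ℝ => (z m - x0 m + δ * s) - (z m - x0 m + δ * s) ^ 2)
              (δ - 2 * (z m - x0 m + δ * s) * δ) s := by
            simpa using q2.fun_sub (q2.fun_pow 2)
          exact ((((line_hasDerivAt hwd z (ev i) s).sub (line_hasDerivAt hwd (rf z) a s)).div_const 2
            |>.const_mul σ).sub (q1.const_mul (A - ε))).sub (q3.const_mul c)
        have h2 : HasDerivAt φ' (σ * ((dd (ev i) (dd (ev i) w) z - dd a (dd a w) (rf z)) / 2)
            - (A - ε) * 2 - c * (-(2 * δ * δ))) 0 := by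
          have l1 := line_hasDerivAt (hdd (ev i)) z (ev i) 0
          have l2 := line_hasDerivAt (hdd a) (rf z) a 0
          rw [zero_smul, add_zero] at l1 l2
          have q1 : HasDerivAt (fun s : ℝ => 2 * (z i - x0 i) + 2 * s) 2 0 := by
            simpa using ((hasDerivAt_id (0:ℝ)).const_mul 2).const_add (2 * (z i - x0 i))
          have q3 : HasDerivAt (fun s : ℝ => δ - 2 * (z m - x0 m + δ * s) * δ) (-(2 * δ * δ)) 0 := by
            simpa using (((((hasDerivAt_id (0:ℝ)).const_mul δ).const_add (z m - x0 m)).const_mul 2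
              |>.mul_const δ).const_sub δ)
          exact (((l1.sub l2).div_const 2 |>.const_mul σ).sub (q1.const_mul (A - ε))).sub
            (q3.const_mul c)
        have := second_deriv_nonpos (hline i) h1 h2
        rw [hdda] at this
        by_cases hm : i = m <;> simp [hδ, hm] at this ⊢ <;> linarith
      have hs := Finset.sum_le_sum (s := Finset.univ) fun i _ => hi i
      simp only [Finset.sum_add_distrib, Finset.sum_sub_distrib, ← Finset.mul_sum, ← Finset.sum_div,
        Finset.sum_ite_eq', Finset.mem_univ, if_true, Finset.sum_const_zero, Finset.sum_const,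
        Finset.card_univ, Fintype.card_fin, nsmul_eq_mul] at hs
      have b1 := abs_le.mp (hB z hz.1)
      have b2 := abs_le.mp (hB _ (rf_cube z hz.1))
      simp only [lap] at b1 b2
      rcases hσ with h | h <;> subst h <;> nlinarith [mul_pos hε (by linarith : (0:ℝ) < n)]
    have hψx : ψ x ≤ ε' := (hzmax ⟨hx, hxm⟩).trans hψz
    simp only [ψ] at hψx
    have := mul_nonneg hε.le (Finset.sum_nonneg fun i (_ : i ∈ Finset.univ) => sq_nonneg (x i - x0 i))
    nlinarith
  -- let the point tend to x0
  have hrf0 : rf x0 = x0 := by simp [rf]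
  let G : ℝ → ℝ := fun s => g (x0 + s • ev m)
  have hG : HasDerivAt G (dd (ev m) w x0) 0 := by
    have l1 := line_hasDerivAt hwd x0 (ev m) 0
    have l2 := line_hasDerivAt hwd (rf x0) (-ev m) 0
    rw [zero_smul, add_zero] at l1 l2
    have := (l1.sub l2).div_const 2
    have e : G = fun s : ℝ => (w (x0 + s • ev m) - w (rf x0 + s • -ev m)) / 2 := by
      funext s; simp only [G, g, rf_line, if_true]
    rw [e]
    have e2 : dd (ev m) w x0 = (dd (ev m) w x0 - dd (-ev m) w (rf x0)) / 2 := by
      rw [hrf0]; simp [dd]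
    rw [e2]; exact this
  have hG0 : G 0 = 0 := by simp [G, g, hrf0]
  have hslope : Tendsto (fun s : ℝ => s⁻¹ * G s) (𝓝[>] 0) (𝓝 (dd (ev m) w x0)) := by
    have := hG.tendsto_slope_zero_right
    simpa [hG0] using this
  have hbound : ∀ᶠ s : ℝ in 𝓝[>] 0, |s⁻¹ * G s| ≤ A * s + c := by
    filter_upwards [Ioo_mem_nhdsGT (show (0:ℝ) < 1 by norm_num)] with s hs
    have hin : InCube x0 (x0 + s • ev m) := by
      intro i; by_cases hi : i = m
      · subst hi; simp [ev, abs_of_pos hs.1]; exact hs.2.le
      · simp [ev, hi]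
    have hm' : x0 m ≤ (x0 + s • ev m) m := by simp [ev]; exact hs.1.le
    have e1 : ∑ i, ((x0 + s • ev m) i - x0 i) ^ 2 = s ^ 2 := by
      rw [Finset.sum_eq_single m] <;> simp +contextual [ev]
    have k1 := key 1 (Or.inl rfl) _ hin hm'
    have k2 := key (-1) (Or.inr rfl) _ hin hm'
    rw [e1] at k1 k2
    simp [ev] at k1 k2
    have hc0 : 0 ≤ c := by positivity
    have hcs : 0 ≤ c * s ^ 2 := by positivity
    have hg : |G s| ≤ (A * s + c) * s := by
      simp only [G, ev] at *
      rw [abs_le]; constructor <;> nlinarith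
    rw [abs_mul, abs_inv, abs_of_pos hs.1, inv_mul_le_iff₀ hs.1]
    linarith
  have hlim : Tendsto (fun s : ℝ => A * s + c) (𝓝[>] 0) (𝓝 c) := by
    have : Tendsto (fun s : ℝ => A * s + c) (𝓝 0) (𝓝 c) := by
      have h : Continuous fun s : ℝ => A * s + c := by fun_prop
      simpa using h.tendsto (0:ℝ)
    exact this.mono_left nhdsWithin_le_nhds
  exact le_of_tendsto_of_tendsto hslope.abs hlim hbound

end Vale.Agent.P134
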