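import Vale.Agent.P134.Limit

/-! One-dimensionality from locally constant gradient direction, and the energy of the limit
profile. -/

open MeasureTheory Filter Topology Set Metric InnerProductSpace

noncomputable section

namespace Vale.Agent.P134

variable {n : ℕ}

lemma inner_eq_sum (a b : Sp n) : inner ℝ a b = ∑ i, a i * b i := by
  simp [PiLp.inner_apply, mul_comm]

/-- If all gradients are multiples of a fixed vector, the function is one-dimensional. -/
lemma oneDim_of_parallel {v : Sp n → ℝ} (hv : Differentiable ℝ v) {c : Sp n}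
    (hpar : ∀ x, ∃ l : ℝ, ∀ i, dd (ev i) v x = l * c i) (hn : 0 < n) :
    ∃ e : Sp n, ‖e‖ = 1 ∧ ∀ x, v x = v ((inner ℝ e x) • e) := by
  have hdd : ∀ a x, ∃ l : ℝ, dd a v x = l * inner ℝ a c := by
    intro a x
    obtain ⟨l, hl⟩ := hpar x
    refine ⟨l, ?_⟩
    rw [dd_sum, inner_eq_sum, Finset.mul_sum]
    exact Finset.sum_congr rfl fun i _ => by rw [hl i]; ring
  obtain ⟨e, he, heq⟩ : ∃ e : Sp n, ‖e‖ = 1 ∧ ∃ t : ℝ, c = t • e := by
    by_cases hc : c = 0
    · exact ⟨ev ⟨0, hn⟩, by simp [ev], 0, by simp [hc]⟩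
    · exact ⟨‖c‖⁻¹ • c, norm_smul_inv_norm hc, ‖c‖,
        by rw [smul_smul, mul_inv_cancel₀ (norm_ne_zero_iff.2 hc), one_smul]⟩
  obtain ⟨t, rfl⟩ := heq
  refine ⟨e, he, fun x => ?_⟩
  set w := x - (inner ℝ e x) • e with hw
  have horth : inner ℝ w e = 0 := by
    rw [hw, inner_sub_left, real_inner_smul_left, real_inner_self_eq_norm_sq, he, real_inner_comm]
    ring
  have hd : ∀ s : ℝ, deriv (fun r : ℝ => v ((inner ℝ e x) • e + r • w)) s = 0 := by
    intro s
    rw [(line_hasDerivAt hv _ w s).deriv]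
    obtain ⟨l, hl⟩ := hdd w ((inner ℝ e x) • e + s • w)
    rw [hl, real_inner_smul_right, horth]; ring
  have := is_const_of_deriv_eq_zero (fun s => (line_hasDerivAt hv _ w s).differentiableAt) hd 1 0
  simp only [one_smul, zero_smul, add_zero, hw, add_sub_cancel] at this
  exact this

/-- A locally constant gradient direction on the set of regular points forces parallel gradients. -/
lemma parallel_of_local {v : Sp n → ℝ} (hv : ContDiff ℝ 1 v)
    (hloc : ∀ x0 (b : Fin n), dd (ev b) v x0 ≠ 0 →
      ∃ r > 0, ∀ a, ∀ x ∈ ball x0 r, dd (ev a) v x * dd (ev b) v x0 = dd (ev a) v x0 * dd (ev b) v x) :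
    ∃ c : Sp n, ∀ x, ∃ l : ℝ, ∀ i, dd (ev i) v x = l * c i := by
  have hd : Differentiable ℝ v := hv.differentiable one_ne_zero
  by_cases h0 : ∀ x i, dd (ev i) v x = 0
  · exact ⟨0, fun x => ⟨0, fun i => by simp [h0 x i]⟩⟩
  push Not at h0
  obtain ⟨x1, b1, hb1⟩ := h0
  let gr : Sp n → Sp n := fun x => WithLp.toLp 2 fun i => dd (ev i) v x
  have gr_apply : ∀ x i, gr x i = dd (ev i) v x := fun _ _ => rfl
  -- gradient is invariant along the orthogonal hyperplane of a regular point
  have hline : ∀ x0, gr x0 ≠ 0 → ∀ w, inner ℝ w (gr x0) = 0 → gr (x0 + w) = gr x0 := by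
    intro x0 hx0 w hw
    obtain ⟨b, hb⟩ : ∃ b, dd (ev b) v x0 ≠ 0 := by
      by_contra hcon; push Not at hcon
      exact hx0 (by ext i; simpa [gr] using hcon i)
    let S : Set ℝ := {s | ∀ i, dd (ev i) v (x0 + s • w) = dd (ev i) v x0}
    have hcl : IsClosed S := by
      simp only [S, ofPred_forall]
      exact isClosed_iInter fun i => isClosed_eq
        ((dd_continuous hv _).comp (by fun_prop)) continuous_const
    have hop : IsOpen S := by
      rw [Metric.isOpen_iff]
      intro s hs
      obtain ⟨r, hr, hprop⟩ := hloc (x0 + s • w) b (by rw [hs b]; exact hb)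
      have hzero : ∀ x ∈ ball (x0 + s • w) r, dd w v x = 0 := by
        intro x hx
        have hbne : dd (ev b) v (x0 + s • w) ≠ 0 := by rw [hs b]; exact hb
        rw [dd_sum]
        have e : ∀ i, w i * dd (ev i) v x = (dd (ev b) v x / dd (ev b) v x0) * (w i * gr x0 i) := by
          intro i
          have := hprop i x hx
          rw [hs i, hs b] at this
          rw [gr_apply]; field_simp; linear_combination (w i) * this
        simp only [e, ← Finset.mul_sum, ← inner_eq_sum, hw, mul_zero]
      have hshift : ∀ δ : ℝ, ‖δ • w‖ < r / 2 → ∀ y ∈ ball (x0 + s • w) (r / 2),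
          v (y + δ • w) = v y := by
        intro δ hδ y hy
        have hseg : ∀ t ∈ Icc (0:ℝ) 1, y + t • δ • w ∈ ball (x0 + s • w) r := by
          intro t ht
          rw [mem_ball, dist_eq_norm] at hy ⊢
          have : ‖t • δ • w‖ ≤ ‖δ • w‖ := by
            rw [norm_smul, Real.norm_eq_abs, abs_of_nonneg ht.1]
            exact mul_le_of_le_one_left (norm_nonneg _) ht.2
          calc ‖y + t • δ • w - (x0 + s • w)‖ = ‖(y - (x0 + s • w)) + t • δ • w‖ := by
                congr 1; abel
            _ ≤ _ := norm_add_le _ _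
            _ < r := by linarith
        have := constant_of_has_deriv_right_zero (f := fun t : ℝ => v (y + t • δ • w)) (a := 0) (b := 1)
          (fun t _ => (line_hasDerivAt hd y (δ • w) t).continuousAt.continuousWithinAt)
          (fun t ht => by
            have h1 := (line_hasDerivAt hd y (δ • w) t).hasDerivWithinAt (s := Ici t)
            have : dd (δ • w) v (y + t • δ • w) = 0 := by
              have := hzero _ (hseg t (Ico_subset_Icc_self ht))
              simp [dd] at this ⊢
              simp [this]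
            rwa [this] at h1) 1 ⟨zero_le_one, le_rfl⟩
        simpa using this
      refine ⟨r / (2 * (‖w‖ + 1)), by positivity, fun s' hs' i => ?_⟩
      rw [mem_ball, Real.dist_eq] at hs'
      have hδ : ‖(s' - s) • w‖ < r / 2 := by
        rw [norm_smul, Real.norm_eq_abs]
        have h1 : |s' - s| * (2 * (‖w‖ + 1)) < r := by rwa [lt_div_iff₀ (by positivity)] at hs'
        nlinarith [norm_nonneg w, abs_nonneg (s' - s)]
      have hev : (fun y => v (y + (s' - s) • w)) =ᶠ[𝓝 (x0 + s • w)] v := by
        filter_upwards [ball_mem_nhds (x0 + s • w) (half_pos hr)] with y hy using hshift _ hδ y hy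
      have hk : dd (ev i) v (x0 + s • w + (s' - s) • w) = dd (ev i) v (x0 + s • w) := by
        rw [← dd_translate v ((s' - s) • w) (ev i) (x0 + s • w)]
        simp only [dd, hev.fderiv_eq]
      rw [show x0 + s' • w = x0 + s • w + (s' - s) • w by rw [sub_smul]; abel, hk]
      exact hs i
    have huniv : S = univ := IsClopen.eq_univ ⟨hcl, hop⟩ ⟨0, fun i => by simp⟩
    ext i
    have : (1:ℝ) ∈ S := huniv ▸ mem_univ _
    simpa [gr] using this i
  refine ⟨gr x1, fun x => ?_⟩
  by_cases hx : gr x = 0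
  · exact ⟨0, fun i => by
      have : gr x i = 0 := by rw [hx]; rfl
      simpa [gr] using this⟩
  have hx1 : gr x1 ≠ 0 := fun h => hb1 (by
    have : gr x1 b1 = 0 := by rw [h]; rfl
    simpa [gr] using this)
  set a := gr x1 with ha
  set c := gr x with hc
  set l := inner ℝ a c / inner ℝ a a with hl
  have haa : inner ℝ a a ≠ 0 := fun h => hx1 (inner_self_eq_zero.1 h)
  refine ⟨l, fun i => ?_⟩
  set d := c - l • a with hd'
  have hperp : inner ℝ d a = 0 := by
    rw [hd', inner_sub_left, real_inner_smul_left, real_inner_comm a c, hl]; field_simp; ring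
  by_cases hdz : d = 0
  · have : c i = l * a i := by
      rw [hd', sub_eq_zero] at hdz; rw [hdz]; simp
    simpa [hc, gr] using this
  exfalso
  have hcd : inner ℝ d c ≠ 0 := by
    have e : c = d + l • a := by rw [hd']; abel
    rw [e, inner_add_right, real_inner_smul_right, hperp, mul_zero, add_zero]
    exact fun h => hdz (inner_self_eq_zero.1 h)
  set al := inner ℝ (x - x1) c / inner ℝ d c with hal
  have e1 := hline x1 hx1 (al • d) (by rw [real_inner_smul_left, hperp, mul_zero])
  have e2 := hline x hx (x1 + al • d - x) (by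
    rw [show x1 + al • d - x = al • d - (x - x1) by abel, inner_sub_left, real_inner_smul_left, hal]
    field_simp; ring)
  rw [show x + (x1 + al • d - x) = x1 + al • d by abel, e1] at e2
  apply hdz
  have hca : c = a := by rw [hc, ha, e2]
  have hl1 : l = 1 := by rw [hl, hca, div_self haa]
  rw [hd', hl1, one_smul, hca, sub_self]

variable {u v : Sp n → ℝ} {m : Fin n}

lemma dd_comp_line {h : ℝ → ℝ} (hh : Differentiable ℝ h) (e a x : Sp n) :
    dd a (fun y => h (inner ℝ e y)) x = deriv h (inner ℝ e x) * inner ℝ e a := by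
  have hlin : HasFDerivAt (fun y : Sp n => inner ℝ e y) (innerSL ℝ e) x := (innerSL ℝ e).hasFDerivAt
  have := ((hh (inner ℝ e x)).hasDerivAt.comp_hasFDerivAt x hlin).fderiv
  show fderiv ℝ (h ∘ fun y => inner ℝ e y) x a = _
  rw [this]
  simp

/-- Scalar ODE satisfied by the profile of a one-dimensional weak solution. -/
lemma profile_ode {h : ℝ → ℝ} (hh : ContDiff ℝ 1 h) {e : Sp n} (he : ‖e‖ = 1)
    (hweak : ∀ η : Sp n → ℝ, ContDiff ℝ 1 η → HasCompactSupport η →
      ∫ x, (deriv h (inner ℝ e x) * dd e η x + (h (inner ℝ e x) ^ 3 - h (inner ℝ e x)) * η x) = 0) :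
    ∀ s, HasDerivAt (deriv h) (h s ^ 3 - h s) s := by
  have hhc := hh.continuous
  have hf : Continuous fun s => h s ^ 3 - h s := by fun_prop
  set K : ℝ → ℝ := fun s => ∫ t in (0:ℝ)..s, (h t ^ 3 - h t) with hK
  have hKd : ∀ s, HasDerivAt K (h s ^ 3 - h s) s := fun s =>
    intervalIntegral.integral_hasDerivAt_right (hf.intervalIntegrable _ _)
      (hf.stronglyMeasurableAtFilter _ _) hf.continuousAt
  have hK1 : ContDiff ℝ 1 K := by
    rw [contDiff_one_iff_deriv]
    exact ⟨fun s => (hKd s).differentiableAt, by rw [funext fun s => (hKd s).deriv]; exact hf⟩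
  have hdh : Continuous (deriv h) := hh.continuous_deriv le_rfl
  set k : ℝ → ℝ := fun s => deriv h s - K s with hk
  have hkc : Continuous k := hdh.sub hK1.continuous
  have hin : Continuous fun x : Sp n => inner ℝ e x := by fun_prop
  have hee : inner ℝ e e = (1:ℝ) := by rw [real_inner_self_eq_norm_sq, he]; norm_num
  have hzero : ∀ η : Sp n → ℝ, ContDiff ℝ 1 η → HasCompactSupport η →
      ∫ x, dd e η x * k (inner ℝ e x) = 0 := by
    intro η hη hc
    have hKi : ContDiff ℝ 1 fun x : Sp n => K (inner ℝ e x) :=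
      hK1.comp (innerSL ℝ e).contDiff
    have := ibp hKi hη hc e
    simp only [dd_comp_line (hK1.differentiable one_ne_zero), (hKd _).deriv, hee, mul_one] at this
    have hw := hweak η hη hc
    have i1 : Integrable fun x => deriv h (inner ℝ e x) * dd e η x :=
      integrable_mul_compact (hdh.comp hin) (dd_continuous hη e) (dd_hasCompactSupport hc e)
    have i2 : Integrable fun x => (h (inner ℝ e x) ^ 3 - h (inner ℝ e x)) * η x :=
      integrable_mul_compact (hf.comp hin) hη.continuous hc
    have i3 : Integrable fun x => K (inner ℝ e x) * dd e η x :=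
      integrable_mul_compact (hK1.continuous.comp hin) (dd_continuous hη e) (dd_hasCompactSupport hc e)
    rw [integral_add i1 i2] at hw
    have e2 : (fun x => dd e η x * k (inner ℝ e x))
        = fun x => deriv h (inner ℝ e x) * dd e η x - K (inner ℝ e x) * dd e η x := by
      funext x; simp only [hk]; ring
    rw [e2, integral_sub i1 i3, this]
    linarith
  have hconst : ∀ a, k a = k 0 := by
    intro a
    by_contra hne
    set σ := k a - k 0 with hσ
    have hD : Continuous fun x : Sp n => σ * (k (inner ℝ e x + a) - k (inner ℝ e x)) := by fun_prop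
    obtain ⟨δ, hδ, hpos⟩ := Metric.eventually_nhds_iff.1
      ((hD.tendsto 0).eventually (eventually_gt_nhds (b := (0:ℝ)) (by
        simp only [inner_zero_right, zero_add]; exact mul_self_pos.2 (sub_ne_zero.2 hne))))
    let ζ : ContDiffBump (0 : Sp n) := ⟨δ / 4, δ / 2, by positivity, by linarith⟩
    have hζ1 : ContDiff ℝ 1 (ζ : Sp n → ℝ) := ζ.contDiff
    have hd : ∀ s, HasDerivAt (fun s : ℝ => ∫ x, ζ (x - s • e) * k (inner ℝ e x)) 0 s := by
      intro s
      have h1 := shift_deriv hζ1 ζ.hasCompactSupport (hkc.comp hin) e s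
      have h2 := hzero (fun x => ζ (x + -(s • e))) (hζ1.comp (contDiff_id.add contDiff_const))
        (ζ.hasCompactSupport.comp_homeomorph (Homeomorph.addRight (-(s • e))))
      simp only [dd_translate] at h2
      simp only [← sub_eq_add_neg] at h2
      simp only [Function.comp_apply] at h1
      rw [h2, neg_zero] at h1
      exact h1
    have := is_const_of_deriv_eq_zero (fun s => (hd s).differentiableAt) (fun s => (hd s).deriv) a 0
    simp only [zero_smul, sub_zero] at this
    rw [← integral_add_right_eq_self (fun x => ζ (x - a • e) * k (inner ℝ e x)) (a • e)] at this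
    simp only [add_sub_cancel_right, inner_add_right, real_inner_smul_right, hee, mul_one] at this
    have hI : ∀ F : Sp n → ℝ, Continuous F → Integrable fun x => ζ x * F x := fun F hF =>
      (ζ.continuous.mul hF).integrable_of_hasCompactSupport ζ.hasCompactSupport.mul_right
    have hz : ∫ x, ζ x * (σ * (k (inner ℝ e x + a) - k (inner ℝ e x))) = 0 := by
      have e3 : (fun x => ζ x * (σ * (k (inner ℝ e x + a) - k (inner ℝ e x))))
          = fun x => σ * (ζ x * k (inner ℝ e x + a) - ζ x * k (inner ℝ e x)) := by funext x; ring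
      rw [e3, integral_const_mul, integral_sub (hI (fun x => k (inner ℝ e x + a)) (by fun_prop))
        (hI (fun x => k (inner ℝ e x)) (by fun_prop)), this, sub_self, mul_zero]
    have hnn : 0 ≤ fun x => ζ x * (σ * (k (inner ℝ e x + a) - k (inner ℝ e x))) := by
      intro x
      by_cases hx : x ∈ Function.support (ζ : Sp n → ℝ)
      · rw [ζ.support_eq, mem_ball] at hx
        exact mul_nonneg ζ.nonneg (hpos (lt_trans hx (by show δ / 2 < δ; linarith))).le
      · simp [Function.notMem_support.1 hx]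
    have : 0 < ∫ x, ζ x * (σ * (k (inner ℝ e x + a) - k (inner ℝ e x))) := by
      rw [integral_pos_iff_support_of_nonneg hnn (hI _ hD)]
      refine (measure_ball_pos volume (0 : Sp n) (show 0 < δ / 4 by positivity)).trans_le
        (measure_mono fun x hx => ?_)
      have h1 : ζ x = 1 := ζ.one_of_mem_closedBall (ball_subset_closedBall hx)
      have h2 := hpos (y := x) ((mem_ball.1 hx).trans (by linarith))
      simp only [Function.mem_support, h1, one_mul]
      exact h2.ne'
    linarith
  intro s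
  have : deriv h = fun s => K s + k 0 := funext fun s => by
    have := hconst s; simp only [hk] at this ⊢; linarith
  rw [this]
  exact (hKd s).add_const _

lemma dd_scale {ψ : Sp n → ℝ} (hψ : Differentiable ℝ ψ) (R : ℝ) (a x : Sp n) :
    dd a (fun y => ψ (R • y)) x = R * dd a ψ (R • x) := by
  have h0 : Differentiable ℝ fun y : Sp n => R • y := differentiable_id.const_smul R
  have h1 := line_hasDerivAt (w := fun y => ψ (R • y)) (fun y => (hψ _).comp y (h0 y)) x a 0
  have h2 := line_hasDerivAt hψ (R • x) (R • a) 0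
  simp only [zero_smul, add_zero] at h1 h2
  have e : (fun r : ℝ => ψ (R • (x + r • a))) = fun r : ℝ => ψ (R • x + r • R • a) := by
    funext r; rw [smul_add, smul_comm]
  rw [e] at h1
  rw [h1.unique h2]
  simp [dd]

/-- A negative value of the first integral contradicts the stability of the profile. -/
lemma first_integral_nonneg (hp : LimSol v) {I : ℝ}
    (hE : ∀ x, (∑ i, dd (ev i) v x ^ 2) / 2 - (1 - v x ^ 2) ^ 2 / 4 = I) : 0 ≤ I := by
  by_contra hneg
  push Not at hneg
  set ξf : Sp n → ℝ := fun x => 1 - v x * v x with hξf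
  have hξc : ContDiff ℝ 1 ξf := contDiff_const.sub (hp.smooth.mul hp.smooth)
  set δ := Real.sqrt (-4 * I) with hδ
  have hδ0 : 0 < δ := Real.sqrt_pos.2 (by linarith)
  have hξlow : ∀ x, δ ≤ ξf x := by
    intro x
    have h2 := hE x
    have h3 : v x * v x ≤ 1 := by
      have := (sq_le_one_iff_abs_le_one _).2 (hp.bdd x); nlinarith
    have h4 : 0 ≤ ∑ i, dd (ev i) v x ^ 2 := Finset.sum_nonneg fun i _ => sq_nonneg _
    rw [hδ, Real.sqrt_le_left (by simp only [hξf]; linarith)]
    simp only [hξf]
    nlinarith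
  let ψ : ContDiffBump (0 : Sp n) := ⟨1, 2, one_pos, one_lt_two⟩
  have hψ : ContDiff ℝ 1 (ψ : Sp n → ℝ) := ψ.contDiff
  set A := ∫ x, (ψ x) ^ 2 with hA
  set B := ∫ x, ∑ i, dd (ev i) (ψ : Sp n → ℝ) x ^ 2 with hB
  have hsqc : HasCompactSupport fun x => (ψ x) ^ 2 := by
    simp only [sq]; exact ψ.hasCompactSupport.mul_right
  have hA0 : 0 < A := by
    rw [hA, integral_pos_iff_support_of_nonneg (fun x => sq_nonneg _)
      ((ψ.continuous.pow 2).integrable_of_hasCompactSupport hsqc)]
    refine (measure_ball_pos volume (0 : Sp n) one_pos).trans_le (measure_mono fun x hx => ?_)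
    simp [ψ.one_of_mem_closedBall (ball_subset_closedBall hx)]
  have hmain : ∀ R : ℝ, 0 < R → 0 ≤ R ^ 2 * B + 4 * I * δ * A := by
    intro R hR
    let φR : Sp n → ℝ := fun x => ψ (R • x)
    have hφR : ContDiff ℝ 1 φR := hψ.comp (contDiff_id.const_smul R)
    have hφc : HasCompactSupport φR := ψ.hasCompactSupport.comp_homeomorph (Homeomorph.smulOfNeZero R hR.ne')
    let η : Sp n → ℝ := fun x => φR x * ξf x
    have hη : ContDiff ℝ 1 η := hφR.mul hξc
    have hηc : HasCompactSupport η := hφc.mul_right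
    let ζ : Sp n → ℝ := fun x => (-2) * v x * (ξf x * (φR x * φR x))
    have hζ : ContDiff ℝ 1 ζ := (contDiff_const.mul hp.smooth).mul (hξc.mul (hφR.mul hφR))
    have hζc : HasCompactSupport ζ := hφc.mul_right.mul_left.mul_left
    have hs := hp.stable hη hηc
    have hw := hp.weak hζ hζc
    have hdξ : ∀ a x, dd a ξf x = -2 * v x * dd a v x := by
      intro a x
      simp only [hξf]
      rw [dd_sub (differentiable_const 1) (hp.diff.fun_mul hp.diff), dd_mul hp.diff hp.diff]
      simp [dd]; ring
    have hfd := hφR.differentiable one_ne_zero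
    have hξd := hξc.differentiable one_ne_zero
    have hpt : ∀ x, ((∑ i, dd (ev i) η x ^ 2) + (3 * v x ^ 2 - 1) * η x ^ 2)
        - ((∑ i, dd (ev i) v x * dd (ev i) ζ x) + (v x ^ 3 - v x) * ζ x)
        = ξf x ^ 2 * (∑ i, dd (ev i) φR x ^ 2) + 4 * I * (ξf x * φR x ^ 2) := by
      intro x
      have d1 : ∀ i, dd (ev i) η x = φR x * dd (ev i) ξf x + ξf x * dd (ev i) φR x := fun i =>
        dd_mul hfd hξd _ _
      have d2 : ∀ i, dd (ev i) ζ x = (-2 * v x) * (ξf x * (2 * φR x * dd (ev i) φR x)
          + φR x * φR x * dd (ev i) ξf x) + ξf x * (φR x * φR x) * (-2 * dd (ev i) v x) := by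
        intro i
        simp only [ζ]
        rw [dd_mul (hp.diff.const_mul (-2)) (hξd.fun_mul (hfd.fun_mul hfd)),
          dd_mul hξd (hfd.fun_mul hfd), dd_mul hfd hfd,
          dd_mul (differentiable_const (-2)) hp.diff,
          show dd (ev i) (fun _ : Sp n => (-2:ℝ)) x = 0 by simp [dd]]
        ring
      have hf1 := hE x
      simp only [d1, d2, hdξ, η, ζ]
      have es : (∑ i, (φR x * (-2 * v x * dd (ev i) v x) + ξf x * dd (ev i) φR x) ^ 2)
          - ∑ i, dd (ev i) v x * ((-2 * v x) * (ξf x * (2 * φR x * dd (ev i) φR x)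
          + φR x * φR x * (-2 * v x * dd (ev i) v x)) + ξf x * (φR x * φR x) * (-2 * dd (ev i) v x))
          = ξf x ^ 2 * (∑ i, dd (ev i) φR x ^ 2) + 2 * ξf x * φR x ^ 2 * ∑ i, dd (ev i) v x ^ 2 := by
        rw [Finset.mul_sum, Finset.mul_sum, ← Finset.sum_sub_distrib, ← Finset.sum_add_distrib]
        exact Finset.sum_congr rfl fun i _ => by ring
      have hxi : ξf x = 1 - v x * v x := rfl
      simp only [hxi] at es ⊢
      linear_combination es + 4 * (1 - v x * v x) * φR x ^ 2 * hf1
    have hηd := fun i => dd_continuous hη (ev i)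
    have hI1 : Integrable fun x => (∑ i, dd (ev i) η x ^ 2) + (3 * v x ^ 2 - 1) * η x ^ 2 := by
      refine Integrable.add (integrable_finsetSum _ fun i _ => ?_) ?_
      · simp only [sq]; exact integrable_mul_compact (hηd i) (hηd i) (dd_hasCompactSupport hηc _)
      · simp only [sq, ← mul_assoc]
        exact integrable_mul_compact (by have := hp.cont; have := hη.continuous; fun_prop)
          hη.continuous hηc
    have hI2 : Integrable fun x => (∑ i, dd (ev i) v x * dd (ev i) ζ x) + (v x ^ 3 - v x) * ζ x :=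
      Integrable.add (integrable_finsetSum _ fun i _ => integrable_mul_compact (hp.ddcont _)
        (dd_continuous hζ _) (dd_hasCompactSupport hζc _))
        (integrable_mul_compact (by have := hp.cont; fun_prop) hζ.continuous hζc)
    have hsub : (0:ℝ) ≤ ∫ x, (((∑ i, dd (ev i) η x ^ 2) + (3 * v x ^ 2 - 1) * η x ^ 2)
        - ((∑ i, dd (ev i) v x * dd (ev i) ζ x) + (v x ^ 3 - v x) * ζ x)) := by
      rw [integral_sub hI1 hI2, hw, sub_zero]; exact hs
    simp only [hpt] at hsub
    have hdφ : ∀ i x, dd (ev i) φR x = R * dd (ev i) (ψ : Sp n → ℝ) (R • x) := fun i x =>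
      dd_scale (hψ.differentiable one_ne_zero) R _ x
    have hgc : Continuous fun x => ∑ i, dd (ev i) (ψ : Sp n → ℝ) x ^ 2 :=
      continuous_finsetSum _ fun i _ => (dd_continuous hψ _).pow 2
    have hgs : HasCompactSupport fun x => ∑ i, dd (ev i) (ψ : Sp n → ℝ) x ^ 2 :=
      HasCompactSupport.intro ψ.hasCompactSupport.isCompact fun x hx => by
        simp [dd, fderiv_of_notMem_tsupport ℝ hx]
    have hgI := hgc.integrable_of_hasCompactSupport (μ := volume) hgs
    have hψI := (ψ.continuous.pow 2).integrable_of_hasCompactSupport (μ := volume) hsqc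
    have hup : ∀ x, ξf x ^ 2 * (∑ i, dd (ev i) φR x ^ 2) + 4 * I * (ξf x * φR x ^ 2)
        ≤ R ^ 2 * (∑ i, dd (ev i) (ψ : Sp n → ℝ) (R • x) ^ 2) + 4 * I * δ * ψ (R • x) ^ 2 := by
      intro x
      refine add_le_add ?_ ?_
      · simp only [hdφ, mul_pow, ← Finset.mul_sum]
        refine mul_le_of_le_one_left (by positivity) ?_
        have h5 := hξlow x
        have : ξf x ≤ 1 := by simp only [hξf]; nlinarith [mul_self_nonneg (v x)]
        exact pow_le_one₀ (by linarith) this
      · have h5 := mul_le_mul_of_nonneg_right (hξlow x) (sq_nonneg (ψ (R • x)))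
        simp only [φR]
        nlinarith
    have hL1 : Integrable fun x => ξf x ^ 2 * (∑ i, dd (ev i) φR x ^ 2) + 4 * I * (ξf x * φR x ^ 2) := by
      refine (hI1.sub hI2).congr (Eventually.of_forall fun x => ?_)
      simpa using hpt x
    have hi1 := (hgI.comp_smul hR.ne').const_mul (R ^ 2)
    have hi2 := (hψI.comp_smul hR.ne').const_mul (4 * I * δ)
    have h6 := hsub.trans (integral_mono hL1 (hi1.add hi2) hup)
    simp only [Pi.add_apply] at h6
    rw [integral_add hi1 hi2, integral_const_mul, integral_const_mul] at h6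
    simp only [Pi.pow_apply] at h6
    have e1 := Measure.integral_comp_smul_of_nonneg (μ := (volume : Measure (Sp n)))
      (fun x => ∑ i, dd (ev i) (ψ : Sp n → ℝ) x ^ 2) R (hR := hR.le)
    have e2 := Measure.integral_comp_smul_of_nonneg (μ := (volume : Measure (Sp n)))
      (fun x => (ψ x) ^ 2) R (hR := hR.le)
    simp only [smul_eq_mul] at e1 e2
    rw [e1, e2, ← hA, ← hB] at h6
    have hp0 : 0 < (R ^ Module.finrank ℝ (Sp n))⁻¹ := by positivity
    nlinarith
  have hR2 : Tendsto (fun R : ℝ => R ^ 2 * B + 4 * I * δ * A) (𝓝[>] 0) (𝓝 (4 * I * δ * A)) := by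
    have hcont : Continuous fun R : ℝ => R ^ 2 * B + 4 * I * δ * A := by fun_prop
    simpa using (hcont.tendsto 0).mono_left (nhdsWithin_le_nhds (s := Ioi (0:ℝ)))
  have hge : 0 ≤ 4 * I * δ * A :=
    ge_of_tendsto hR2 (eventually_nhdsWithin_of_forall fun R hR => hmain R hR)
  nlinarith [mul_pos hδ0 hA0]

/-- A solution of the first order equation touching a well is constant. -/
lemma const_of_touch {h1 : ℝ → ℝ} (hd2 : ∀ s, HasDerivAt h1 (deriv h1 s) s)
    (hb2 : ∀ s, h1 s ^ 2 ≤ 1) (hmag : ∀ s, deriv h1 s ^ 2 = (1 - h1 s ^ 2) ^ 2 / 2)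
    {s0 : ℝ} (hs0 : h1 s0 ^ 2 = 1) : ∀ s, h1 s = h1 s0 := by
  set c0 := h1 s0 with hc0
  set Z : ℝ → ℝ := fun s => (h1 s - c0) ^ 2 with hZ
  have hZd : ∀ s, HasDerivAt Z (2 * (h1 s - c0) * deriv h1 s) s := fun s => by
    refine (((hd2 s).sub_const c0).fun_pow 2).congr_deriv ?_
    push_cast; ring
  have hbound : ∀ s, |2 * (h1 s - c0) * deriv h1 s| ≤ 4 * Z s := by
    intro s
    have hq : deriv h1 s ^ 2 ≤ (2 * (h1 s - c0)) ^ 2 := by
      rw [hmag]
      rcases sq_eq_one_iff.1 hs0 with hc | hc <;> rw [hc] <;>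
        nlinarith [mul_le_mul_of_nonneg_left (hb2 s) (sq_nonneg (h1 s - 1)),
          sq_nonneg (h1 s - 1), sq_nonneg (h1 s + 1), hb2 s,
          mul_le_mul_of_nonneg_left (hb2 s) (sq_nonneg (h1 s + 1))]
    have ha := sq_le_sq.1 hq
    calc |2 * (h1 s - c0) * deriv h1 s| = |2 * (h1 s - c0)| * |deriv h1 s| := abs_mul _ _
      _ ≤ |2 * (h1 s - c0)| * |2 * (h1 s - c0)| := mul_le_mul_of_nonneg_left ha (abs_nonneg _)
      _ = 4 * Z s := by rw [← abs_mul, abs_mul_self]; simp only [hZ]; ring
  intro s
  have hm1 : Antitone fun s => Z s * Real.exp (-4 * s) := by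
    refine antitone_of_hasDerivAt_nonpos
      (fun s => (hZd s).fun_mul ((hasDerivAt_id s).const_mul (-4)).exp) fun s => ?_
    have := (abs_le.mp (hbound s)).2
    have he := Real.exp_pos (-4 * s)
    simp only [id_eq, Pi.zero_apply]
    nlinarith
  have hm2 : Monotone fun s => Z s * Real.exp (4 * s) := by
    refine monotone_of_hasDerivAt_nonneg
      (fun s => (hZd s).fun_mul ((hasDerivAt_id s).const_mul 4).exp) fun s => ?_
    have := (abs_le.mp (hbound s)).1
    have he := Real.exp_pos (4 * s)
    simp only [id_eq, Pi.zero_apply]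
    nlinarith
  have hZ0 : Z s0 = 0 := by simp [hZ, hc0]
  have hzs : Z s = 0 := by
    refine le_antisymm ?_ (sq_nonneg _)
    rcases le_total s0 s with hle | hle
    · have h3 := hm1 hle
      simp only [hZ0, zero_mul] at h3
      nlinarith [Real.exp_pos (-4 * s)]
    · have h3 := hm2 hle
      simp only [hZ0, zero_mul] at h3
      nlinarith [Real.exp_pos (4 * s)]
  simp only [hZ] at hzs
  linarith [pow_eq_zero_iff (two_ne_zero) |>.1 hzs]

lemma sign_deriv {h1 : ℝ → ℝ} (hC1 : ContDiff ℝ 1 h1) (hb2 : ∀ s, h1 s ^ 2 ≤ 1)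
    (hmag : ∀ s, deriv h1 s ^ 2 = (1 - h1 s ^ 2) ^ 2 / 2) (hne : ∀ s, deriv h1 s ≠ 0) :
    ∃ σ : ℝ, |σ| = 1 ∧ ∀ s, deriv h1 s ^ 2 ≤ σ * deriv h1 s := by
  have hsmall : ∀ s, |deriv h1 s| ≤ 1 := fun s => by
    rw [← sq_le_one_iff_abs_le_one, hmag]
    nlinarith [hb2 s, sq_nonneg (h1 s)]
  have hcd : Continuous (deriv h1) := hC1.continuous_deriv le_rfl
  by_cases h00 : 0 < deriv h1 0
  · refine ⟨1, by norm_num, fun s => ?_⟩
    have hs : 0 < deriv h1 s := by
      by_contra hc'
      push Not at hc'
      obtain ⟨t, ht⟩ := intermediate_value_univ s 0 hcd ⟨hc', h00.le⟩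
      exact hne t ht
    nlinarith [abs_le.mp (hsmall s)]
  · refine ⟨-1, by norm_num, fun s => ?_⟩
    have hs : deriv h1 s < 0 := by
      by_contra hc'
      push Not at hc' h00
      obtain ⟨t, ht⟩ := intermediate_value_univ 0 s hcd ⟨h00, hc'⟩
      exact hne t ht
    nlinarith [abs_le.mp (hsmall s)]

/-- The energy of the limit profile in a region is controlled by the size of the boundary layer. -/
lemma profile_energy (hn : 0 < n) (hp : LimSol v) {c : Sp n}
    (hpar : ∀ x, ∃ l : ℝ, ∀ i, dd (ev i) v x = l * c i) {φ : Sp n → ℝ}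
    (hφ : ContDiff ℝ 1 φ) (hc : HasCompactSupport φ) (hφ0 : ∀ x, 0 ≤ φ x) :
    energy v φ ≤ ∫ x, ∑ i, |dd (ev i) φ x| := by
  obtain ⟨e, he, hrep⟩ := oneDim_of_parallel hp.diff hpar hn
  set h1 : ℝ → ℝ := fun s => v (s • e) with hh1
  have hC1 : ContDiff ℝ 1 h1 := hp.smooth.comp (contDiff_id.smul contDiff_const)
  have hd1 : Differentiable ℝ h1 := hC1.differentiable one_ne_zero
  have hrep' : v = fun x => h1 (inner ℝ e x) := funext hrep
  have hdv : ∀ a x, dd a v x = deriv h1 (inner ℝ e x) * inner ℝ e a := fun a x => by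
    conv_lhs => rw [hrep']
    exact dd_comp_line hd1 e a x
  have hsum : ∀ (η : Sp n → ℝ) x, ∑ i, dd (ev i) v x * dd (ev i) η x
      = deriv h1 (inner ℝ e x) * dd e η x := by
    intro η x
    rw [dd_sum e η x, Finset.mul_sum]
    refine Finset.sum_congr rfl fun i _ => ?_
    rw [hdv, show inner ℝ e (ev i) = e i by simp [ev, EuclideanSpace.inner_single_right]]; ring
  have hgrad2 : ∀ x, ∑ i, dd (ev i) v x ^ 2 = deriv h1 (inner ℝ e x) ^ 2 := by
    intro x
    simp only [hdv, mul_pow, ← Finset.mul_sum]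
    have : ∑ i, inner ℝ e (ev i) ^ 2 = (1:ℝ) := by
      have h2 : ‖e‖ ^ 2 = ∑ i, e i ^ 2 := EuclideanSpace.real_norm_sq_eq e
      rw [he] at h2
      simp only [ev, EuclideanSpace.inner_single_right]
      simpa using h2.symm
    rw [this, mul_one]
  have hode := profile_ode hC1 he (fun η hη hηc => by
    have := hp.weak hη hηc
    simp only [hsum] at this
    rw [hrep'] at this
    exact this)
  have hd2 : ∀ s, HasDerivAt h1 (deriv h1 s) s := fun s => (hd1 s).hasDerivAt
  -- first integral
  set I : ℝ := deriv h1 0 ^ 2 / 2 - (1 - h1 0 ^ 2) ^ 2 / 4 with hI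
  have hfirst : ∀ s, deriv h1 s ^ 2 / 2 - (1 - h1 s ^ 2) ^ 2 / 4 = I := by
    intro s
    have hzero : ∀ t, HasDerivAt (fun t => deriv h1 t ^ 2 / 2 - (1 - h1 t ^ 2) ^ 2 / 4) 0 t := by
      intro t
      have := (((hode t).fun_pow 2).div_const 2).fun_sub
        (((((hd2 t).fun_pow 2).const_sub 1).fun_pow 2).div_const 4)
      refine this.congr_deriv ?_
      push_cast; ring
    exact is_const_of_deriv_eq_zero (fun t => (hzero t).differentiableAt) (fun t => (hzero t).deriv) s 0
  have hb : ∀ s, |h1 s| ≤ 1 := fun s => hp.bdd _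
  have hb2 : ∀ s, h1 s ^ 2 ≤ 1 := fun s => (sq_le_one_iff_abs_le_one _).2 (hb s)
  have hIle : I ≤ 0 := by
    by_contra hpos
    push Not at hpos
    have hs : 0 < Real.sqrt (2 * I) := Real.sqrt_pos.2 (by linarith)
    set L := 3 / Real.sqrt (2 * I) with hL
    have hL0 : 0 < L := by positivity
    obtain ⟨ξ, -, hξ⟩ := exists_hasDerivAt_eq_slope h1 (deriv h1) hL0 hd1.continuous.continuousOn
      (fun t _ => hd2 t)
    have h2 : Real.sqrt (2 * I) ≤ |deriv h1 ξ| := by
      rw [← Real.sqrt_sq_eq_abs]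
      exact Real.sqrt_le_sqrt (by nlinarith [hfirst ξ, sq_nonneg (1 - h1 ξ ^ 2)])
    rw [hξ, sub_zero, abs_div, abs_of_pos hL0, le_div_iff₀ hL0] at h2
    have h3 : Real.sqrt (2 * I) * L = 3 := by rw [hL]; field_simp
    have := abs_sub (h1 L) (h1 0)
    linarith [hb L, hb 0]
  have hI0 : I = 0 := le_antisymm hIle (first_integral_nonneg hp fun x => by
    rw [hgrad2, show v x = h1 (inner ℝ e x) from hrep x]; exact hfirst _)
  have hmag : ∀ s, deriv h1 s ^ 2 = (1 - h1 s ^ 2) ^ 2 / 2 := fun s => by
    have := hfirst s; rw [hI0] at this; linarith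
  -- the density is the square of the derivative
  have hdens : energy v φ = ∫ x, φ x * deriv h1 (inner ℝ e x) ^ 2 := by
    simp only [energy, hgrad2]
    congr 1; funext x
    have h2 := hmag (inner ℝ e x)
    have hvx : v x = h1 (inner ℝ e x) := hrep x
    rw [hvx]; linear_combination -(φ x / 2) * h2
  by_cases hflat : ∃ s0, h1 s0 ^ 2 = 1
  · obtain ⟨s0, hs0⟩ := hflat
    set c0 := h1 s0 with hc0
    have hz : ∀ s, h1 s = c0 := const_of_touch hd2 hb2 hmag hs0
    have hz2 : ∀ s, deriv h1 s ^ 2 = 0 := fun s => by rw [hmag, hz, hs0]; norm_num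
    rw [hdens]
    simp only [hz2, mul_zero, integral_zero]
    exact integral_nonneg fun x => Finset.sum_nonneg fun i _ => abs_nonneg _
  push Not at hflat
  have hne : ∀ s, deriv h1 s ≠ 0 := fun s h0 => by
    have := hmag s; rw [h0] at this
    exact hflat s (by nlinarith [sq_nonneg (1 - h1 s ^ 2)])
  obtain ⟨σ, hσ, hsign⟩ := sign_deriv hC1 hb2 hmag hne
  rw [hdens]
  have hde : ∀ x, dd e v x = deriv h1 (inner ℝ e x) := fun x => by
    rw [hdv, real_inner_self_eq_norm_sq, he]; norm_num
  have hcd1 := hp.ddcont e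
  have hS : Continuous fun x => ∑ i, |dd (ev i) φ x| :=
    continuous_finsetSum _ fun i _ => (dd_continuous hφ _).abs
  have hSc : HasCompactSupport fun x => ∑ i, |dd (ev i) φ x| :=
    HasCompactSupport.intro hc.isCompact fun x hx => by simp [dd, fderiv_of_notMem_tsupport ℝ hx]
  have he1 : ∀ i, |e i| ≤ 1 := fun i => by
    have := PiLp.norm_apply_le e i; rw [he] at this; simpa using this
  calc ∫ x, φ x * deriv h1 (inner ℝ e x) ^ 2
      ≤ ∫ x, σ * (φ x * dd e v x) := by
        refine integral_mono_of_nonneg (Eventually.of_forall fun x => mul_nonneg (hφ0 x) (sq_nonneg _))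
          ((hφ.continuous.mul hcd1).integrable_of_hasCompactSupport hc.mul_right |>.const_mul σ)
          (Eventually.of_forall fun x => ?_)
        simp only [hde]
        rw [show σ * (φ x * deriv h1 (inner ℝ e x)) = φ x * (σ * deriv h1 (inner ℝ e x)) by ring]
        exact mul_le_mul_of_nonneg_left (hsign _) (hφ0 x)
    _ = σ * -(∫ x, v x * dd e φ x) := by
        rw [integral_const_mul, ibp hp.smooth hφ hc e, neg_neg]
        congr 1; congr 1; funext x; ring
    _ ≤ |σ * -(∫ x, v x * dd e φ x)| := le_abs_self _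
    _ ≤ ∫ x, ∑ i, |dd (ev i) φ x| := by
        rw [abs_mul, hσ, one_mul, abs_neg]
        refine abs_integral_le_integral_abs.trans (integral_mono_of_nonneg
          (Eventually.of_forall fun x => abs_nonneg _) (hS.integrable_of_hasCompactSupport hSc)
          (Eventually.of_forall fun x => ?_))
        show |v x * dd e φ x| ≤ _
        rw [abs_mul]
        refine (mul_le_of_le_one_left (abs_nonneg _) (hp.bdd x)).trans ?_
        rw [dd_sum]
        refine (Finset.abs_sum_le_sum_abs _ _).trans (Finset.sum_le_sum fun i _ => ?_)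
        rw [abs_mul]; exact mul_le_of_le_one_left (abs_nonneg _) (he1 i)

end Vale.Agent.P134
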