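import Vale.Agent.P134.Limit

/-! Compactness of bounded monotone solutions for convergence of values and first derivatives,
uniformly on compact sets, and the identities inherited by the limits. -/

open MeasureTheory Filter Topology Set Metric

noncomputable section

namespace Vale.Agent.P134

variable {n : ℕ} {m : Fin n} {w : ℕ → Sp n → ℝ} {W : Sp n → ℝ}

/-- Convergence of values and first derivatives, uniformly on compact sets. -/
structure C1Conv (w : ℕ → Sp n → ℝ) (W : Sp n → ℝ) : Prop where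
  smooth : ContDiff ℝ 1 W
  unif : ∀ K : Set (Sp n), IsCompact K → ∀ ε > 0, ∀ᶠ j in atTop, ∀ x ∈ K,
    |w j x - W x| ≤ ε ∧ ∀ i, |dd (ev i) (w j) x - dd (ev i) W x| ≤ ε

namespace C1Conv

lemma lim (hc : C1Conv w W) (x : Sp n) : Tendsto (fun j => w j x) atTop (𝓝 (W x)) := by
  refine Metric.tendsto_nhds.2 fun ε hε => ?_
  filter_upwards [hc.unif {x} isCompact_singleton (ε / 2) (half_pos hε)] with j hj
  rw [Real.dist_eq]
  exact (hj x rfl).1.trans_lt (half_lt_self hε)

lemma grad_lim (hc : C1Conv w W) (i : Fin n) (x : Sp n) :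
    Tendsto (fun j => dd (ev i) (w j) x) atTop (𝓝 (dd (ev i) W x)) := by
  refine Metric.tendsto_nhds.2 fun ε hε => ?_
  filter_upwards [hc.unif {x} isCompact_singleton (ε / 2) (half_pos hε)] with j hj
  rw [Real.dist_eq]
  exact ((hj x rfl).2 i).trans_lt (half_lt_self hε)

lemma bdd (hc : C1Conv w W) (hw : ∀ j, Sol (w j) m) (x : Sp n) : |W x| ≤ 1 :=
  le_of_tendsto' (hc.lim x).abs fun j => (hw j).bdd x

lemma comp (hc : C1Conv w W) {φ : ℕ → ℕ} (hφ : StrictMono φ) : C1Conv (fun j => w (φ j)) W :=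
  ⟨hc.smooth, fun K hK ε hε => hφ.tendsto_atTop.eventually (hc.unif K hK ε hε)⟩

lemma tendsto_integral {F : ℕ → Sp n → ℝ} {G : Sp n → ℝ} {K : Set (Sp n)} (hK : IsCompact K)
    (hF : ∀ j, Continuous (F j)) {C : ℝ} (hC : ∀ j x, x ∈ K → |F j x| ≤ C)
    (hz : ∀ j x, x ∉ K → F j x = 0) (hlim : ∀ x, Tendsto (fun j => F j x) atTop (𝓝 (G x))) :
    Tendsto (fun j => ∫ x, F j x) atTop (𝓝 (∫ x, G x)) := by
  refine tendsto_integral_filter_of_dominated_convergence (K.indicator fun _ => C)
    (Eventually.of_forall fun j => (hF j).aestronglyMeasurable)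
    (Eventually.of_forall fun j => Eventually.of_forall fun x => ?_)
    ((integrableOn_const hK.measure_lt_top.ne).integrable_indicator hK.measurableSet)
    (Eventually.of_forall hlim)
  by_cases hx : x ∈ K
  · rw [indicator_of_mem hx]; exact hC j x hx
  · rw [indicator_of_notMem hx, hz j x hx, norm_zero]

lemma weak (hc : C1Conv w W) (hw : ∀ j, Sol (w j) m) {η : Sp n → ℝ} (hη : ContDiff ℝ 1 η)
    (hηc : HasCompactSupport η) :
    ∫ x, ((∑ i, dd (ev i) W x * dd (ev i) η x) + (W x ^ 3 - W x) * η x) = 0 := by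
  have hce := fun i => dd_continuous hη (ev i)
  obtain ⟨C, hC⟩ := hηc.isCompact.exists_bound_of_continuousOn
    (show Continuous fun x => (∑ i, gBound n * |dd (ev i) η x|) + |η x| by
      have := hη.continuous; fun_prop).continuousOn
  have key : Tendsto (fun j => ∫ x, ((∑ i, dd (ev i) (w j) x * dd (ev i) η x)
      + (w j x ^ 3 - w j x) * η x)) atTop
      (𝓝 (∫ x, ((∑ i, dd (ev i) W x * dd (ev i) η x) + (W x ^ 3 - W x) * η x))) := by
    refine tendsto_integral hηc.isCompact (fun j => ?_) (C := C) (fun j x hx => ?_)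
      (fun j x hx => ?_) (fun x => ?_)
    · have := (hw j).cont; have := fun i => (hw j).ddcont (ev i); have := hη.continuous; fun_prop
    · refine le_trans ?_ ((le_abs_self _).trans (hC x hx))
      refine (abs_add_le _ _).trans (add_le_add ((Finset.abs_sum_le_sum_abs _ _).trans
        (Finset.sum_le_sum fun i _ => ?_)) ?_)
      · rw [abs_mul]; exact mul_le_mul_of_nonneg_right ((hw j).grad_le i _) (abs_nonneg _)
      · rw [abs_mul]; exact mul_le_of_le_one_left (abs_nonneg _) (cubic_bound ((hw j).bdd _))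
    · simp [image_eq_zero_of_notMem_tsupport hx, dd, fderiv_of_notMem_tsupport ℝ hx]
    · exact (tendsto_finsetSum _ fun i _ => (hc.grad_lim i x).mul_const _).add
        ((((hc.lim x).pow 3).sub (hc.lim x)).mul_const _)
  exact tendsto_nhds_unique key (tendsto_const_nhds.congr fun j => ((hw j).weak hη hηc).symm)

lemma stable (hc : C1Conv w W) (hw : ∀ j, Sol (w j) m) {η : Sp n → ℝ} (hη : ContDiff ℝ 1 η)
    (hηc : HasCompactSupport η) :
    0 ≤ ∫ x, ((∑ i, dd (ev i) η x ^ 2) + (3 * W x ^ 2 - 1) * η x ^ 2) := by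
  have hce := fun i => dd_continuous hη (ev i)
  obtain ⟨C, hC⟩ := hηc.isCompact.exists_bound_of_continuousOn
    (show Continuous fun x => (∑ i, dd (ev i) η x ^ 2) + 4 * η x ^ 2 by
      have := hη.continuous; fun_prop).continuousOn
  have key : Tendsto (fun j => ∫ x, ((∑ i, dd (ev i) η x ^ 2)
      + (3 * w j x ^ 2 - 1) * η x ^ 2)) atTop
      (𝓝 (∫ x, ((∑ i, dd (ev i) η x ^ 2) + (3 * W x ^ 2 - 1) * η x ^ 2))) := by
    refine tendsto_integral hηc.isCompact (fun j => ?_) (C := C) (fun j x hx => ?_)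
      (fun j x hx => ?_) (fun x => ?_)
    · have := (hw j).cont; have := hη.continuous; fun_prop
    · refine le_trans ?_ ((le_abs_self _).trans (hC x hx))
      refine (abs_add_le _ _).trans (add_le_add (le_of_eq (abs_of_nonneg
        (Finset.sum_nonneg fun i _ => sq_nonneg _))) ?_)
      rw [abs_mul, abs_of_nonneg (sq_nonneg (η x))]
      refine mul_le_mul_of_nonneg_right ?_ (sq_nonneg _)
      have : w j x ^ 2 ≤ 1 := (sq_le_one_iff_abs_le_one _).2 ((hw j).bdd x)
      rw [abs_le]; constructor <;> nlinarith [sq_nonneg (w j x)]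
    · simp [image_eq_zero_of_notMem_tsupport hx, dd, fderiv_of_notMem_tsupport ℝ hx]
    · exact tendsto_const_nhds.add
        ((((hc.lim x).pow 2).const_mul 3 |>.sub_const 1).mul_const _)
  exact ge_of_tendsto' key fun j => (hw j).stable hη hηc

lemma tendsto_energy (hc : C1Conv w W) (hw : ∀ j, Sol (w j) m) {φ : Sp n → ℝ}
    (hφ : ContDiff ℝ 1 φ) (hφc : HasCompactSupport φ) :
    Tendsto (fun j => energy (w j) φ) atTop (𝓝 (energy W φ)) := by
  obtain ⟨C, hC⟩ := hφc.isCompact.exists_bound_of_continuousOn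
    (show Continuous fun x => |φ x| * (n * gBound n ^ 2 + 1) by
      have := hφ.continuous; fun_prop).continuousOn
  simp only [energy]
  refine tendsto_integral hφc.isCompact (fun j => ?_) (C := C) (fun j x hx => ?_)
    (fun j x hx => ?_) (fun x => ?_)
  · have := (hw j).cont; have := fun i => (hw j).ddcont (ev i); have := hφ.continuous; fun_prop
  · refine le_trans ?_ ((le_abs_self _).trans (hC x hx))
    rw [abs_mul]
    refine mul_le_mul_of_nonneg_left ?_ (abs_nonneg _)
    have hs : ∑ i, dd (ev i) (w j) x ^ 2 ≤ n * gBound n ^ 2 := by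
      calc ∑ i, dd (ev i) (w j) x ^ 2 ≤ ∑ _i : Fin n, gBound n ^ 2 :=
            Finset.sum_le_sum fun i _ => sq_le_sq' (abs_le.mp ((hw j).grad_le i _)).1
              (abs_le.mp ((hw j).grad_le i _)).2
        _ = _ := by simp
    have hu2 : w j x ^ 2 ≤ 1 := (sq_le_one_iff_abs_le_one _).2 ((hw j).bdd _)
    have h0 : 0 ≤ ∑ i, dd (ev i) (w j) x ^ 2 := Finset.sum_nonneg fun i _ => sq_nonneg _
    rw [abs_of_nonneg (by positivity)]
    nlinarith [sq_nonneg (w j x)]
  · simp [image_eq_zero_of_notMem_tsupport hx]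
  · exact (((tendsto_finsetSum _ fun i _ => (hc.grad_lim i x).pow 2).div_const 2).add
      (((((hc.lim x).pow 2).const_sub 1).pow 2).div_const 4)).const_mul _

end C1Conv

/-- A locally uniformly Cauchy sequence of solutions converges with first derivatives. -/
lemma exists_c1_limit (hw : ∀ j, Sol (w j) m)
    (hC : ∀ K : Set (Sp n), IsCompact K → ∀ ε > 0, ∃ N : ℕ, ∀ j ≥ N, ∀ l ≥ N, ∀ x ∈ K,
      |w j x - w l x| ≤ ε) :
    ∃ W, C1Conv w W := by
  have hgp := gBound_pos n
  have hG : ∀ K : Set (Sp n), IsCompact K → ∀ ε > 0, ∃ N : ℕ, ∀ j ≥ N, ∀ l ≥ N, ∀ x ∈ K, ∀ i,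
      |dd (ev i) (w j) x - dd (ev i) (w l) x| ≤ ε := by
    intro K hK ε hε
    obtain ⟨ρ, hρ⟩ := hK.isBounded.subset_closedBall (0 : Sp n)
    obtain ⟨N, hN⟩ := hC _ (isCompact_closedBall (0 : Sp n) (ρ + n)) (ε / gBound n) (by positivity)
    refine ⟨N, fun j hj l hl x hx i => ?_⟩
    refine ((hw j).grad_diff (hw l) x (ε := ε / gBound n) (fun y hy => hN j hj l hl y ?_) i).trans
      (le_of_eq (by field_simp))
    rw [mem_closedBall, dist_zero_right]
    have h1 : ‖x‖ ≤ ρ := by simpa using hρ hx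
    have h2 : ‖y - x‖ ≤ n := by
      rw [← sum_ev (y - x)]
      refine (norm_sum_le _ _).trans ?_
      calc ∑ k, ‖(y - x) k • ev k‖ ≤ ∑ _k : Fin n, (1:ℝ) := Finset.sum_le_sum fun k _ => by
            simpa [norm_smul, ev] using hy k
        _ = n := by simp
    calc ‖y‖ = ‖x + (y - x)‖ := by abel_nf
      _ ≤ _ := (norm_add_le _ _).trans (by linarith)
  have hV : ∀ x, ∃ g, Tendsto (fun j => w j x) atTop (𝓝 g) := fun x =>
    cauchySeq_tendsto_of_complete (Metric.cauchySeq_iff.2 fun ε hε => by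
      obtain ⟨N, hN⟩ := hC {x} isCompact_singleton (ε / 2) (half_pos hε)
      exact ⟨N, fun j hj l hl => (hN j hj l hl x rfl).trans_lt (half_lt_self hε)⟩)
  choose W hW using hV
  have hGe : ∀ i x, ∃ g, Tendsto (fun j => dd (ev i) (w j) x) atTop (𝓝 g) := fun i x =>
    cauchySeq_tendsto_of_complete (Metric.cauchySeq_iff.2 fun ε hε => by
      obtain ⟨N, hN⟩ := hG {x} isCompact_singleton (ε / 2) (half_pos hε)
      exact ⟨N, fun j hj l hl => (hN j hj l hl x rfl i).trans_lt (half_lt_self hε)⟩)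
  choose G hGl using hGe
  have hunif : ∀ K : Set (Sp n), IsCompact K → ∀ ε > 0, ∀ᶠ j in atTop, ∀ x ∈ K,
      |w j x - W x| ≤ ε ∧ ∀ i, |dd (ev i) (w j) x - G i x| ≤ ε := by
    intro K hK ε hε
    obtain ⟨N, hN⟩ := hC K hK ε hε
    obtain ⟨N', hN'⟩ := hG K hK ε hε
    filter_upwards [eventually_ge_atTop N, eventually_ge_atTop N'] with j hj hj' x hx
    refine ⟨le_of_tendsto (tendsto_const_nhds.sub (hW x)).abs ?_, fun i =>
      le_of_tendsto (tendsto_const_nhds.sub (hGl i x)).abs ?_⟩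
    · filter_upwards [eventually_ge_atTop N] with l hl using hN j hj l hl x hx
    · filter_upwards [eventually_ge_atTop N'] with l hl using hN' j hj' l hl x hx i
  have hGc : ∀ i, Continuous (G i) := by
    intro i
    refine TendstoLocallyUniformly.continuous (F := fun j => dd (ev i) (w j)) (p := atTop) ?_
      (Frequently.of_forall fun j => (hw j).ddcont _)
    rw [tendstoLocallyUniformly_iff_forall_isCompact]
    intro K hK
    rw [Metric.tendstoUniformlyOn_iff]
    intro ε hε
    filter_upwards [hunif K hK (ε / 2) (half_pos hε)] with j hj x hx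
    rw [Real.dist_eq, abs_sub_comm]
    exact ((hj x hx).2 i).trans_lt (half_lt_self hε)
  let L : Sp n → Sp n →L[ℝ] ℝ := fun x => ∑ i, G i x • (EuclideanSpace.proj i : Sp n →L[ℝ] ℝ)
  have hLu : TendstoLocallyUniformlyOn (fun j => fderiv ℝ (w j)) L atTop univ := by
    rw [tendstoLocallyUniformlyOn_univ, tendstoLocallyUniformly_iff_forall_isCompact]
    intro K hK
    rw [Metric.tendstoUniformlyOn_iff]
    intro ε hε
    set Q : ℝ := ∑ i : Fin n, ‖(EuclideanSpace.proj i : Sp n →L[ℝ] ℝ)‖ with hQ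
    have hQ0 : 0 ≤ Q := Finset.sum_nonneg fun i _ => norm_nonneg _
    filter_upwards [hunif K hK (ε / (Q + 1)) (by positivity)] with j hj x hx
    rw [fderiv_decomp, dist_comm, dist_eq_norm]
    simp only [L, ← Finset.sum_sub_distrib, ← sub_smul]
    refine (norm_sum_le _ _).trans_lt ?_
    calc ∑ i, ‖(dd (ev i) (w j) x - G i x) • (EuclideanSpace.proj i : Sp n →L[ℝ] ℝ)‖
        ≤ ∑ i : Fin n, ε / (Q + 1) * ‖(EuclideanSpace.proj i : Sp n →L[ℝ] ℝ)‖ :=
          Finset.sum_le_sum fun i _ => by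
            rw [norm_smul]; exact mul_le_mul_of_nonneg_right ((hj x hx).2 i) (norm_nonneg _)
      _ = ε / (Q + 1) * Q := by rw [hQ, Finset.mul_sum]
      _ < ε := by rw [div_mul_eq_mul_div, div_lt_iff₀ (by positivity)]; nlinarith
  have hder : ∀ x, HasFDerivAt W (L x) x := fun x =>
    hasFDerivAt_of_tendstoLocallyUniformlyOn isOpen_univ hLu
      (fun j y _ => ((hw j).diff y).hasFDerivAt) (fun y _ => hW y) (mem_univ x)
  have hdd : ∀ i x, dd (ev i) W x = G i x := fun i x => by
    simp [dd, (hder x).fderiv, L, ev]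
  refine ⟨W, ?_, fun K hK ε hε => ?_⟩
  · rw [contDiff_one_iff_fderiv]
    refine ⟨fun x => (hder x).differentiableAt, ?_⟩
    rw [funext fun x => (hder x).fderiv]
    exact continuous_finsetSum _ fun i _ => (hGc i).smul continuous_const
  · simpa only [hdd] using hunif K hK ε hε

/-- Every sequence of solutions has a convergent subsequence. -/
theorem exists_subseq (hw : ∀ j, Sol (w j) m) :
    ∃ φ : ℕ → ℕ, StrictMono φ ∧ ∃ W, C1Conv (fun j => w (φ j)) W := by
  let D := TopologicalSpace.denseSeq (Sp n)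
  obtain ⟨a, -, φ, hφ, hlim⟩ := (isCompact_univ_pi fun _ : ℕ => isCompact_Icc (a := (-1:ℝ)) (b := 1)).tendsto_subseq
    (x := fun j k => w j (D k)) (fun j k _ => ⟨(abs_le.mp ((hw j).bdd _)).1, (abs_le.mp ((hw j).bdd _)).2⟩)
  refine ⟨φ, hφ, exists_c1_limit (fun j => hw _) fun K hK ε hε => ?_⟩
  set Lc : ℝ := n * gBound n + 1 with hLc
  have hLc0 : 0 < Lc := by have := gBound_pos n; positivity
  obtain ⟨t, ht⟩ := hK.elim_finite_subcover (fun k => ball (D k) (ε / (4 * Lc)))
    (fun k => isOpen_ball) fun x _ => by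
      obtain ⟨k, hk⟩ := (TopologicalSpace.denseRange_denseSeq (Sp n)).exists_dist_lt x
        (show 0 < ε / (4 * Lc) by positivity)
      exact mem_iUnion.2 ⟨k, mem_ball.2 hk⟩
  have hev : ∀ᶠ j in atTop, ∀ k ∈ t, |w (φ j) (D k) - a k| ≤ ε / 4 := by
    refine (eventually_all_finset t).2 fun k _ => ?_
    filter_upwards [Metric.tendsto_nhds.1 ((tendsto_pi_nhds.1 hlim) k) (ε / 4) (by positivity)]
      with j hj
    simpa [Real.dist_eq] using hj.le
  obtain ⟨N, hN⟩ := eventually_atTop.1 hev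
  refine ⟨N, fun j hj l hl x hx => ?_⟩
  obtain ⟨k, hk, hxk⟩ : ∃ k ∈ t, x ∈ ball (D k) (ε / (4 * Lc)) := by simpa using ht hx
  rw [mem_ball, dist_eq_norm] at hxk
  have hd : ∀ i, |w (φ i) x - w (φ i) (D k)| ≤ ε / 4 := fun i => by
    refine (lipschitz_sol (hw _) x (D k)).trans ?_
    calc (n * gBound n) * ‖x - D k‖ ≤ Lc * (ε / (4 * Lc)) :=
          mul_le_mul (by rw [hLc]; linarith) hxk.le (norm_nonneg _) hLc0.le
      _ = ε / 4 := by field_simp
  have a1 := abs_le.mp (hd j)
  have a2 := abs_le.mp (hd l)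
  have a3 := abs_le.mp (hN j hj k hk)
  have a4 := abs_le.mp (hN l hl k hk)
  rw [abs_le]
  constructor <;> linarith [a1.1, a1.2, a2.1, a2.2, a3.1, a3.2, a4.1, a4.2]

end Vale.Agent.P134
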