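import Vale.Agent.P134.Mass

/-! Adapted coordinates, almost periods and counting of disjoint translates. -/

open MeasureTheory Filter Topology Set Metric Module

noncomputable section

namespace Vale.Agent.P134

variable {n : ℕ}

/-- Bohr almost periodicity of a function along a subspace, in the form of Bochner: the family
of translates by vectors of the subspace is totally bounded for the supremum distance. -/
def AlmostPeriodicAlong (u : EuclideanSpace ℝ (Fin n) → ℝ)
    (P : Submodule ℝ (EuclideanSpace ℝ (Fin n))) : Prop :=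
  ∀ ε > (0 : ℝ), ∃ F : Finset (EuclideanSpace ℝ (Fin n)), (∀ q ∈ F, q ∈ P) ∧
    ∀ p ∈ P, ∃ q ∈ F, ∀ x, |u (x + p) - u (x + q)| ≤ ε

abbrev Idx (k q : ℕ) := (Fin k ⊕ Fin 1) ⊕ Fin q

def b0 {k q : ℕ} : Idx k q := Sum.inl (Sum.inr 0)

/-- Adapted coordinates: the first group spans the subspace, the middle one is the monotone
direction. -/
structure Frame (P : Submodule ℝ (Sp n)) (e : Sp n) (k q : ℕ) where
  T : Sp n ≃L[ℝ] (Idx k q → ℝ)
  dir : T e = Pi.single b0 1
  mem : ∀ z : Idx k q → ℝ, z b0 = 0 → (∀ j, z (Sum.inr j) = 0) → T.symm z ∈ P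
  memP : ∀ p ∈ P, T p b0 = 0 ∧ ∀ j, T p (Sum.inr j) = 0

lemma exists_frame (P : Submodule ℝ (Sp n)) {e : Sp n} (he : e ∉ P)
    (hn : n ≤ finrank ℝ P + 3) : ∃ q : ℕ, q ≤ 2 ∧ Nonempty (Frame P e (finrank ℝ P) q) := by
  set k := finrank ℝ P with hk
  let bP := finBasis ℝ P
  let v : Fin k ⊕ Fin 1 → Sp n := Sum.elim (fun i => (bP i : Sp n)) fun _ => e
  have he0 : e ≠ 0 := fun h => he (h ▸ P.zero_mem)
  have hspanP : Submodule.span ℝ (Set.range fun i => (bP i : Sp n)) = P := by
    have := congrArg (Submodule.map P.subtype) bP.span_eq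
    rw [Submodule.map_span, ← Set.range_comp, Submodule.map_subtype_top] at this
    exact this
  have hv : LinearIndependent ℝ v := by
    refine LinearIndependent.sum_type (bP.linearIndependent.map' P.subtype (by simp))
      (linearIndependent_unique_iff.2 he0) ?_
    show Disjoint (Submodule.span ℝ (Set.range fun i => (bP i : Sp n))) _
    rw [hspanP, Set.range_const]
    exact (Submodule.disjoint_span_singleton' he0).2 he
  obtain ⟨Q, hQ⟩ := Submodule.exists_isCompl (Submodule.span ℝ (Set.range v))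
  set q := finrank ℝ Q with hq
  let bQ := finBasis ℝ Q
  let w : Idx k q → Sp n := Sum.elim v fun i => (bQ i : Sp n)
  have hspanQ : Submodule.span ℝ (Set.range fun i => (bQ i : Sp n)) = Q := by
    have := congrArg (Submodule.map Q.subtype) bQ.span_eq
    rw [Submodule.map_span, ← Set.range_comp, Submodule.map_subtype_top] at this
    exact this
  have hw : LinearIndependent ℝ w := by
    refine LinearIndependent.sum_type hv (bQ.linearIndependent.map' Q.subtype (by simp)) ?_
    show Disjoint _ (Submodule.span ℝ (Set.range fun i => (bQ i : Sp n)))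
    rw [hspanQ]; exact hQ.disjoint
  have hrank : finrank ℝ (Submodule.span ℝ (Set.range v)) + q = n := by
    rw [hq, Submodule.finrank_add_eq_of_isCompl hQ, finrank_euclideanSpace_fin]
  rw [finrank_span_eq_card hv] at hrank
  simp only [Fintype.card_sum, Fintype.card_fin] at hrank
  let B : Basis (Idx k q) ℝ (Sp n) := basisOfLinearIndependentOfCardEqFinrank hw
    (by rw [finrank_euclideanSpace_fin]; simp only [Idx, Fintype.card_sum, Fintype.card_fin]; omega)
  have hB : ∀ i, B i = w i := fun i => by simp [B]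
  refine ⟨q, by omega, ⟨⟨B.equivFunL, ?_, fun z hz0 hz1 => ?_, fun p hp => ?_⟩⟩⟩
  · have h1 : e = B b0 := by rw [hB]; rfl
    conv_lhs => rw [h1]
    funext i
    show B.equivFun (B b0) i = _
    simp [Pi.single_apply, eq_comm]
  · show B.equivFun.symm z ∈ P
    rw [Basis.equivFun_symm_apply]
    refine Submodule.sum_mem _ fun i _ => ?_
    rcases i with (i | i) | j
    · rw [hB]; exact P.smul_mem _ (bP i).2
    · obtain rfl : i = 0 := Subsingleton.elim _ _
      rw [show (Sum.inl (Sum.inr 0) : Idx k q) = b0 from rfl, hz0, zero_smul]; exact P.zero_mem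
    · rw [hz1 j, zero_smul]; exact P.zero_mem
  · have h0 : ∀ (i : Fin k) (j : Idx k q), j ≠ Sum.inl (Sum.inl i) → B.equivFun (bP i : Sp n) j = 0 := by
      intro i j hj
      rw [show (bP i : Sp n) = B (Sum.inl (Sum.inl i)) by rw [hB]; rfl]
      simp [hj.symm]
    have h1 : ∀ j : Idx k q, (∀ i, j ≠ Sum.inl (Sum.inl i)) → B.equivFun p j = 0 := by
      intro j hj
      rw [← hspanP] at hp
      induction hp using Submodule.span_induction with
      | mem x hx => obtain ⟨i, rfl⟩ := hx; exact h0 i j (hj i)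
      | zero => simp
      | add x y _ _ hx hy => rw [map_add, Pi.add_apply, hx, hy, add_zero]
      | smul a x _ hx => rw [map_smul, Pi.smul_apply, hx, smul_zero]
    exact ⟨h1 _ fun i => by simp [b0], fun j => h1 _ fun i => by simp⟩

lemma not_mem_of_monotone {u : Sp n → ℝ} {m : Fin n} (h : Sol u m) {P : Submodule ℝ (Sp n)}
    (hap : AlmostPeriodicAlong u P) : ev m ∉ P := by
  intro he
  have hmono : StrictMono fun s : ℝ => u (s • ev m) := by
    refine strictMono_of_deriv_pos fun s => ?_
    have := line_hasDerivAt h.diff 0 (ev m) s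
    simp only [zero_add] at this
    rw [this.deriv]; exact h.mono _
  have hpos : 0 < u ((1:ℝ) • ev m) - u ((0:ℝ) • ev m) := sub_pos.2 (hmono zero_lt_one)
  set δ := u ((1:ℝ) • ev m) - u ((0:ℝ) • ev m) with hδ
  obtain ⟨F, -, hF⟩ := hap (δ / 4) (by positivity)
  choose φ hφ1 hφ2 using fun j : ℕ => hF ((j:ℝ) • ev m) (P.smul_mem _ he)
  obtain ⟨j, j', hne, heq⟩ : ∃ j j' : ℕ, j ≠ j' ∧ φ j = φ j' := by
    obtain ⟨j, j', hne, heq⟩ :=
      Finite.exists_ne_map_eq_of_infinite (fun j : ℕ => (⟨φ j, hφ1 j⟩ : {x // x ∈ F}))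
    exact ⟨j, j', hne, congrArg Subtype.val heq⟩
  wlog hlt : j < j' generalizing j j'
  · exact this j' j (Ne.symm hne) heq.symm (lt_of_le_of_ne (not_lt.1 hlt) (Ne.symm hne))
  have a := abs_le.mp (hφ2 j (-((j:ℝ) • ev m)))
  have b := abs_le.mp (hφ2 j' (-((j:ℝ) • ev m)))
  rw [← heq] at b
  have e : -((j:ℝ) • ev m) + (j':ℝ) • ev m = ((j':ℝ) - j) • ev m := by rw [sub_smul]; abel
  rw [e] at b
  have h1 : (1:ℝ) ≤ (j':ℝ) - j := by
    have : (j:ℝ) + 1 ≤ j' := by exact_mod_cast hlt
    linarith
  have h2 := hmono.monotone h1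
  simp only [neg_add_cancel] at a
  simp only [zero_smul] at hδ
  linarith [a.1, a.2, b.1, b.2]

end Vale.Agent.P134
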