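import Vale.Agent.P134.Packing

/-! Along a subspace of codimension three, windows in which a monotone solution is far from being
one-dimensional have zero density. -/

open MeasureTheory Filter Topology Set Metric Module

noncomputable section

namespace Vale.Agent.P134

variable {n k q : ℕ} {u : Sp n → ℝ} {m : Fin n} {P : Submodule ℝ (Sp n)}

/-- The bounded coordinates of the first step: the transversal ones. -/
def side1 {k q : ℕ} : Idx k q → Bool := Sum.elim (fun _ => false) fun _ => true

/-- The bounded coordinates of the second step: the transversal ones and the monotone one. -/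
def side2 {k q : ℕ} : Idx k q → Bool := Sum.elim (Sum.elim (fun _ => false) fun _ => true) fun _ => true

lemma side_cards : (inY (side1 (k := k) (q := q))).card = q ∧ (outY (side1 (k := k) (q := q))).card = k + 1 ∧
    (inY (side2 (k := k) (q := q))).card = q + 1 ∧ (outY (side2 (k := k) (q := q))).card = k := by
  classical
  have e1 : inY (side1 (k := k) (q := q)) = Finset.univ.map Function.Embedding.inr := by
    ext i; rcases i with i | i <;> simp only [inY, Finset.mem_filter] <;> simp [side1]
  have e2 : outY (side1 (k := k) (q := q)) = Finset.univ.map Function.Embedding.inl := by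
    ext i; rcases i with i | i <;> simp only [outY, Finset.mem_filter] <;> simp [side1]
  have e3 : inY (side2 (k := k) (q := q)) = insert b0 (Finset.univ.map Function.Embedding.inr) := by
    ext i; rcases i with (i | i) | i <;> simp only [inY, Finset.mem_filter] <;> simp [side2, b0]
    exact Subsingleton.elim _ _
  have e4 : outY (side2 (k := k) (q := q)) =
      Finset.univ.map (Function.Embedding.inl.trans Function.Embedding.inl) := by
    ext i; rcases i with (i | i) | i <;> simp only [outY, Finset.mem_filter] <;> simp [side2]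
  rw [e1, e2, e3, e4, Finset.card_insert_of_notMem (by simp [b0])]
  simp

/-- Windows of positive density are rare on some parallel plane ahead. -/
lemma exists_good_shift (Φ : Frame P (ev m) k q) (hq : q ≤ 2) {r c δ : ℝ} (hr : 0 ≤ r) (hc : 0 < c)
    (hδ : 0 < δ) (hδ1 : δ ≤ 1) :
    ∀ η > 0, ∀ᶠ M : ℝ in atTop, ∀ u : Sp n → ℝ, Sol u m → ∀ F : Finset (Sp n),
      (∀ p ∈ F, p ∈ P ∧ ‖Φ.T p‖ ≤ M) → (∀ p ∈ F, ∀ p' ∈ F, p ≠ p' → δ ≤ ‖Φ.T p - Φ.T p'‖) →
      ∃ s : ℝ, 0 ≤ s ∧
        ((F.filter fun p => c ≤ winMass (fun y => u (y + (p + s • ev m))) m r).card : ℝ) ≤ η * M ^ k := by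
  classical
  intro η hη
  obtain ⟨N, κ, hN, hκ, hwin⟩ := exists_windows_bound Φ.T hr hδ
  obtain ⟨C, hC⟩ := growth_of_card Φ.T m (Y := side1 (k := k) (q := q)) (by rw [side_cards.1]; exact hq)
  set ε := η * c / (2 * (N + 1) * ((n : ℝ) + 1) * 3 ^ (k + 1)) with hε
  have hε0 : 0 < ε := by positivity
  have hrig : ∀ᶠ M : ℝ in atTop, ∀ a : Fin n, ∀ u : Sp n → ℝ, Sol u m →
      Growth Φ.T u (side1 (k := k) (q := q)) C (fun _ => 0) →
        ∫ x in box Φ.T (rad side1 (κ + 1) M), quad u m (ev a) x
          ≤ ε * M ^ (outY (side1 (k := k) (q := q))).card :=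
    eventually_all.2 fun a => rigidity Φ.T m C _ a ε hε0 (κ + 1) (by linarith)
  obtain ⟨M1, hM1⟩ := eventually_atTop.1 hrig
  filter_upwards [eventually_ge_atTop (max M1 (κ + 1))] with M hM u h F hF hsep
  have hMκ : κ + 1 ≤ M := (le_max_right _ _).trans hM
  have hM0 : 0 < M := by linarith
  by_contra hcon
  push Not at hcon
  set mm := ⌈M⌉₊ with hmm
  let pt : Sp n × ℕ → Sp n := fun z => z.1 + (z.2 : ℝ) • ev m
  have hT : ∀ z, Φ.T (pt z) = Φ.T z.1 + (z.2 : ℝ) • Pi.single b0 1 := fun z => by
    simp only [pt, map_add, map_smul, Φ.dir]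
  have hb : ∀ z, z.1 ∈ P → Φ.T (pt z) b0 = (z.2 : ℝ) := fun z hz => by
    rw [hT, Pi.add_apply, (Φ.memP _ hz).1, Pi.smul_apply, Pi.single_eq_same, zero_add, smul_eq_mul, mul_one]
  have hne : ∀ z i, i ≠ b0 → Φ.T (pt z) i = Φ.T z.1 i := fun z i hi => by
    rw [hT, Pi.add_apply, Pi.smul_apply, Pi.single_eq_of_ne hi, smul_zero, add_zero]
  set Z := (F ×ˢ Finset.range mm).filter fun z => c ≤ winMass (fun y => u (y + pt z)) m r
  have hZF : ∀ z ∈ Z, z.1 ∈ F ∧ z.2 < mm := fun z hz => by
    simpa using (Finset.mem_filter.1 hz).1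
  have hinj : Set.InjOn pt Z := fun z hz z' hz' e => by
    have e1 := congrArg (fun p => Φ.T p b0) e
    simp only [hb _ (hF _ (hZF z hz).1).1, hb _ (hF _ (hZF z' hz').1).1, Nat.cast_inj] at e1
    exact Prod.ext (by simpa [pt, e1] using e) e1
  have hcard : η * M ^ k * mm ≤ (Z.card : ℝ) := by
    have : Z.card = ∑ j ∈ Finset.range mm,
        (F.filter fun p => c ≤ winMass (fun y => u (y + (p + (j : ℝ) • ev m))) m r).card := by
      rw [Finset.card_filter, Finset.sum_product_right]
      exact Finset.sum_congr rfl fun j _ => (Finset.card_filter _ _).symm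
    rw [this, Nat.cast_sum]
    calc η * M ^ k * mm = ∑ _j ∈ Finset.range mm, η * M ^ k := by simp; ring
      _ ≤ _ := Finset.sum_le_sum fun j _ => (hcon (j : ℝ) (Nat.cast_nonneg j)).le
  have hq0 := h.quadSum_continuous
  have hsum := hwin side1 (quadSum u m) hq0 (quadSum_nonneg u m) (Z.image pt) (κ + 1) (3 * M)
    (fun p hp p' hp' hne' => by
      obtain ⟨z, hz, rfl⟩ := Finset.mem_image.1 hp
      obtain ⟨z', hz', rfl⟩ := Finset.mem_image.1 hp'
      by_cases e : z.2 = z'.2
      · rw [hT, hT, e, add_sub_add_right_eq_sub]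
        exact hsep _ (hZF z hz).1 _ (hZF z' hz').1 fun h => hne' (by simp only [pt, h, e])
      · refine hδ1.trans (le_trans ?_ (norm_le_pi_norm _ b0))
        rw [Pi.sub_apply, hb _ (hF _ (hZF z hz).1).1, hb _ (hF _ (hZF z' hz').1).1, Real.norm_eq_abs]
        have := Int.one_le_abs (sub_ne_zero.2 (show (z.2 : ℤ) ≠ z'.2 by exact_mod_cast e))
        exact_mod_cast this)
    (fun p hp i hi => by
      obtain ⟨z, hz, rfl⟩ := Finset.mem_image.1 hp
      rcases i with (i | i) | i
      · simp [side1] at hi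
      · simp [side1] at hi
      · rw [hne _ _ (by simp [b0]), (Φ.memP _ (hF _ (hZF z hz).1).1).2]; simp)
    (fun p hp i hi => by
      obtain ⟨z, hz, rfl⟩ := Finset.mem_image.1 hp
      obtain ⟨hzF, hz2⟩ := hZF z hz
      by_cases e : i = b0
      · rw [e, hb _ (hF _ hzF).1, Nat.abs_cast]
        have : (z.2 : ℝ) ≤ mm := by exact_mod_cast hz2.le
        linarith [Nat.ceil_lt_add_one hM0.le]
      · rw [hne _ _ e]
        have := (norm_le_pi_norm (Φ.T z.1) i).trans (hF _ hzF).2
        rw [Real.norm_eq_abs] at this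
        linarith)
  have hlow : c * (η * M ^ k * mm) ≤
      ∑ p ∈ Z.image pt, ∫ x in closedBall (0 : Sp n) r, quadSum u m (x + p) := by
    refine (mul_le_mul_of_nonneg_left hcard hc.le).trans ?_
    rw [Finset.sum_image hinj, mul_comm, ← nsmul_eq_mul, ← Finset.sum_const]
    exact Finset.sum_le_sum fun z hz => by
      rw [← winMass_translate]; exact (Finset.mem_filter.1 hz).2
  have hup : ∫ x in box Φ.T (rad side1 (κ + 1) (3 * M)), quadSum u m x ≤ n * (ε * (3 * M) ^ (k + 1)) := by
    have hi : ∀ a : Fin n, IntegrableOn (quad u m (ev a)) (box Φ.T (rad side1 (κ + 1) (3 * M))) := fun a =>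
      (h.quad_continuous _).continuousOn.integrableOn_compact (box_compact Φ.T _)
    simp only [quadSum]
    rw [integral_finsetSum _ fun a _ => hi a]
    refine (Finset.sum_le_sum fun a _ => hM1 (3 * M) (by linarith [le_max_left M1 (κ + 1)]) a u h
      (hC u h)).trans (le_of_eq ?_)
    simp [side_cards.2.1]
  have hmM : M ≤ mm := Nat.le_ceil M
  have key : c * (η * M ^ k * M) ≤ N * (n * (ε * (3 * M) ^ (k + 1))) :=
    ((mul_le_mul_of_nonneg_left (mul_le_mul_of_nonneg_left hmM (by positivity)) hc.le).trans hlow).trans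
      (hsum.trans (mul_le_mul_of_nonneg_left hup hN))
  have e : N * (n * (ε * (3 * M) ^ (k + 1))) = c * (η * M ^ k * M) * (N * n / (2 * (N + 1) * ((n : ℝ) + 1))) := by
    rw [hε, mul_pow]; field_simp; ring
  have hlt : N * n / (2 * (N + 1) * ((n : ℝ) + 1)) < 1 := by
    rw [div_lt_one (by positivity)]
    nlinarith [mul_nonneg hN (Nat.cast_nonneg (α := ℝ) n)]
  have hpos : 0 < c * (η * M ^ k * M) := by positivity
  rw [e] at key
  nlinarith

end Vale.Agent.P134
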