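import Vale.Agent.P134.Density

/-! Quadratic growth of the energy transversally to the subspace: ahead of the solution almost every
window carries only the energy of a transition layer. -/

open MeasureTheory Filter Topology Set Metric Module

noncomputable section

namespace Vale.Agent.P134

variable {n k q : ℕ} {u : Sp n → ℝ} {m : Fin n} {P : Submodule ℝ (Sp n)}

/-- The cut-off of a cube in adapted coordinates. -/
def cube {ι : Type*} [Fintype ι] (T : Sp n ≃L[ℝ] (ι → ℝ)) (R : ℝ) : Sp n → ℝ :=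
  cutS T Finset.univ (2 * R)

lemma cube_props {ι : Type*} [Fintype ι] (T : Sp n ≃L[ℝ] (ι → ℝ)) :
    ∃ C : ℝ, 0 ≤ C ∧ ∀ R : ℝ, 1 ≤ R → ContDiff ℝ 1 (cube T R) ∧ HasCompactSupport (cube T R) ∧
      (∀ x, 0 ≤ cube T R x ∧ cube T R x ≤ 1) ∧ (∀ x, (∀ i, |T x i| ≤ 2 * R) → cube T R x = 1) ∧
      R * (∫ x, ∑ i, |dd (ev i) (cube T R) x|) ≤ C * R ^ Fintype.card ι := by
  obtain ⟨V, hV0, hV⟩ := box_volume T
  choose K hK0 hK using fun i : Fin n => cutS_dd_bound T (ev i)
  have hS0 : 0 ≤ ∑ i, K i := Finset.sum_nonneg fun i _ => hK0 i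
  refine ⟨(∑ i, K i) * (V * 4 ^ Fintype.card ι), by positivity, fun R hR => ?_⟩
  have hR0 : 0 < R := by linarith
  have hz : ∀ x, x ∉ box T (fun _ => 4 * R) → cube T R x = 0 ∧ ∀ i, dd (ev i) (cube T R) x = 0 := fun x hx => by
    simp only [box, Set.mem_ofPred_eq, not_forall, not_le] at hx
    obtain ⟨j, hj⟩ := hx
    exact ⟨cutS_eq_zero T (by linarith) (Finset.mem_univ j) (by linarith),
      fun i => cutS_dd_zero T (by linarith) _ (Or.inr ⟨j, Finset.mem_univ j, by linarith⟩)⟩
  refine ⟨cutS_contDiff T _ _, HasCompactSupport.intro (box_compact T _) fun x hx => (hz x hx).1,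
    fun x => ⟨cutS_nonneg T _ _ x, cutS_le_one T _ _ x⟩,
    fun x hx => cutS_eq_one T (by linarith) fun i _ => hx i, ?_⟩
  rw [← setIntegral_eq_integral_of_forall_compl_eq_zero (s := box T fun _ => 4 * R)
    fun x hx => by simp [(hz x hx).2]]
  have h1 := (le_abs_self _).trans (norm_setIntegral_le_of_norm_le_const (μ := volume)
    (f := fun x => ∑ i, |dd (ev i) (cube T R) x|) (C := (∑ i, K i) / (2 * R))
    (box_compact T fun _ => 4 * R).measure_lt_top fun x _ => by
      rw [Real.norm_eq_abs, abs_of_nonneg (Finset.sum_nonneg fun i _ => abs_nonneg _), Finset.sum_div]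
      exact Finset.sum_le_sum fun i _ => hK i _ _ x (by linarith))
  have hv := hV (fun _ => true) (4 * R) (4 * R) (by linarith) (by linarith)
  have e : rad (fun _ : ι => true) (4 * R) (4 * R) = fun _ => 4 * R := funext fun _ => rfl
  rw [e, show (outY fun _ : ι => true).card = 0 by simp [outY], pow_zero, mul_one,
    show (inY fun _ : ι => true).card = Fintype.card ι by simp [inY]] at hv
  refine (mul_le_mul_of_nonneg_left (h1.trans (mul_le_mul_of_nonneg_left hv (by positivity))) hR0.le).trans ?_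
  rw [mul_pow]
  calc R * ((∑ i, K i) / (2 * R) * (V * (4 ^ Fintype.card ι * R ^ Fintype.card ι)))
      = (∑ i, K i) * (V * 4 ^ Fintype.card ι) * R ^ Fintype.card ι / 2 := by field_simp
    _ ≤ _ := half_le_self (by positivity)

/-- The energy is at most a multiple of the integral of the weight. -/
lemma energy_le_integral {w ψ : Sp n → ℝ} (hw : Sol w m) (hψ : ContDiff ℝ 1 ψ) (hψc : HasCompactSupport ψ)
    (hψ0 : ∀ x, 0 ≤ ψ x) : energy w ψ ≤ ((n : ℝ) * gBound n ^ 2 + 1) * ∫ x, ψ x := by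
  rw [← integral_const_mul]
  refine integral_mono_of_nonneg (Eventually.of_forall fun x => mul_nonneg (hψ0 x)
    (add_nonneg (div_nonneg (Finset.sum_nonneg fun i _ => sq_nonneg _) two_pos.le) (by positivity)))
    ((hψ.continuous.integrable_of_hasCompactSupport hψc).const_mul _) (Eventually.of_forall fun x => ?_)
  show ψ x * _ ≤ _
  rw [mul_comm (ψ x)]
  refine mul_le_mul_of_nonneg_right (add_le_add ?_ ?_) (hψ0 x)
  · have : ∑ i, dd (ev i) w x ^ 2 ≤ ∑ _i : Fin n, gBound n ^ 2 := Finset.sum_le_sum fun i _ =>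
      sq_le_sq' (abs_le.mp (hw.grad_le i x)).1 (abs_le.mp (hw.grad_le i x)).2
    simp only [Finset.sum_const, Finset.card_univ, Fintype.card_fin, nsmul_eq_mul] at this
    nlinarith [sq_nonneg (gBound n), Nat.cast_nonneg (α := ℝ) n]
  · have h1 : w x ^ 2 ≤ 1 := (sq_le_one_iff_abs_le_one _).2 (hw.bdd x)
    nlinarith [sq_nonneg (w x)]

/-- The energy under a weight covered by translates of another. -/
lemma energy_split {α : Type*} {w φ ψ : Sp n → ℝ} (hw : Sol w m) (hψ : Continuous ψ)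
    (hψc : HasCompactSupport ψ) (hφ0 : ∀ x, 0 ≤ φ x) (G : Finset α) (p : α → Sp n)
    (hcov : ∀ x, φ x ≤ ∑ l ∈ G, ψ (x + -p l)) :
    energy w φ ≤ ∑ l ∈ G, energy (fun y => w (y + p l)) ψ := by
  set dens : Sp n → ℝ := fun x => (∑ i, dd (ev i) w x ^ 2) / 2 + (1 - w x ^ 2) ^ 2 / 4
  have hdens : Continuous dens := by
    have := hw.cont; have := fun i => hw.ddcont (ev i); fun_prop
  have hdens0 : ∀ x, 0 ≤ dens x := fun x =>
    add_nonneg (div_nonneg (Finset.sum_nonneg fun i _ => sq_nonneg _) two_pos.le) (by positivity)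
  have hiψ : ∀ l, Integrable fun x => ψ (x + -p l) * dens x := fun l =>
    ((hψ.comp (continuous_id.add continuous_const)).mul hdens).integrable_of_hasCompactSupport
      (hψc.comp_homeomorph (Homeomorph.addRight (-p l))).mul_right
  have e : ∀ l, energy (fun y => w (y + p l)) ψ = ∫ x, ψ (x + -p l) * dens x := fun l => by
    rw [← integral_add_right_eq_self (fun x => ψ (x + -p l) * dens x) (p l)]
    simp only [energy, dens, dd_translate, add_neg_cancel_right]
  simp only [e]
  rw [← integral_finsetSum _ fun l _ => hiψ l]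
  refine integral_mono_of_nonneg (Eventually.of_forall fun x => mul_nonneg (hφ0 x) (hdens0 x))
    (integrable_finsetSum _ fun l _ => hiψ l) (Eventually.of_forall fun x => ?_)
  simp only [← Finset.sum_mul]
  exact mul_le_mul_of_nonneg_right (hcov x) (hdens0 x)

/-- A cut-off of a long box, with the gradient bound and the lower bound for the energy. -/
lemma exists_boxCut (T : Sp n ≃L[ℝ] (Idx k q → ℝ)) (hq : q ≤ 2) :
    ∃ C : ℝ, 0 ≤ C ∧ ∀ R M : ℝ, 1 ≤ R → R ≤ M → ∃ φ : Sp n → ℝ, ContDiff ℝ 1 φ ∧ HasCompactSupport φ ∧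
      (∀ x, 0 ≤ φ x ∧ φ x ≤ 1) ∧ (∀ x, x ∉ box T (rad side2 (2 * R) (2 * M)) → φ x = 0) ∧
      (∫ x, ∑ i, |dd (ev i) φ x|) ≤ C * R ^ 2 * M ^ k ∧
      ∀ u : Sp n → ℝ, Sol u m → ∫ x in box T (rad side2 R M), grad2 u x ≤ 2 * energy u φ := by
  set Y : Idx k q → Bool := side2
  have hYin : (inY Y).card ≤ 3 := by rw [side_cards.2.2.1]; omega
  have hYout : (outY Y).card = k := side_cards.2.2.2
  obtain ⟨V, hV0, hV⟩ := box_volume T
  choose K hK0 hK using fun i : Fin n => cutS_dd_bound T (ev i)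
  set S := ∑ i, K i with hS
  have hS0 : 0 ≤ S := Finset.sum_nonneg fun i _ => hK0 i
  refine ⟨2 * S * (V * 2 ^ 3 * 2 ^ k), by positivity, fun R M hR hRM => ?_⟩
  have hR0 : 0 < R := by linarith
  have hM0 : 0 < M := by linarith
  let φ : Sp n → ℝ := fun x => cutS T (inY Y) R x * cutS T (outY Y) M x
  have hφ0 : ∀ x, 0 ≤ φ x := fun x => mul_nonneg (cutS_nonneg T _ _ _) (cutS_nonneg T _ _ _)
  have hd1 := (cutS_contDiff T (inY Y) R).differentiable one_ne_zero
  have hd2 := (cutS_contDiff T (outY Y) M).differentiable one_ne_zero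
  set big := box T (rad Y (2 * R) (2 * M)) with hbig
  have hout : ∀ x, x ∉ big → φ x = 0 ∧ ∀ i, dd (ev i) φ x = 0 := by
    intro x hx
    rw [hbig, mem_box_rad, not_and_or] at hx
    push Not at hx
    simp only [φ]
    rcases hx with ⟨j, hj, hx⟩ | ⟨j, hj, hx⟩
    · exact ⟨by simp [cutS_eq_zero T hR0 hj hx.le], fun i => by
        rw [dd_mul hd1 hd2]
        simp [cutS_eq_zero T hR0 hj hx.le, cutS_dd_zero T hR0 (ev i) (Or.inr ⟨j, hj, hx⟩)]⟩
    · exact ⟨by simp [cutS_eq_zero T hM0 hj hx.le], fun i => by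
        rw [dd_mul hd1 hd2]
        simp [cutS_eq_zero T hM0 hj hx.le, cutS_dd_zero T hM0 (ev i) (Or.inr ⟨j, hj, hx⟩)]⟩
  refine ⟨φ, (cutS_contDiff T _ _).mul (cutS_contDiff T _ _), cut_hasCompactSupport T hR0 hM0 fun x hx => hx,
    fun x => ⟨hφ0 x, mul_le_one₀ (cutS_le_one T _ _ _) (cutS_nonneg T _ _ _) (cutS_le_one T _ _ _)⟩,
    fun x hx => (hout x hx).1, ?_, fun u h => ?_⟩
  · rw [← setIntegral_eq_integral_of_forall_compl_eq_zero (s := big) fun x hx => by simp [(hout x hx).2]]
    refine (le_abs_self _).trans ((norm_setIntegral_le_of_norm_le_const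
      (f := fun x => ∑ i, |dd (ev i) φ x|) (C := 2 * S / R) (box_compact T _).measure_lt_top
      fun x _ => ?_).trans ?_)
    · rw [Real.norm_eq_abs, abs_of_nonneg (Finset.sum_nonneg fun i _ => abs_nonneg _), hS, Finset.mul_sum,
        Finset.sum_div]
      refine Finset.sum_le_sum fun i _ => ?_
      simp only [φ]
      rw [dd_mul hd1 hd2]
      refine (abs_add_le _ _).trans ?_
      rw [abs_mul, abs_mul, abs_of_nonneg (cutS_nonneg T _ _ _), abs_of_nonneg (cutS_nonneg T _ _ _)]
      have a1 := (hK i (outY Y) M x hM0).trans (div_le_div_of_nonneg_left (hK0 i) hR0 hRM)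
      have a2 := hK i (inY Y) R x hR0
      have := mul_le_of_le_one_left (abs_nonneg (dd (ev i) (cutS T (outY Y) M) x))
        (cutS_le_one T (inY Y) R x)
      have := mul_le_of_le_one_left (abs_nonneg (dd (ev i) (cutS T (inY Y) R) x))
        (cutS_le_one T (outY Y) M x)
      rw [mul_div_assoc]; linarith
    · have hv := hV Y (2 * R) (2 * M) (by linarith) (by linarith)
      rw [hYout] at hv
      calc 2 * S / R * volume.real big ≤ 2 * S / R * (V * (2 * R) ^ 3 * (2 * M) ^ k) := by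
            refine mul_le_mul_of_nonneg_left (hv.trans ?_) (by positivity)
            gcongr; linarith
        _ = _ := by field_simp; ring
  · have h2int : Integrable fun x => 2 * (φ x * ((∑ i, dd (ev i) u x ^ 2) / 2 + (1 - u x ^ 2) ^ 2 / 4)) :=
      ((show Continuous fun x => φ x * ((∑ i, dd (ev i) u x ^ 2) / 2 + (1 - u x ^ 2) ^ 2 / 4) by
        have : Continuous φ := ((cutS_contDiff T _ _).mul (cutS_contDiff T _ _)).continuous
        have := h.cont; have := fun i => h.ddcont (ev i); fun_prop)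
        |>.integrable_of_hasCompactSupport
          (cut_hasCompactSupport T hR0 hM0 fun x hx => hx).mul_right).const_mul 2
    rw [energy, ← integral_const_mul]
    refine le_trans (setIntegral_mono_on ?_ h2int.integrableOn (box_compact T _).measurableSet
      fun x hx => ?_) (setIntegral_le_integral h2int (Eventually.of_forall fun x => ?_))
    · exact (continuous_finsetSum _ fun i _ => (h.ddcont _).pow 2).continuousOn.integrableOn_compact
        (box_compact T _)
    · obtain ⟨p1, p2⟩ := mem_box_rad.1 hx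
      simp only [φ, cutS_eq_one T hR0 p1, cutS_eq_one T hM0 p2, one_mul, grad2]
      linarith [sq_nonneg (1 - u x ^ 2)]
    · have := hφ0 x
      have : 0 ≤ ∑ i, dd (ev i) u x ^ 2 := Finset.sum_nonneg fun i _ => sq_nonneg _
      show (0:ℝ) ≤ _
      positivity

/-- A grid on the subspace whose cubes cover a long box. -/
lemma exists_grid (Φ : Frame P (ev m) k q) {R M : ℝ} (hR : 1 ≤ R) (hM : R ≤ M) :
    ∃ G : Finset (Sp n), (G.card : ℝ) ≤ 7 ^ k * (M / R) ^ k ∧
      (∀ p ∈ G, p ∈ P ∧ ‖Φ.T p‖ ≤ 3 * M) ∧ (∀ p ∈ G, ∀ p' ∈ G, p ≠ p' → 1 ≤ ‖Φ.T p - Φ.T p'‖) ∧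
      ∀ x ∈ box Φ.T (rad side2 (2 * R) (2 * M)), ∃ p ∈ G, ∀ i, |Φ.T (x + -p) i| ≤ 2 * R := by
  classical
  have hR0 : 0 < R := by linarith
  have hM0 : 0 < M := by linarith
  set L : ℕ := ⌈2 * M / R⌉₊ with hLdef
  have hLM : 2 * M ≤ R * L := by
    have := (div_le_iff₀ hR0).1 (Nat.le_ceil (2 * M / R))
    rw [← hLdef] at this; linarith
  have hL3 : R * L ≤ 3 * M := by
    have h1 := (Nat.ceil_lt_add_one (show 0 ≤ 2 * M / R by positivity)).le
    rw [← hLdef] at h1
    have h2 := mul_le_mul_of_nonneg_left h1 hR0.le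
    rw [mul_add, mul_div_cancel₀ _ hR0.ne'] at h2
    linarith
  let co : (Fin k → ℤ) → Idx k q → ℝ := fun l =>
    Sum.elim (Sum.elim (fun i => R * (l i : ℝ)) fun _ => 0) fun _ => 0
  let pt : (Fin k → ℤ) → Sp n := fun l => Φ.T.symm (co l)
  set G := Fintype.piFinset fun _ : Fin k => Finset.Icc (-(L : ℤ)) L with hG
  have hGmem : ∀ l ∈ G, ∀ i, |(l i : ℝ)| ≤ L := fun l hl i => by
    have := Finset.mem_Icc.1 (Fintype.mem_piFinset.1 hl i)
    rw [abs_le]; exact ⟨by exact_mod_cast this.1, by exact_mod_cast this.2⟩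
  have hTpt : ∀ l, Φ.T (pt l) = co l := fun l => Φ.T.apply_symm_apply _
  refine ⟨G.image pt, ?_, fun p hp => ?_, fun p hp p' hp' hne => ?_, fun x hx => ?_⟩
  · refine (Nat.cast_le.2 Finset.card_image_le).trans ?_
    rw [hG, Fintype.card_piFinset]
    simp only [Int.card_Icc, Finset.prod_const, Finset.card_univ, Fintype.card_fin, Nat.cast_pow]
    rw [show ((L : ℤ) + 1 - -(L : ℤ)).toNat = 2 * L + 1 by omega, ← mul_pow]
    refine pow_le_pow_left₀ (by positivity) ?_ k
    rw [← mul_div_assoc, le_div_iff₀ hR0]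
    push_cast; nlinarith
  · obtain ⟨l, hl, rfl⟩ := Finset.mem_image.1 hp
    refine ⟨Φ.mem _ rfl fun _ => rfl, (pi_norm_le_iff_of_nonneg (by linarith)).2 fun i => ?_⟩
    rw [hTpt, Real.norm_eq_abs]
    rcases i with (i | i) | i
    · show |R * (l i : ℝ)| ≤ _
      rw [abs_mul, abs_of_pos hR0]
      exact (mul_le_mul_of_nonneg_left (hGmem l hl i) hR0.le).trans hL3
    · simp [co]; linarith
    · simp [co]; linarith
  · obtain ⟨l, -, rfl⟩ := Finset.mem_image.1 hp
    obtain ⟨l', -, rfl⟩ := Finset.mem_image.1 hp'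
    obtain ⟨i, hi⟩ := Function.ne_iff.1 (fun e : l = l' => hne (e ▸ rfl))
    refine le_trans ?_ (norm_le_pi_norm _ (Sum.inl (Sum.inl i)))
    rw [Pi.sub_apply, hTpt, hTpt, Real.norm_eq_abs]
    show 1 ≤ |R * (l i : ℝ) - R * (l' i : ℝ)|
    rw [← mul_sub, abs_mul, abs_of_pos hR0]
    exact one_le_mul_of_one_le_of_one_le hR (by exact_mod_cast Int.one_le_abs (sub_ne_zero.2 hi))
  · rw [mem_box_rad] at hx
    set l : Fin k → ℤ := fun i => ⌊Φ.T x (Sum.inl (Sum.inl i)) / R⌋
    have hl : l ∈ G := Fintype.mem_piFinset.2 fun i => Finset.mem_Icc.2 (by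
      have h1 := hx.2 (Sum.inl (Sum.inl i)) (by simp only [outY, Finset.mem_filter]; simp [side2])
      rw [abs_le] at h1
      constructor
      · refine Int.le_floor.2 ?_
        rw [le_div_iff₀ hR0]; push_cast; nlinarith
      · refine Int.cast_le.1 ((Int.floor_le _).trans (?_ : _ ≤ ((L : ℤ) : ℝ)))
        rw [div_le_iff₀ hR0]; push_cast; nlinarith)
    refine ⟨pt l, Finset.mem_image_of_mem _ hl, fun i => ?_⟩
    rw [map_add, map_neg, hTpt, Pi.add_apply, Pi.neg_apply]
    rcases i with (i | i) | i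
    · show |Φ.T x (Sum.inl (Sum.inl i)) + -(R * ⌊Φ.T x (Sum.inl (Sum.inl i)) / R⌋)| ≤ 2 * R
      have a := Int.floor_le (Φ.T x (Sum.inl (Sum.inl i)) / R)
      have b := Int.lt_floor_add_one (Φ.T x (Sum.inl (Sum.inl i)) / R)
      rw [le_div_iff₀ hR0] at a
      rw [div_lt_iff₀ hR0] at b
      rw [abs_le]; constructor <;> nlinarith
    · simpa [co] using hx.1 (Sum.inl (Sum.inr i)) (by simp only [inY, Finset.mem_filter]; simp [side2])
    · simpa [co] using hx.1 (Sum.inr i) (by simp only [inY, Finset.mem_filter]; simp [side2])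

/-- Quadratic growth of the energy transversally to the subspace, in boxes long along it. -/
lemma exists_growth (h : Sol u m) (Φ : Frame P (ev m) k q) (hq : q ≤ 2) :
    ∃ C : ℝ, ∃ thr : ℝ → ℝ, Growth Φ.T u (side2 (k := k) (q := q)) C thr := by
  classical
  obtain ⟨Cψ, hCψ, hψp⟩ := cube_props Φ.T
  obtain ⟨Cφ, hCφ, hφp⟩ := exists_boxCut (m := m) Φ.T hq
  have hgp := gBound_pos n
  have hstep : ∀ R : ℝ, 1 ≤ R → ∀ᶠ M : ℝ in atTop,
      ∫ x in box Φ.T (rad side2 R M), grad2 u x ≤
        2 * (7 ^ k * (Cψ + 1) + 1 + 2 * gBound n * Cφ) * R ^ 2 * M ^ (outY (side2 (k := k) (q := q))).card := by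
    intro R hR
    have hR0 : 0 < R := by linarith
    obtain ⟨hψ, hψc, hψ01, hψ1, hψg⟩ := hψp R hR
    obtain ⟨r, c, hc, hgood⟩ := window_energy m hψ hψc fun x => (hψ01 x).1
    set EB := ((n : ℝ) * gBound n ^ 2 + 1) * ∫ x, cube Φ.T R x
    have hEB0 : 0 ≤ EB := mul_nonneg (by positivity) (integral_nonneg fun x => (hψ01 x).1)
    set η := 1 / ((EB + 1) * 3 ^ k) with hη
    have hη0 : 0 < η := by positivity
    obtain ⟨M1, hM1⟩ := eventually_atTop.1 (exists_good_shift Φ hq (r := max r 0) (c := c) (δ := 1)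
      (le_max_right _ _) hc one_pos le_rfl η hη0)
    filter_upwards [eventually_ge_atTop R, eventually_ge_atTop M1] with M hRM hMM
    obtain ⟨φ, hφ, hφc, hφ01, hφz, hder, hlow⟩ := hφp R M hR hRM
    obtain ⟨G, hGc, hGP, hGsep, hGcov⟩ := exists_grid Φ hR hRM
    obtain ⟨s, hs0, hbad⟩ := hM1 (3 * M) (by linarith) u h G hGP hGsep
    have hcov : ∀ x, φ x ≤ ∑ p ∈ G, cube Φ.T R (x + -p) := fun x => by
      have hnn : ∀ p ∈ G, 0 ≤ cube Φ.T R (x + -p) := fun p _ => (hψ01 _).1
      by_cases hx : x ∈ box Φ.T (rad side2 (2 * R) (2 * M))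
      · obtain ⟨p, hp, hpi⟩ := hGcov x hx
        exact ((hφ01 x).2.trans (hψ1 _ hpi).ge).trans (Finset.single_le_sum hnn hp)
      · rw [hφz x hx]; exact Finset.sum_nonneg hnn
    have hws : Sol (fun x => u (x + s • ev m)) m := h.translate _
    have hsplit : energy (fun x => u (x + s • ev m)) φ ≤
        ∑ p ∈ G, energy (fun y => u (y + (p + s • ev m))) (cube Φ.T R) := by
      simpa only [add_assoc] using energy_split hws hψ.continuous hψc (fun x => (hφ01 x).1) G (fun p => p) hcov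
    have hRk : R * (R ^ (k + 2)) = R ^ (k + 3) := by ring
    have hgr : ∫ x, ∑ i, |dd (ev i) (cube Φ.T R) x| ≤ Cψ * R ^ (k + 2) := by
      refine le_of_mul_le_mul_left (hψg.trans ?_) hR0
      rw [mul_left_comm, hRk]
      refine mul_le_mul_of_nonneg_left (pow_le_pow_right₀ hR ?_) hCψ
      simp only [Idx, Fintype.card_sum, Fintype.card_fin]; omega
    have hone : ∀ p, energy (fun y => u (y + (p + s • ev m))) (cube Φ.T R) ≤ (Cψ + 1) * R ^ (k + 2) +
        EB * if c ≤ winMass (fun y => u (y + (p + s • ev m))) m (max r 0) then 1 else 0 := fun p => by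
      have hsl := h.translate (p + s • ev m)
      have h1 : (1:ℝ) ≤ R ^ (k + 2) := one_le_pow₀ hR
      split_ifs with hw'
      · have : 0 ≤ (Cψ + 1) * R ^ (k + 2) := by positivity
        linarith [energy_le_integral hsl hψ hψc fun x => (hψ01 x).1]
      · have := hgood _ hsl ((winMass_mono hsl (le_max_left r 0)).trans_lt (not_le.1 hw'))
        rw [mul_zero, add_zero, add_mul, one_mul]
        linarith
    have hahead : energy (fun x => u (x + s • ev m)) φ ≤ (7 ^ k * (Cψ + 1) + 1) * R ^ 2 * M ^ k := by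
      refine hsplit.trans ((Finset.sum_le_sum fun p _ => hone p).trans ?_)
      rw [Finset.sum_add_distrib, Finset.sum_const, nsmul_eq_mul, ← Finset.mul_sum, Finset.sum_boole]
      have h1 : (G.card : ℝ) * ((Cψ + 1) * R ^ (k + 2)) ≤ 7 ^ k * (Cψ + 1) * R ^ 2 * M ^ k := by
        refine (mul_le_mul_of_nonneg_right hGc (by positivity)).trans (le_of_eq ?_)
        rw [div_pow, pow_add]; field_simp
      have hM0 : 0 < M := by linarith
      have h3 : EB * ((G.filter fun p => c ≤ winMass (fun y => u (y + (p + s • ev m))) m (max r 0)).card : ℝ)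
          ≤ R ^ 2 * M ^ k := by
        refine (mul_le_mul_of_nonneg_left hbad hEB0).trans ?_
        rw [hη, mul_pow, show EB * (1 / ((EB + 1) * 3 ^ k) * (3 ^ k * M ^ k)) = EB / (EB + 1) * M ^ k by field_simp]
        exact (mul_le_of_le_one_left (by positivity) ((div_le_one (by positivity)).2 (by linarith))).trans
          (le_mul_of_one_le_left (by positivity) (one_le_pow₀ hR))
      refine (add_le_add h1 h3).trans (le_of_eq ?_)
      ring
    have hd := h.dissipation hφ hφc hs0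
    have h3 := mul_le_mul_of_nonneg_left hder (show 0 ≤ 2 * gBound n by positivity)
    have h4 := hlow u h
    rw [side_cards.2.2.2]
    linarith
  choose thr hthr using fun R : ℝ => eventually_atTop.1 (hstep (max R 1) (le_max_right _ _))
  exact ⟨_, thr, fun R M hR _ hM => by simpa [max_eq_left hR] using hthr R M hM⟩

end Vale.Agent.P134
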