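import Vale.Agent.P134.Count

/-! Lipschitz bound for solutions, and the weak notion satisfied by their limits. -/

open MeasureTheory Filter Topology Set Metric

noncomputable section

namespace Vale.Agent.P134

variable {n : ℕ}

lemma fderiv_decomp (w : Sp n → ℝ) (x : Sp n) :
    fderiv ℝ w x = ∑ i, dd (ev i) w x • (EuclideanSpace.proj i : Sp n →L[ℝ] ℝ) := by
  ext v
  show dd v w x = _
  rw [dd_sum]
  simp [mul_comm]

lemma lipschitz_sol {u : Sp n → ℝ} {m : Fin n} (h : Sol u m) (x y : Sp n) :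
    |u x - u y| ≤ (n * gBound n) * ‖x - y‖ := by
  have hb : ∀ z, ‖fderiv ℝ u z‖ ≤ n * gBound n := by
    intro z
    refine ContinuousLinearMap.opNorm_le_bound _ (by have := gBound_pos n; positivity) fun v => ?_
    show |dd v u z| ≤ _
    rw [dd_sum]
    calc |∑ i, v i * dd (ev i) u z| ≤ ∑ i, |v i * dd (ev i) u z| := Finset.abs_sum_le_sum_abs _ _
      _ ≤ ∑ _i : Fin n, ‖v‖ * gBound n := Finset.sum_le_sum fun i _ => by
          rw [abs_mul]
          exact mul_le_mul (PiLp.norm_apply_le v i) (h.grad_le i z) (abs_nonneg _) (norm_nonneg _)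
      _ = n * gBound n * ‖v‖ := by simp; ring
  simpa [Real.norm_eq_abs] using
    Convex.norm_image_sub_le_of_norm_fderiv_le (fun z _ => h.diff z) (fun z _ => hb z)
      convex_univ (mem_univ y) (mem_univ x)

/-- A function which is, in the weak sense, a stable bounded solution. -/
structure LimSol (v : Sp n → ℝ) : Prop where
  smooth : ContDiff ℝ 1 v
  bdd : ∀ x, |v x| ≤ 1
  weak : ∀ {η : Sp n → ℝ}, ContDiff ℝ 1 η → HasCompactSupport η →
    ∫ x, ((∑ i, dd (ev i) v x * dd (ev i) η x) + (v x ^ 3 - v x) * η x) = 0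
  stable : ∀ {η : Sp n → ℝ}, ContDiff ℝ 1 η → HasCompactSupport η →
    0 ≤ ∫ x, ((∑ i, dd (ev i) η x ^ 2) + (3 * v x ^ 2 - 1) * η x ^ 2)

namespace LimSol

variable {v : Sp n → ℝ}

lemma diff (hp : LimSol v) : Differentiable ℝ v := hp.smooth.differentiable one_ne_zero
lemma cont (hp : LimSol v) : Continuous v := hp.smooth.continuous
lemma ddcont (hp : LimSol v) (a : Sp n) : Continuous (dd a v) := dd_continuous hp.smooth a

end LimSol

end Vale.Agent.P134
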