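import Vale.Agent.P134.Rigidity

/-! A lower bound for the Caccioppoli density near points where a quotient of derivatives is not
constant, and the counting of disjoint translates. -/

open MeasureTheory Filter Topology Set Metric

noncomputable section

namespace Vale.Agent.P134

variable {n : ℕ}

lemma sum_ev (d : Sp n) : ∑ i, d i • ev i = d := by
  ext j; simp [ev, Pi.single_apply]

lemma dd_sum (d : Sp n) (w : Sp n → ℝ) (x : Sp n) : dd d w x = ∑ i, d i * dd (ev i) w x := by
  conv_lhs => rw [← sum_ev d]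
  simp [dd]

/-- If all the weak first derivatives of a continuous function vanish on a ball, it is constant
on the ball of half radius. -/
lemma ratio_witness {G : Sp n → ℝ} (hG : Continuous G) {x0 : Sp n} {r : ℝ}
    (hw : ∀ ζ : Sp n → ℝ, ContDiff ℝ 1 ζ → HasCompactSupport ζ →
      tsupport ζ ⊆ closedBall x0 (2 * r) → ∀ i, ∫ x, dd (ev i) ζ x * G x = 0) :
    ∀ y ∈ closedBall x0 r, G y = G x0 := by
  intro y hy
  rw [mem_closedBall, dist_eq_norm] at hy
  by_contra hne
  set d := y - x0 with hd
  rcases eq_or_lt_of_le ((norm_nonneg _).trans hy) with hr | hr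
  · have : d = 0 := norm_le_zero_iff.1 (hy.trans hr.ge)
    exact hne (by rw [hd, sub_eq_zero] at this; rw [this])
  have hD : Continuous fun z => G (z + d) - G z := by fun_prop
  set σ : ℝ := G y - G x0 with hσ
  have hσ0 : 0 < σ * (G (x0 + d) - G x0) := by
    rw [show x0 + d = y by simp [hd]]
    exact mul_self_pos.2 (sub_ne_zero.2 hne)
  obtain ⟨δ, hδ0, hδ⟩ := Metric.eventually_nhds_iff.1
    (((continuous_const.mul hD).tendsto x0).eventually (eventually_gt_nhds hσ0))
  set δ' := min (δ / 2) r with hδ'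
  have hδ'0 : 0 < δ' := lt_min (half_pos hδ0) hr
  let ζ : ContDiffBump x0 := ⟨δ' / 2, δ', half_pos hδ'0, half_lt_self hδ'0⟩
  let F : ℝ → ℝ := fun s => ∫ z, ζ (z - s • d) * G z
  have hζc : ContDiff ℝ 1 (ζ : Sp n → ℝ) := ζ.contDiff
  have hFd : ∀ s, HasDerivAt F (- ∫ z, dd d (ζ : Sp n → ℝ) (z - s • d) * G z) s :=
    fun s => shift_deriv hζc ζ.hasCompactSupport hG d s
  have hF0 : ∀ s ∈ Icc (0:ℝ) 1, - ∫ z, dd d (ζ : Sp n → ℝ) (z - s • d) * G z = 0 := by
    intro s hs
    let ζs : Sp n → ℝ := fun z => ζ (z + -(s • d))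
    have hc1 : ContDiff ℝ 1 ζs := hζc.comp (contDiff_id.add contDiff_const)
    have hsub : tsupport ζs ⊆ closedBall x0 (2 * r) := by
      refine closure_minimal (fun z hz => ?_) isClosed_closedBall
      have h1 : z + -(s • d) ∈ ball x0 δ' := by
        rw [← ζ.support_eq]; exact hz
      rw [mem_ball, dist_eq_norm] at h1
      rw [mem_closedBall, dist_eq_norm]
      have h2 : ‖s • d‖ ≤ r := by
        rw [norm_smul, Real.norm_eq_abs, abs_of_nonneg hs.1]
        exact (mul_le_of_le_one_left (norm_nonneg _) hs.2).trans hy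
      calc ‖z - x0‖ = ‖(z + -(s • d) - x0) + s • d‖ := by congr 1; abel
        _ ≤ _ := (norm_add_le _ _).trans (by linarith [min_le_right (δ / 2) r])
    have hsc : HasCompactSupport ζs :=
      HasCompactSupport.of_support_subset_isCompact (isCompact_closedBall x0 (2 * r))
        (subset_closure.trans hsub)
    have hz : ∀ i, ∫ z, dd (ev i) ζs z * G z = 0 := hw ζs hc1 hsc hsub
    have e : ∀ z, dd d (ζ : Sp n → ℝ) (z - s • d) = ∑ i, d i * dd (ev i) ζs z := by
      intro z
      simp only [ζs, dd_translate]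
      rw [← sub_eq_add_neg]
      exact dd_sum d (ζ : Sp n → ℝ) _
    simp only [e, Finset.sum_mul, mul_assoc]
    rw [integral_finsetSum _ fun i _ => (integrable_mul_compact hG (dd_continuous hc1 _)
      (dd_hasCompactSupport hsc _)).congr (Eventually.of_forall fun z => mul_comm _ _) |>.const_mul _]
    simp [integral_const_mul, hz]
  have hconst : F 1 = F 0 :=
    constant_of_has_deriv_right_zero (a := 0) (b := 1)
      (fun s _ => (hFd s).continuousAt.continuousWithinAt)
      (fun s hs => (hF0 s (Ico_subset_Icc_self hs) ▸ hFd s).hasDerivWithinAt) 1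
      ⟨zero_le_one, le_rfl⟩
  have e1 : F 1 = ∫ z, ζ z * G (z + d) := by
    simp only [F, one_smul]
    rw [← integral_add_right_eq_self (fun z => ζ (z - d) * G z) d]
    simp
  have hI : ∀ H : Sp n → ℝ, Continuous H → Integrable fun z => ζ z * H z := fun H hH =>
    (ζ.continuous.mul hH).integrable_of_hasCompactSupport ζ.hasCompactSupport.mul_right
  have e2 : ∫ z, ζ z * (σ * (G (z + d) - G z)) = 0 := by
    have : (fun z => ζ z * (σ * (G (z + d) - G z)))
        = fun z => σ * (ζ z * G (z + d) - ζ z * G z) := by funext z; ring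
    rw [this, integral_const_mul,
      integral_sub (hI (fun z => G (z + d)) (by fun_prop)) (hI G hG), ← e1, hconst]
    simp [F]
  have hnn : 0 ≤ fun z => ζ z * (σ * (G (z + d) - G z)) := by
    intro z
    by_cases hz : z ∈ Function.support (ζ : Sp n → ℝ)
    · rw [ζ.support_eq, mem_ball] at hz
      exact mul_nonneg ζ.nonneg (hδ (lt_of_lt_of_le hz (by
        show δ' ≤ δ; linarith [min_le_left (δ / 2) r]))).le
    · simp [Function.notMem_support.1 hz]
  have : 0 < ∫ z, ζ z * (σ * (G (z + d) - G z)) := by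
    rw [integral_pos_iff_support_of_nonneg hnn (hI (fun z => σ * (G (z + d) - G z)) (continuous_const.mul hD))]
    refine (measure_ball_pos volume x0 (half_pos hδ'0)).trans_le (measure_mono fun z hz => ?_)
    have h1 : ζ z = 1 := ζ.one_of_mem_closedBall (ball_subset_closedBall hz)
    have h2 := hδ (y := z) ((mem_ball.1 hz).trans_le (by linarith [min_le_left (δ / 2) r]))
    simp only [Function.mem_support, h1, one_mul]
    exact h2.ne'
  linarith

lemma abs_le_quad {u : Sp n → ℝ} {m : Fin n} (a x : Sp n) (i : Fin n) {lam : ℝ} (hl : 0 < lam) :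
    |(dd (ev m) u x * dd (ev i) (dd a u) x - dd a u x * dd (ev i) (dd (ev m) u) x) / dd (ev m) u x|
      ≤ lam * quad u m a x + 1 / (4 * lam) := by
  set t := (dd (ev m) u x * dd (ev i) (dd a u) x - dd a u x * dd (ev i) (dd (ev m) u) x)
    / dd (ev m) u x with ht
  have h1 : t ^ 2 ≤ quad u m a x :=
    Finset.single_le_sum (f := fun j => ((dd (ev m) u x * dd (ev j) (dd a u) x
      - dd a u x * dd (ev j) (dd (ev m) u) x) / dd (ev m) u x) ^ 2)
      (fun j _ => sq_nonneg _) (Finset.mem_univ i)
  have h2 : |t| ≤ lam * t ^ 2 + 1 / (4 * lam) := by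
    have := sq_nonneg (2 * lam * |t| - 1)
    have e : lam * t ^ 2 + 1 / (4 * lam) - |t| = (2 * lam * |t| - 1) ^ 2 / (4 * lam) := by
      rw [← sq_abs t]; field_simp; ring
    have : 0 ≤ (2 * lam * |t| - 1) ^ 2 / (4 * lam) := by positivity
    linarith
  nlinarith [mul_le_mul_of_nonneg_left h1 hl.le]

/-- Uniform lower bound for the density on translates where the derivatives are close to
targets with a quotient which is not weakly constant. -/
lemma mass_lower {G1 G2 : Sp n → ℝ} (h1 : Continuous G1) (h2 : Continuous G2) {x0 : Sp n} {r : ℝ}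
    {δ : ℝ} (hδ : 0 < δ) (hG2 : ∀ x ∈ closedBall x0 r, δ ≤ |G2 x|)
    {ζ : Sp n → ℝ} (hζ : ContDiff ℝ 1 ζ) (hζc : HasCompactSupport ζ)
    (hζs : tsupport ζ ⊆ closedBall x0 r) {i : Fin n}
    (hI : ∫ x, dd (ev i) ζ x * (G1 x * G2 x / max (G2 x ^ 2) (δ ^ 2)) ≠ 0) :
    ∃ ε > 0, ∃ c > 0, ∀ (u : Sp n → ℝ) (m : Fin n), Sol u m → ∀ a b : Fin n,
      (∀ x ∈ closedBall x0 r, |dd (ev a) u x - G1 x| ≤ ε ∧ |dd (ev b) u x - G2 x| ≤ ε) →
      c ≤ ∫ x in closedBall x0 r, (quad u m (ev a) x + quad u m (ev b) x) := by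
  set B := closedBall x0 r with hB
  have hBc : IsCompact B := isCompact_closedBall x0 r
  set Gt : Sp n → ℝ := fun x => G1 x * G2 x / max (G2 x ^ 2) (δ ^ 2) with hGt
  have hGtc : Continuous Gt := (h1.mul h2).div ((h2.pow 2).max continuous_const)
    fun x => (lt_max_of_lt_right (by positivity)).ne'
  set I := ∫ x, dd (ev i) ζ x * Gt x with hIdef
  have hIp : 0 < |I| := abs_pos.2 hI
  have hdζ := dd_continuous hζ (ev i)
  obtain ⟨Z, hZ⟩ := hBc.exists_bound_of_continuousOn hζ.continuous.continuousOn
  obtain ⟨Z', hZ'⟩ := hBc.exists_bound_of_continuousOn hdζ.continuousOn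
  obtain ⟨B1, hB1⟩ := hBc.exists_bound_of_continuousOn h1.continuousOn
  obtain ⟨B2, hB2⟩ := hBc.exists_bound_of_continuousOn h2.continuousOn
  set V := volume.real B with hV
  set E := |Z'| * (((|B1| + |B2|) / (δ ^ 2 / 2))) * V + 1 with hE
  have hV0 : 0 ≤ V := measureReal_nonneg
  have hE0 : 0 < E := by rw [hE]; positivity
  set ε := min (δ / 2) (|I| / (2 * E)) with hε
  have hε0 : 0 < ε := lt_min (half_pos hδ) (by positivity)
  set K := gBound n / (δ / 2) ^ 2 with hK
  have hK0 : 0 < K := by have := gBound_pos n; rw [hK]; positivity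
  set A := |Z| * K + 1 with hA
  have hA0 : 0 < A := by rw [hA]; positivity
  set lam := 2 * A * V / |I| + 1 with hlam
  have hlam0 : 0 < lam := by rw [hlam]; positivity
  refine ⟨ε, hε0, |I| / (4 * (A * lam)), by positivity, fun u m hu a b hclose => ?_⟩
  set p := dd (ev a) u with hp
  set q := dd (ev b) u with hq
  have hp1 : ContDiff ℝ 1 p := hu.ddc _
  have hq1 : ContDiff ℝ 1 q := hu.ddc _
  have hq2 : ∀ x ∈ B, δ / 2 ≤ |q x| := by
    intro x hx
    have h5 := hG2 x hx
    have h6 := (hclose x hx).2
    have := abs_sub_abs_le_abs_sub (G2 x) (q x)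
    rw [abs_sub_comm] at this
    linarith [min_le_left (δ / 2) (|I| / (2 * E))]
  have hqne : ∀ x ∈ B, q x ≠ 0 := fun x hx h0 => by
    have := hq2 x hx; rw [h0, abs_zero] at this; linarith
  let F : Sp n → ℝ := fun x => ζ x * (p x / q x)
  have hFc : HasCompactSupport F := hζc.mul_right
  have hF : ContDiff ℝ 1 F := by
    rw [contDiff_iff_contDiffAt]
    intro x
    by_cases hx : x ∈ tsupport ζ
    · exact hζ.contDiffAt.mul (hp1.contDiffAt.div hq1.contDiffAt (hqne x (hζs hx)))
    · refine (contDiffAt_const (c := (0:ℝ))).congr_of_eventuallyEq ?_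
      filter_upwards [notMem_tsupport_iff_eventuallyEq.1 hx] with y hy
      simp [F, hy]
  have hint : ∫ x, dd (ev i) F x = 0 := by
    have := ibp (f := fun _ : Sp n => (1:ℝ)) contDiff_const hF hFc (ev i)
    simpa [dd] using this
  have hsupp : ∀ x, x ∉ B → dd (ev i) ζ x = 0 := fun x hx => by
    simp [dd, fderiv_of_notMem_tsupport ℝ fun h => hx (hζs h)]
  have hdF : ∀ x ∈ B, dd (ev i) F x = dd (ev i) ζ x * (p x / q x)
      + ζ x * ((q x * dd (ev i) p x - p x * dd (ev i) q x) / q x ^ 2) := by
    intro x hx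
    have l0 := line_hasDerivAt (hF.differentiable one_ne_zero) x (ev i) 0
    have l1 := line_hasDerivAt (hζ.differentiable one_ne_zero) x (ev i) 0
    have l2 := (line_hasDerivAt (hp1.differentiable one_ne_zero) x (ev i) 0).fun_div
      (line_hasDerivAt (hq1.differentiable one_ne_zero) x (ev i) 0) (by simpa using hqne x hx)
    simp only [zero_smul, add_zero] at l0
    rw [l0.unique (l1.fun_mul l2)]
    simp only [zero_smul, add_zero]
    ring
  have hdF0 : ∀ x, x ∉ B → dd (ev i) F x = 0 := fun x hx => by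
    have : F =ᶠ[𝓝 x] fun _ => 0 := by
      filter_upwards [notMem_tsupport_iff_eventuallyEq.1 fun h => hx (hζs h)] with y hy
      simp [F, hy]
    simp [dd, this.fderiv_eq]
  have hcr : ContinuousOn (fun x => p x / q x) B :=
    hp1.continuous.continuousOn.div hq1.continuous.continuousOn hqne
  have hcd : ContinuousOn (fun x => ζ x * ((q x * dd (ev i) p x - p x * dd (ev i) q x) / q x ^ 2)) B := by
    refine hζ.continuous.continuousOn.mul (ContinuousOn.div ?_ (hq1.continuous.pow 2).continuousOn
      fun x hx => pow_ne_zero 2 (hqne x hx))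
    exact ((hq1.continuous.mul (dd_continuous hp1 _)).sub
      (hp1.continuous.mul (dd_continuous hq1 _))).continuousOn
  have hsum : (∫ x in B, dd (ev i) ζ x * (p x / q x))
      + ∫ x in B, ζ x * ((q x * dd (ev i) p x - p x * dd (ev i) q x) / q x ^ 2) = 0 := by
    rw [← integral_add ((hdζ.continuousOn.fun_mul hcr).integrableOn_compact hBc)
      (hcd.integrableOn_compact hBc), ← setIntegral_congr_fun hBc.measurableSet hdF,
      setIntegral_eq_integral_of_forall_compl_eq_zero hdF0, hint]
  have hIB : I = ∫ x in B, dd (ev i) ζ x * Gt x :=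
    (setIntegral_eq_integral_of_forall_compl_eq_zero fun x hx => by simp [hsupp x hx]).symm
  have hclose2 : |(∫ x in B, dd (ev i) ζ x * (p x / q x)) - I| ≤ |I| / 2 := by
    rw [hIB, ← integral_sub ((hdζ.continuousOn.fun_mul hcr).integrableOn_compact hBc)
      ((hdζ.fun_mul hGtc).continuousOn.integrableOn_compact hBc), ← hIB]
    refine (norm_setIntegral_le_of_norm_le_const (μ := volume)
      (f := fun x => dd (ev i) ζ x * (p x / q x) - dd (ev i) ζ x * Gt x) hBc.measure_lt_top
      (C := |Z'| * ((|B1| + |B2|) / (δ ^ 2 / 2)) * ε) fun x hx => ?_).trans ?_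
    · have hgt : Gt x = G1 x / G2 x := by
        have h5 := hG2 x hx
        have : G2 x ≠ 0 := fun h0 => by rw [h0, abs_zero] at h5; linarith
        simp only [hGt]
        rw [max_eq_left (by rw [← sq_abs (G2 x)]; gcongr)]
        field_simp
      rw [← mul_sub, norm_mul, hgt, mul_assoc]
      refine mul_le_mul ((hZ' x hx).trans (le_abs_self _)) ?_ (norm_nonneg _) (abs_nonneg _)
      have h5 := hG2 x hx
      have hne : G2 x ≠ 0 := fun h0 => by rw [h0, abs_zero] at h5; linarith
      rw [div_sub_div _ _ (hqne x hx) hne, Real.norm_eq_abs, abs_div,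
        show p x * G2 x - q x * G1 x = (p x - G1 x) * G2 x - (q x - G2 x) * G1 x by ring]
      have hnum : |(p x - G1 x) * G2 x - (q x - G2 x) * G1 x| ≤ (|B1| + |B2|) * ε := by
        refine (abs_sub _ _).trans ?_
        rw [abs_mul, abs_mul]
        have e1 := (hB1 x hx).trans (le_abs_self B1)
        have e2 := (hB2 x hx).trans (le_abs_self B2)
        rw [Real.norm_eq_abs] at e1 e2
        have := mul_le_mul (hclose x hx).1 e2 (abs_nonneg _) hε0.le
        have := mul_le_mul (hclose x hx).2 e1 (abs_nonneg _) hε0.le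
        nlinarith
      have hden : δ ^ 2 / 2 ≤ |q x * G2 x| := by
        rw [abs_mul, show δ ^ 2 / 2 = δ / 2 * δ by ring]
        exact mul_le_mul (hq2 x hx) h5 hδ.le (abs_nonneg _)
      rw [div_mul_eq_mul_div]
      exact div_le_div₀ (by positivity) hnum (by positivity) hden
    · have h3 : ε * E ≤ |I| / 2 := by
        have := mul_le_mul_of_nonneg_right (min_le_right (δ / 2) (|I| / (2 * E))) hE0.le
        have e : |I| / (2 * E) * E = |I| / 2 := by field_simp
        linarith
      rw [hE] at h3
      nlinarith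
  have hlow : |I| / 2 ≤ |∫ x in B, ζ x * ((q x * dd (ev i) p x - p x * dd (ev i) q x) / q x ^ 2)| := by
    rw [show (∫ x in B, ζ x * ((q x * dd (ev i) p x - p x * dd (ev i) q x) / q x ^ 2))
      = -(∫ x in B, dd (ev i) ζ x * (p x / q x)) by linarith, abs_neg]
    have := abs_sub_abs_le_abs_sub I (∫ x in B, dd (ev i) ζ x * (p x / q x))
    rw [abs_sub_comm] at this
    linarith
  have hqc : ∀ c, Continuous (quad u m (ev c)) := fun c => hu.quad_continuous _
  have hup : |∫ x in B, ζ x * ((q x * dd (ev i) p x - p x * dd (ev i) q x) / q x ^ 2)|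
      ≤ A * lam * (∫ x in B, (quad u m (ev a) x + quad u m (ev b) x)) + A / (2 * lam) * V := by
    refine abs_integral_le_integral_abs.trans ?_
    have hmaj : ∀ x ∈ B, |ζ x * ((q x * dd (ev i) p x - p x * dd (ev i) q x) / q x ^ 2)|
        ≤ A * lam * (quad u m (ev a) x + quad u m (ev b) x) + A / (2 * lam) := by
      intro x hx
      set g := dd (ev m) u with hg
      have hgx : g x ≠ 0 := (hu.mono x).ne'
      have hqx := hqne x hx
      set ta := (g x * dd (ev i) p x - p x * dd (ev i) g x) / g x with hta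
      set tb := (g x * dd (ev i) q x - q x * dd (ev i) g x) / g x with htb
      have e : (q x * dd (ev i) p x - p x * dd (ev i) q x) / q x ^ 2
          = (q x * ta - p x * tb) / q x ^ 2 := by
        congr 1; rw [hta, htb]; field_simp; ring
      have ba := abs_le_quad (u := u) (m := m) (ev a) x i hlam0
      have bb := abs_le_quad (u := u) (m := m) (ev b) x i hlam0
      simp only [← hg, ← hp, ← hq, ← hta, ← htb] at ba bb
      rw [e, abs_mul, abs_div, abs_of_nonneg (sq_nonneg (q x))]
      have hn2 : |q x * ta - p x * tb| ≤ gBound n * (|ta| + |tb|) := by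
        refine (abs_sub _ _).trans ?_
        rw [abs_mul, abs_mul]
        have := mul_le_mul_of_nonneg_right (hu.grad_le b x) (abs_nonneg ta)
        have := mul_le_mul_of_nonneg_right (hu.grad_le a x) (abs_nonneg tb)
        simp only [← hp, ← hq] at *
        nlinarith
      have hd2 : (δ / 2) ^ 2 ≤ q x ^ 2 := by
        rw [← sq_abs (q x)]; gcongr; exact hq2 x hx
      have hdiv : |q x * ta - p x * tb| / q x ^ 2 ≤ K * (|ta| + |tb|) := by
        rw [hK, div_mul_eq_mul_div]
        exact div_le_div₀ (by have := gBound_pos n; positivity) hn2 (by positivity) hd2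
      have hζx : |ζ x| ≤ |Z| := (hZ x hx).trans (le_abs_self _)
      have hsum2 : |ta| + |tb| ≤ lam * (quad u m (ev a) x + quad u m (ev b) x) + 1 / (2 * lam) := by
        have : 1 / (4 * lam) + 1 / (4 * lam) = 1 / (2 * lam) := by field_simp; ring
        linarith
      calc |ζ x| * (|q x * ta - p x * tb| / q x ^ 2) ≤ |Z| * (K * (|ta| + |tb|)) :=
            mul_le_mul hζx hdiv (by positivity) (abs_nonneg _)
        _ ≤ A * (|ta| + |tb|) := by
            rw [← mul_assoc]
            exact mul_le_mul_of_nonneg_right (by linarith [hA]) (by positivity)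
        _ ≤ A * (lam * (quad u m (ev a) x + quad u m (ev b) x) + 1 / (2 * lam)) :=
            mul_le_mul_of_nonneg_left hsum2 hA0.le
        _ = _ := by ring
    have hc2 : ContinuousOn (fun x => A * lam * (quad u m (ev a) x + quad u m (ev b) x) + A / (2 * lam)) B := by
      have := hqc a; have := hqc b; fun_prop
    refine (setIntegral_mono_on (hcd.abs.integrableOn_compact hBc) (hc2.integrableOn_compact hBc)
      hBc.measurableSet hmaj).trans (le_of_eq ?_)
    have hc3 : Continuous fun x => A * lam * (quad u m (ev a) x + quad u m (ev b) x) := by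
      have := hqc a; have := hqc b; fun_prop
    rw [integral_add (hc3.continuousOn.integrableOn_compact hBc)
      (integrableOn_const hBc.measure_lt_top.ne), integral_const_mul, setIntegral_const, smul_eq_mul]
    ring
  have h4 : A / (2 * lam) * V ≤ |I| / 4 := by
    rw [div_mul_eq_mul_div, div_le_iff₀ (by positivity)]
    have e : |I| / 4 * (2 * lam) = A * V + |I| / 2 := by rw [hlam]; field_simp; ring
    linarith
  rw [div_le_iff₀ (by positivity)]
  linarith

end Vale.Agent.P134
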