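import Vale.Agent.P134.Windows
import Vale.Agent.P134.Count

/-! Windows around separated points overlap boundedly. -/

open MeasureTheory Filter Topology Set Metric

noncomputable section

namespace Vale.Agent.P134

variable {n : ℕ} {ι : Type*} [Fintype ι]

/-- A bound, uniform in the centre, for the number of separated points in a cube. -/
lemma exists_pack (ρ : ℝ) {δ : ℝ} (hδ : 0 < δ) :
    ∃ N : ℕ, ∀ (F : Finset (ι → ℝ)) (a : ι → ℝ),
      (∀ z ∈ F, ∀ z' ∈ F, z ≠ z' → δ ≤ ‖z - z'‖) → (∀ z ∈ F, ‖z - a‖ ≤ ρ) → F.card ≤ N := by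
  classical
  refine ⟨(Fintype.piFinset fun _ : ι => Finset.Icc ⌊-ρ / δ⌋ ⌊ρ / δ⌋).card, fun F a hsep hball => ?_⟩
  refine Finset.card_le_card_of_injOn (fun z i => ⌊(z i - a i) / δ⌋) (fun z hz => ?_)
    fun z hz z' hz' heq => ?_
  · simp only [Finset.mem_coe, Fintype.mem_piFinset, Finset.mem_Icc]
    intro i
    have h := (norm_le_pi_norm (z - a) i).trans (hball z hz)
    rw [Real.norm_eq_abs, Pi.sub_apply, abs_le] at h
    exact ⟨Int.floor_le_floor (div_le_div_of_nonneg_right h.1 hδ.le),
      Int.floor_le_floor (div_le_div_of_nonneg_right h.2 hδ.le)⟩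
  · by_contra hne
    have := hsep z hz z' hz' hne
    refine absurd this (not_le.2 ((pi_norm_lt_iff hδ).2 fun i => ?_))
    have h1 := Int.abs_sub_lt_one_of_floor_eq_floor (congrFun heq i)
    rw [← sub_div, abs_div, abs_of_pos hδ, div_lt_one hδ, sub_sub_sub_cancel_right] at h1
    simpa [Real.norm_eq_abs] using h1

/-- The total of a nonnegative density over windows around separated points. -/
lemma exists_windows_bound (T : Sp n ≃L[ℝ] (ι → ℝ)) {r δ : ℝ} (hr : 0 ≤ r) (hδ : 0 < δ) :
    ∃ N κ : ℝ, 0 ≤ N ∧ 0 ≤ κ ∧ ∀ (Y : ι → Bool) (f : Sp n → ℝ), Continuous f → (∀ x, 0 ≤ f x) →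
      ∀ (F : Finset (Sp n)) (ρ M : ℝ), (∀ p ∈ F, ∀ p' ∈ F, p ≠ p' → δ ≤ ‖T p - T p'‖) →
      (∀ p ∈ F, ∀ i, Y i = true → |T p i| + κ ≤ ρ) → (∀ p ∈ F, ∀ i, Y i = false → |T p i| + κ ≤ M) →
      ∑ p ∈ F, ∫ x in closedBall (0 : Sp n) r, f (x + p) ≤ N * ∫ x in box T (rad Y ρ M), f x := by
  classical
  set κ : ℝ := ‖(T : Sp n →L[ℝ] ι → ℝ)‖ * r with hκ
  obtain ⟨N, hN⟩ := exists_pack (ι := ι) κ hδ
  refine ⟨N, κ, Nat.cast_nonneg N, by positivity, fun Y f hf hnn F ρ M hsep hin hout => ?_⟩
  set B := box T (rad Y ρ M)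
  have hTp : ∀ p x, x ∈ closedBall p r → ‖T x - T p‖ ≤ κ := fun p x hx => by
    rw [← map_sub]
    exact ((T : Sp n →L[ℝ] ι → ℝ).le_opNorm _).trans
      (mul_le_mul_of_nonneg_left (mem_closedBall_iff_norm.1 hx) (norm_nonneg _))
  have hsub : ∀ p ∈ F, closedBall p r ⊆ B := fun p hp x hx => by
    rw [mem_box_rad]
    have h : ∀ i, |T x i| ≤ |T p i| + κ := fun i => by
      have h2 := (norm_le_pi_norm (T x - T p) i).trans (hTp p x hx)
      rw [Pi.sub_apply, Real.norm_eq_abs] at h2
      linarith [abs_sub_abs_le_abs_sub (T x i) (T p i)]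
    exact ⟨fun i hi => (h i).trans (hin p hp i (by simpa [inY] using hi)),
      fun i hi => (h i).trans (hout p hp i (by simpa [outY] using hi))⟩
  have hint : ∀ p, Integrable ((closedBall p r).indicator f) := fun p =>
    (hf.continuousOn.integrableOn_compact (isCompact_closedBall p r)).integrable_indicator measurableSet_closedBall
  have e : ∀ p, ∫ x in closedBall (0 : Sp n) r, f (x + p) = ∫ x, (closedBall p r).indicator f x := fun p => by
    rw [← integral_indicator measurableSet_closedBall,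
      ← integral_add_right_eq_self (fun x => (closedBall p r).indicator f x) p]
    congr 1; funext x
    simp [Set.indicator_apply]
  simp only [e]
  rw [← integral_finsetSum _ fun p _ => hint p, ← integral_indicator (box_compact T _).measurableSet,
    ← integral_const_mul]
  refine integral_mono_of_nonneg (Eventually.of_forall fun x => Finset.sum_nonneg fun p _ =>
    indicator_nonneg (fun y _ => hnn y) x)
    (((hf.continuousOn.integrableOn_compact (box_compact T _)).integrable_indicator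
      (box_compact T _).measurableSet).const_mul _) (Eventually.of_forall fun x => ?_)
  show ∑ p ∈ F, (closedBall p r).indicator f x ≤ _
  simp only [Set.indicator_apply]
  rw [← Finset.sum_filter, Finset.sum_const, nsmul_eq_mul]
  set F' := F.filter fun p => x ∈ closedBall p r
  by_cases hx : x ∈ B
  · rw [if_pos hx]
    refine mul_le_mul_of_nonneg_right (Nat.cast_le.2 ?_) (hnn x)
    rw [← Finset.card_image_of_injective F' T.injective]
    refine hN _ (T x) (fun z hz z' hz' hne => ?_) fun z hz => ?_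
    · obtain ⟨p, hp, rfl⟩ := Finset.mem_image.1 hz
      obtain ⟨p', hp', rfl⟩ := Finset.mem_image.1 hz'
      exact hsep p (Finset.mem_filter.1 hp).1 p' (Finset.mem_filter.1 hp').1 fun h => hne (h ▸ rfl)
    · obtain ⟨p, hp, rfl⟩ := Finset.mem_image.1 hz
      rw [norm_sub_rev]
      exact hTp p x (Finset.mem_filter.1 hp).2
  · rw [if_neg hx]
    have hF' : F' = ∅ := Finset.filter_eq_empty_iff.2 fun {p} hp hpx => hx (hsub p hp hpx)
    simp [hF']

end Vale.Agent.P134
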