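import Vale.Agent.P134.Growth

/-! Windows far from one-dimensional functions are rare along a subspace of codimension three. -/

open MeasureTheory Filter Topology Set Metric Module

noncomputable section

namespace Vale.Agent.P134

variable {n k q : ℕ} {u : Sp n → ℝ} {m : Fin n} {P : Submodule ℝ (Sp n)}

/-- Windows far from one-dimensional have zero density along the subspace. -/
theorem windows_rare (h : Sol u m) (hP : ev m ∉ P) (hn : n ≤ finrank ℝ P + 3) (R δ η : ℝ)
    (hδ : 0 < δ) (hη : 0 < η) :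
    ∃ M₀ : ℝ, ∀ M ≥ M₀, ∀ F : Finset (Sp n),
      (∀ p ∈ F, p ∈ P ∧ ‖p‖ ≤ M) → (∀ p ∈ F, ∀ p' ∈ F, p ≠ p' → 1 ≤ ‖p - p'‖) →
      (∀ p ∈ F, ∀ e : Sp n, ‖e‖ = 1 → ∀ g : ℝ → ℝ,
        ∃ x ∈ closedBall (0 : Sp n) R, δ ≤ |u (x + p) - g (inner ℝ e x)|) →
      (F.card : ℝ) ≤ η * M ^ finrank ℝ P := by
  classical
  set k := finrank ℝ P with hk
  obtain ⟨q, hq, ⟨Φ⟩⟩ := exists_frame P hP hn
  obtain ⟨C, thr, hG⟩ := exists_growth h Φ hq
  obtain ⟨r, c, hc, hfar⟩ := window_far m R δ hδ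
  set A := ‖(Φ.T.symm : (Idx k q → ℝ) →L[ℝ] Sp n)‖ + 1 with hA
  set B := ‖(Φ.T : Sp n →L[ℝ] Idx k q → ℝ)‖ + 1 with hB
  have hA0 : 0 < A := by positivity
  have hB0 : 0 < B := by positivity
  obtain ⟨N, κ, hN, hκ, hwin⟩ := exists_windows_bound Φ.T (le_max_right r 0) (show 0 < 1 / A by positivity)
  set ε := η * c / ((N + 1) * ((n : ℝ) + 1) * (B + 1) ^ k) with hε
  have hε0 : 0 < ε := by positivity
  obtain ⟨M1, hM1⟩ := eventually_atTop.1 (eventually_all.2 fun a : Fin n =>
    rigidity Φ.T m (Y := side2 (k := k) (q := q)) C thr a ε hε0 (κ + 1) (by linarith))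
  refine ⟨max (κ + 1) (|M1|), fun M hM F hF hsep hFfar => ?_⟩
  have hMκ := (le_max_left _ _).trans hM
  have hMM := (le_abs_self M1).trans ((le_max_right _ _).trans hM)
  have hM0 : 0 < M := by linarith
  have hnorm : ∀ x, ‖Φ.T x‖ ≤ B * ‖x‖ ∧ ‖x‖ ≤ A * ‖Φ.T x‖ := fun x => by
    refine ⟨((Φ.T : Sp n →L[ℝ] Idx k q → ℝ).le_opNorm x).trans
      (mul_le_mul_of_nonneg_right (by rw [hB]; linarith) (norm_nonneg _)), ?_⟩
    have := (Φ.T.symm : (Idx k q → ℝ) →L[ℝ] Sp n).le_opNorm (Φ.T x)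
    simp only [ContinuousLinearEquiv.coe_coe, ContinuousLinearEquiv.symm_apply_apply] at this
    exact this.trans (mul_le_mul_of_nonneg_right (by rw [hA]; linarith) (norm_nonneg _))
  have hsum := hwin side2 (quadSum u m) h.quadSum_continuous (quadSum_nonneg u m) F (κ + 1) ((B + 1) * M)
    (fun p hp p' hp' hne => by
      rw [← map_sub, div_le_iff₀ hA0, mul_comm]
      exact (hsep p hp p' hp' hne).trans (hnorm _).2)
    (fun p hp i hi => by
      have hm := Φ.memP p (hF p hp).1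
      rcases i with (i | i) | i
      · simp [side2] at hi
      · rw [show (Sum.inl (Sum.inr i) : Idx k q) = b0 by rw [Subsingleton.elim i 0]; rfl, hm.1]; simp
      · rw [hm.2]; simp)
    (fun p hp i _ => by
      have h1 := (norm_le_pi_norm (Φ.T p) i).trans (hnorm p).1
      rw [Real.norm_eq_abs] at h1
      nlinarith [mul_le_mul_of_nonneg_left (hF p hp).2 hB0.le])
  have hlow : (F.card : ℝ) * c ≤ ∑ p ∈ F, ∫ x in closedBall (0 : Sp n) (max r 0), quadSum u m (x + p) := by
    rw [← nsmul_eq_mul, ← Finset.sum_const]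
    refine Finset.sum_le_sum fun p hp => ?_
    rw [← winMass_translate]
    exact (hfar _ (h.translate p) (hFfar p hp)).trans (winMass_mono (h.translate p) (le_max_left _ _))
  have hup : ∫ x in box Φ.T (rad side2 (κ + 1) ((B + 1) * M)), quadSum u m x ≤
      n * (ε * ((B + 1) * M) ^ k) := by
    simp only [quadSum]
    rw [integral_finsetSum _ fun a _ =>
      (h.quad_continuous _).continuousOn.integrableOn_compact (box_compact Φ.T _)]
    refine (Finset.sum_le_sum fun a _ => hM1 ((B + 1) * M) (by nlinarith) a u h hG).trans (le_of_eq ?_)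
    simp [side_cards.2.2.2]
  have key := hlow.trans (hsum.trans (mul_le_mul_of_nonneg_left hup hN))
  have e : N * (n * (ε * ((B + 1) * M) ^ k)) = η * M ^ k * c * (N * n / ((N + 1) * ((n : ℝ) + 1))) := by
    rw [hε, mul_pow]; field_simp
  have hlt : N * n / ((N + 1) * ((n : ℝ) + 1)) ≤ 1 := by
    rw [div_le_one (by positivity)]
    nlinarith [mul_nonneg hN (Nat.cast_nonneg (α := ℝ) n)]
  rw [e] at key
  exact le_of_mul_le_mul_right (key.trans (mul_le_of_le_one_right (by positivity) hlt)) hc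

end Vale.Agent.P134
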