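import Vale.Agent.P134.Rare

/-! Solutions which return near themselves with positive upper density along the subspace are
one-dimensional; almost periodic solutions do so. -/

open MeasureTheory Filter Topology Set Metric Module

noncomputable section

namespace Vale.Agent.P134

variable {n : ℕ} {u : Sp n → ℝ} {m : Fin n} {P : Submodule ℝ (Sp n)}

/-- The translates of `u` along `P` return near `u`, locally uniformly, with positive upper
density: for every window and tolerance some `c > 0` is such that, for arbitrarily large `M`, there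
are at least `c M^(dim P)` unit-separated translations of length at most `M`. -/
def RecurrentAlong (u : EuclideanSpace ℝ (Fin n) → ℝ)
    (P : Submodule ℝ (EuclideanSpace ℝ (Fin n))) : Prop :=
  ∀ R : ℝ, ∀ ε > (0 : ℝ), ∃ c > (0 : ℝ), ∀ M₀ : ℝ, ∃ M ≥ M₀,
    ∃ F : Finset (EuclideanSpace ℝ (Fin n)), (∀ p ∈ F, p ∈ P ∧ ‖p‖ ≤ M) ∧
      (∀ p ∈ F, ∀ p' ∈ F, p ≠ p' → 1 ≤ ‖p - p'‖) ∧ c * M ^ Module.finrank ℝ P ≤ F.card ∧
      ∀ p ∈ F, ∀ x, ‖x‖ ≤ R → |u (x + p) - u x| ≤ ε

lemma far_of_not_oneDim (hn : 0 < n) (hu : Continuous u)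
    (hne : ¬ ∃ e : Sp n, ‖e‖ = 1 ∧ ∃ g : ℝ → ℝ, ∀ x, u x = g (inner ℝ e x)) :
    ∃ R : ℝ, ∃ δ > 0, ∀ e : Sp n, ‖e‖ = 1 → ∀ g : ℝ → ℝ,
      ∃ x ∈ closedBall (0 : Sp n) R, δ ≤ |u x - g (inner ℝ e x)| := by
  by_contra hcon
  push Not at hcon
  choose e he g hg using fun j : ℕ => hcon (j : ℝ) (1 / ((j : ℝ) + 1)) (by positivity)
  obtain ⟨a, ha, φ, hφ, hlim⟩ := (isCompact_sphere (0 : Sp n) 1).tendsto_subseq (x := e)
    fun j => by simp [he j]
  simp only [mem_sphere, dist_zero_right] at ha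
  refine hne ⟨a, ha, fun s => u (s • a), fun x => ?_⟩
  set y := (inner ℝ a x) • a with hy
  have hay : inner ℝ a x - inner ℝ a y = 0 := by
    rw [hy, real_inner_smul_right, real_inner_self_eq_norm_sq, ha]; ring
  let yj : ℕ → Sp n := fun j => y + (inner ℝ (e (φ j)) x - inner ℝ (e (φ j)) y) • e (φ j)
  have hyj : ∀ j, inner ℝ (e (φ j)) (yj j) = inner ℝ (e (φ j)) x := fun j => by
    simp only [yj, inner_add_right, real_inner_smul_right, real_inner_self_eq_norm_sq, he]
    ring
  have hyl : Tendsto yj atTop (𝓝 y) := by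
    have hc : Continuous fun b : Sp n => y + (inner ℝ b x - inner ℝ b y) • b := by fun_prop
    have := (hc.tendsto a).comp hlim
    rw [hay, zero_smul, add_zero] at this
    exact this
  refine tendsto_nhds_unique (tendsto_const_nhds (x := u x) (f := (atTop : Filter ℕ))) ?_
  refine tendsto_of_tendsto_of_dist ((hu.tendsto y).comp hyl) ?_
  have h0 : Tendsto (fun j : ℕ => 2 / ((φ j : ℝ) + 1)) atTop (𝓝 0) :=
    tendsto_const_nhds.div_atTop (tendsto_atTop_add_const_right _ _
      (tendsto_natCast_atTop_atTop.comp hφ.tendsto_atTop))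
  refine squeeze_zero' (Eventually.of_forall fun j => dist_nonneg) ?_ h0
  have hb : ∀ᶠ j in atTop, ‖x‖ ≤ φ j ∧ ‖yj j‖ ≤ φ j := by
    have hN := (tendsto_natCast_atTop_atTop (R := ℝ)).comp hφ.tendsto_atTop
    filter_upwards [hN.eventually_ge_atTop ‖x‖, hN.eventually_ge_atTop (‖y‖ + 1),
      hyl.norm.eventually (eventually_le_nhds (lt_add_one ‖y‖))] with j h1 h2 h3
    exact ⟨h1, h3.trans h2⟩
  filter_upwards [hb] with j hj
  have a1 := hg (φ j) x (by simpa using hj.1)
  have a2 := hg (φ j) (yj j) (by simpa using hj.2)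
  rw [hyj] at a2
  rw [Function.comp_apply, Real.dist_eq]
  have := abs_sub_le (u (yj j)) (g (φ j) (inner ℝ (e (φ j)) x)) (u x)
  rw [abs_sub_comm (g (φ j) (inner ℝ (e (φ j)) x)) (u x)] at this
  calc |u (yj j) - u x| ≤ 1 / ((φ j : ℝ) + 1) + 1 / ((φ j : ℝ) + 1) := this.trans (by linarith)
    _ = _ := by ring

/-- Positive upper density of returns forces one-dimensional symmetry. -/
theorem oneDim_of_recurrent (h : Sol u m) (hP : ev m ∉ P) (hn : n ≤ finrank ℝ P + 3)
    (hr : RecurrentAlong u P) :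
    ∃ e : Sp n, ‖e‖ = 1 ∧ ∃ g : ℝ → ℝ, ∀ x, u x = g (inner ℝ e x) := by
  by_contra hne
  obtain ⟨R, δ, hδ, hfar⟩ := far_of_not_oneDim m.pos h.cont hne
  obtain ⟨c, hc, hM⟩ := hr R (δ / 2) (half_pos hδ)
  obtain ⟨M₀, hM₀⟩ := windows_rare h hP hn R (δ / 2) (c / 2) (half_pos hδ) (half_pos hc)
  obtain ⟨M, hMM, F, hF, hsep, hcard, hclose⟩ := hM (max M₀ 1)
  have := hM₀ M ((le_max_left _ _).trans hMM) F hF hsep fun p hp e he g => by
    obtain ⟨x, hx, hd⟩ := hfar e he g
    refine ⟨x, hx, ?_⟩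
    have h1 := hclose p hp x (by simpa using hx)
    have h2 := abs_sub_le (u x) (u (x + p)) (g (inner ℝ e x))
    rw [abs_sub_comm (u x) (u (x + p))] at h2
    linarith
  have hpos : 0 < M ^ finrank ℝ P := pow_pos (lt_of_lt_of_le one_pos ((le_max_right _ _).trans hMM)) _
  nlinarith

/-- Almost periodic functions return with positive density. -/
lemma recurrent_of_almostPeriodic (hap : AlmostPeriodicAlong u P) : RecurrentAlong u P := by
  classical
  intro R ε hε
  obtain ⟨Q, hQP, hQ⟩ := hap ε hε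
  choose! r hrQ hr using hQ
  set k := finrank ℝ P with hk
  let e := (stdOrthonormalBasis ℝ P).repr
  let pt : (Fin k → ℕ) → Sp n := fun l => (e.symm (WithLp.toLp 2 fun i => (l i : ℝ)) : P)
  have hptP : ∀ l, pt l ∈ P := fun l => (e.symm (WithLp.toLp 2 fun i => (l i : ℝ))).2
  set D := ∑ q ∈ Q, ‖q‖
  have hD : ∀ q ∈ Q, ‖q‖ ≤ D := fun q hq => Finset.single_le_sum (fun i _ => norm_nonneg i) hq
  have hQne : Q.Nonempty := ⟨r 0, hrQ 0 P.zero_mem⟩
  have hQc : (0 : ℝ) < Q.card := by exact_mod_cast hQne.card_pos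
  refine ⟨1 / (Q.card * (k + D + 1) ^ k), by positivity, fun M₀ => ?_⟩
  have hD0 : 0 ≤ D := Finset.sum_nonneg fun _ _ => norm_nonneg _
  obtain ⟨L, hL⟩ := exists_nat_ge (max M₀ 1)
  set G := Fintype.piFinset fun _ : Fin k => Finset.range L with hG
  set M : ℝ := (k + D + 1) * L with hMdef
  have hL1 : (1 : ℝ) ≤ L := (le_max_right _ _).trans hL
  have hMpos : (L : ℝ) ≤ M := le_mul_of_one_le_left (by positivity) (by linarith [Nat.cast_nonneg (α := ℝ) k])
  obtain ⟨q, hq, hcard⟩ : ∃ q ∈ Q, (G.card : ℝ) / Q.card ≤ ((G.filter fun l => r (pt l) = q).card : ℝ) := by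
    refine Finset.exists_le_of_sum_le hQne ?_
    rw [Finset.sum_const, nsmul_eq_mul, mul_div_cancel₀ _ hQc.ne', ← Nat.cast_sum,
      ← Finset.card_eq_sum_card_fiberwise fun l _ => hrQ _ (hptP l)]
  refine ⟨M, ((le_max_left _ _).trans hL).trans hMpos, (G.filter fun l => r (pt l) = q).image
    (fun l => pt l - q), fun p hp => ?_, fun p hp p' hp' hne => ?_, ?_, fun p hp x _ => ?_⟩
  · obtain ⟨l, hl, rfl⟩ := Finset.mem_image.1 hp
    refine ⟨P.sub_mem (hptP l) (hQP q hq), (norm_sub_le _ _).trans ?_⟩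
    have hl' := Fintype.mem_piFinset.1 (Finset.mem_filter.1 hl).1
    have h1 : ‖pt l‖ ≤ k * L := by
      simp only [pt, Submodule.norm_coe, LinearIsometryEquiv.norm_map]
      rw [EuclideanSpace.norm_eq, Real.sqrt_le_left (by positivity)]
      calc ∑ i, ‖(l i : ℝ)‖ ^ 2 ≤ ∑ _i : Fin k, (L : ℝ) ^ 2 := Finset.sum_le_sum fun i _ => by
            have : (l i : ℝ) ≤ L := by exact_mod_cast (Finset.mem_range.1 (hl' i)).le
            simp only [Real.norm_natCast]; gcongr
        _ ≤ (k * L) ^ 2 := by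
            simp only [Finset.sum_const, Finset.card_univ, Fintype.card_fin, nsmul_eq_mul, mul_pow]
            refine mul_le_mul_of_nonneg_right ?_ (sq_nonneg _)
            exact_mod_cast Nat.le_self_pow two_ne_zero k
    calc ‖pt l‖ + ‖q‖ ≤ k * L + D * L :=
          add_le_add h1 ((hD q hq).trans (le_mul_of_one_le_right hD0 hL1))
      _ ≤ M := by rw [hMdef]; nlinarith
  · obtain ⟨l, -, rfl⟩ := Finset.mem_image.1 hp
    obtain ⟨l', -, rfl⟩ := Finset.mem_image.1 hp'
    obtain ⟨i, hi⟩ := Function.ne_iff.1 (fun E : l = l' => hne (E ▸ rfl))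
    rw [sub_sub_sub_cancel_right]
    simp only [pt, ← Submodule.coe_sub, Submodule.norm_coe, ← map_sub, LinearIsometryEquiv.norm_map]
    refine le_trans ?_ (PiLp.norm_apply_le _ i)
    simp only [WithLp.ofLp_sub, Pi.sub_apply, Real.norm_eq_abs]
    exact_mod_cast Int.one_le_abs (sub_ne_zero.2 (show (l i : ℤ) ≠ l' i by exact_mod_cast hi))
  · rw [Finset.card_image_of_injOn (fun l _ l' _ E => by
      have E' := e.symm.injective (Subtype.ext (sub_left_injective E))
      funext i
      have := congrArg (fun v : EuclideanSpace ℝ (Fin k) => v i) E'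
      simpa using this)]
    refine le_trans (le_of_eq ?_) hcard
    rw [hG, Fintype.card_piFinset]
    simp only [Finset.card_range, Finset.prod_const, Finset.card_univ, Fintype.card_fin, Nat.cast_pow]
    rw [hMdef, mul_pow]
    field_simp
  · obtain ⟨l, hl, rfl⟩ := Finset.mem_image.1 hp
    have := hr (pt l) (hptP l) (x - q)
    rw [(Finset.mem_filter.1 hl).2] at this
    rwa [show x - q + q = x by abel, show x - q + pt l = x + (pt l - q) by abel] at this

/-- Periodicity in independent directions implies almost periodicity along their span. -/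
lemma almostPeriodic_of_periods (h : Sol u m) {k : ℕ} (w : Fin k → Sp n)
    (hper : ∀ i x, u (x + w i) = u x) :
    AlmostPeriodicAlong u (Submodule.span ℝ (Set.range w)) := by
  classical
  intro ε hε
  set B : ℝ := n * gBound n * ∑ i, ‖w i‖ with hB
  obtain ⟨N, hN⟩ := exists_nat_gt (max (B / ε) 0)
  have hN0 : (0:ℝ) < N := lt_of_le_of_lt (le_max_right _ _) hN
  let grid : (Fin k → Fin N) → Sp n := fun f => ∑ i, (((f i : ℕ) : ℝ) / N) • w i
  let H : AddSubgroup (Sp n) :=
    { carrier := {p | ∀ x, u (x + p) = u x}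
      add_mem' := fun {p q} hp hq x => by rw [← add_assoc, hq, hp]
      zero_mem' := fun x => by rw [add_zero]
      neg_mem' := fun {p} hp x => by
        have := hp (x + -p)
        rw [neg_add_cancel_right] at this
        exact this.symm }
  refine ⟨Finset.univ.image grid, ?_, fun p hp => ?_⟩
  · intro q hq
    obtain ⟨f, -, rfl⟩ := Finset.mem_image.1 hq
    exact Submodule.sum_mem _ fun i _ =>
      Submodule.smul_mem _ _ (Submodule.subset_span (mem_range_self i))
  obtain ⟨c, rfl⟩ := (Submodule.mem_span_range_iff_exists_fun ℝ).1 hp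
  let f : Fin k → Fin N := fun i => ⟨⌊(N:ℝ) * Int.fract (c i)⌋₊, by
    rw [Nat.floor_lt (by have := Int.fract_nonneg (c i); positivity)]
    exact mul_lt_of_lt_one_right hN0 (Int.fract_lt_one _)⟩
  refine ⟨grid f, Finset.mem_image_of_mem _ (Finset.mem_univ _), fun x => ?_⟩
  let θ : Fin k → ℝ := fun i => Int.fract (c i) - ((f i : ℕ) : ℝ) / N
  have hθ : ∀ i, |θ i| ≤ 1 / N := by
    intro i
    have hnn : (0:ℝ) ≤ N * Int.fract (c i) := mul_nonneg hN0.le (Int.fract_nonneg _)
    have b1 := Nat.floor_le hnn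
    have b2 := Nat.lt_floor_add_one ((N:ℝ) * Int.fract (c i))
    have e : θ i = ((N:ℝ) * Int.fract (c i) - ⌊(N:ℝ) * Int.fract (c i)⌋₊) / N := by
      simp only [θ, f]; field_simp
    rw [e, abs_div, abs_of_pos hN0, div_le_div_iff_of_pos_right hN0, abs_le]
    constructor <;> linarith
  have hint : (∑ i, (⌊c i⌋ : ℤ) • w i) ∈ H :=
    sum_mem fun i _ => zsmul_mem (show w i ∈ H from hper i) _
  have hsum : (∑ i, c i • w i) = grid f + (∑ i, θ i • w i) + ∑ i, (⌊c i⌋ : ℤ) • w i := by
    simp only [grid, ← Finset.sum_add_distrib]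
    refine Finset.sum_congr rfl fun i _ => ?_
    rw [← Int.cast_smul_eq_zsmul ℝ, ← add_smul, ← add_smul]
    congr 1
    simp only [θ, Int.fract]; ring
  rw [hsum, ← add_assoc, hint, ← add_assoc]
  refine (lipschitz_sol h _ _).trans ?_
  rw [add_sub_cancel_left]
  have hnorm : ‖∑ i, θ i • w i‖ ≤ (∑ i, ‖w i‖) / N := by
    rw [Finset.sum_div]
    refine (norm_sum_le _ _).trans (Finset.sum_le_sum fun i _ => ?_)
    rw [norm_smul, Real.norm_eq_abs, div_eq_inv_mul]
    exact mul_le_mul_of_nonneg_right (by simpa using hθ i) (norm_nonneg _)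
  have hBε : B / N ≤ ε := by
    have := lt_of_le_of_lt (le_max_left _ _) hN
    rw [div_lt_iff₀ hε] at this
    rw [div_le_iff₀ hN0]; linarith
  refine (mul_le_mul_of_nonneg_left hnorm (mul_nonneg (Nat.cast_nonneg _) (gBound_pos n).le)).trans ?_
  rw [← mul_div_assoc, ← hB]
  exact hBε

end Vale.Agent.P134
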