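import Vale.Agent.P134.Solution

/-! Cutoff functions in linear coordinates and the resulting smallness of the Caccioppoli density. -/

open MeasureTheory Filter Topology Set

noncomputable section

namespace Vale.Agent.P134

set_option linter.unusedSectionVars false

variable {n : ℕ} {ι : Type*} [Fintype ι]

def box (T : Sp n ≃L[ℝ] (ι → ℝ)) (r : ι → ℝ) : Set (Sp n) := {x | ∀ i, |T x i| ≤ r i}

def rad (Y : ι → Bool) (R M : ℝ) (i : ι) : ℝ := bif Y i then R else M

def inY (Y : ι → Bool) : Finset ι := Finset.univ.filter fun i => Y i = true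

def outY (Y : ι → Bool) : Finset ι := Finset.univ.filter fun i => Y i = false

lemma mem_box_rad {T : Sp n ≃L[ℝ] (ι → ℝ)} {Y : ι → Bool} {R M : ℝ} {x : Sp n} :
    x ∈ box T (rad Y R M) ↔
      (∀ i ∈ inY Y, |T x i| ≤ R) ∧ (∀ i ∈ outY Y, |T x i| ≤ M) := by
  simp only [box, rad, inY, outY, Finset.mem_filter, Finset.mem_univ, true_and, mem_ofPred_eq]
  constructor
  · intro h
    exact ⟨fun i hi => by simpa [hi] using h i, fun i hi => by simpa [hi] using h i⟩
  · intro h i
    cases hY : Y i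
    · simpa using h.2 i hY
    · simpa using h.1 i hY

lemma box_compact (T : Sp n ≃L[ℝ] (ι → ℝ)) (r : ι → ℝ) : IsCompact (box T r) := by
  have e : box T r = T.toHomeomorph ⁻¹' (Set.pi univ fun i => Icc (-(r i)) (r i)) := by
    ext x; simp [box, abs_le, Pi.le_def, forall_and]
  rw [e, Homeomorph.isCompact_preimage]
  exact isCompact_univ_pi fun i => isCompact_Icc

lemma box_mono (T : Sp n ≃L[ℝ] (ι → ℝ)) {r r' : ι → ℝ} (h : ∀ i, r i ≤ r' i) :
    box T r ⊆ box T r' := fun _ hx i => (hx i).trans (h i)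

lemma rad_mono (Y : ι → Bool) {R R' M M' : ℝ} (hR : R ≤ R') (hM : M ≤ M') (i : ι) :
    rad Y R M i ≤ rad Y R' M' i := by unfold rad; cases Y i <;> simp [hR, hM]

lemma box_volume (T : Sp n ≃L[ℝ] (ι → ℝ)) :
    ∃ c : ℝ, 0 ≤ c ∧ ∀ (Y : ι → Bool) (R M : ℝ), 0 ≤ R → 0 ≤ M →
      volume.real (box T (rad Y R M)) ≤ c * R ^ (inY Y).card * M ^ (outY Y).card := by
  have : (Measure.map T (volume : Measure (Sp n))).IsAddHaarMeasure :=
    T.isAddHaarMeasure_map _
  obtain ⟨k, hk⟩ : ∃ k : NNReal, Measure.map T (volume : Measure (Sp n)) = k • volume :=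
    ⟨_, Measure.isAddLeftInvariant_eq_smul _ volume⟩
  refine ⟨k * 2 ^ Fintype.card ι, by positivity, fun Y R M hR hM => ?_⟩
  set r := rad Y R M with hr
  have hr0 : ∀ i, 0 ≤ r i := fun i => by rw [hr]; unfold rad; cases Y i <;> simpa
  have e : box T r = T ⁻¹' (Set.pi univ fun i => Icc (-(r i)) (r i)) := by
    ext x; simp [box, abs_le, Pi.le_def, forall_and]
  have hm : MeasurableSet (Set.pi univ fun i => Icc (-(r i)) (r i)) :=
    MeasurableSet.univ_pi fun _ => measurableSet_Icc
  have hv : volume (box T r) = k * volume (Set.pi univ fun i => Icc (-(r i)) (r i)) := by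
    rw [e, ← Measure.map_apply T.continuous.measurable hm, hk, Measure.smul_apply, ENNReal.smul_def,
      smul_eq_mul]
  rw [measureReal_def, hv, volume_pi_pi, ENNReal.toReal_mul, ENNReal.toReal_prod]
  simp only [Real.volume_Icc, ENNReal.coe_toReal]
  refine le_of_eq ?_
  rw [Finset.prod_congr rfl fun i _ => ENNReal.toReal_ofReal (by linarith [hr0 i])]
  simp only [sub_neg_eq_add, ← two_mul, Finset.prod_mul_distrib, Finset.prod_const, Finset.card_univ]
  have : ∏ i, r i = R ^ (inY Y).card * M ^ (outY Y).card := by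
    rw [← Finset.prod_filter_mul_prod_filter_not Finset.univ (fun i => Y i = true)]
    congr 1
    · rw [inY, ← Finset.prod_const]
      exact Finset.prod_congr rfl fun i hi => by simp [hr, rad, (Finset.mem_filter.1 hi).2]
    · have e2 : Finset.univ.filter (fun i => ¬ Y i = true) = outY Y := by
        ext i; simp [outY]
      rw [e2, ← Finset.prod_const]
      exact Finset.prod_congr rfl fun i hi => by simp [hr, rad, (Finset.mem_filter.1 hi).2]
  rw [this]; ring

def cutShape : ContDiffBump (0 : ℝ) := ⟨1, 2, one_pos, one_lt_two⟩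

def cutS (T : Sp n ≃L[ℝ] (ι → ℝ)) (s : Finset ι) (R : ℝ) (x : Sp n) : ℝ :=
  ∏ i ∈ s, cutShape (T x i / R)

variable (T : Sp n ≃L[ℝ] (ι → ℝ))

lemma cutS_nonneg (s : Finset ι) (R : ℝ) (x : Sp n) : 0 ≤ cutS T s R x :=
  Finset.prod_nonneg fun _ _ => cutShape.nonneg

lemma cutS_le_one (s : Finset ι) (R : ℝ) (x : Sp n) : cutS T s R x ≤ 1 :=
  Finset.prod_le_one (fun _ _ => cutShape.nonneg) fun _ _ => cutShape.le_one

lemma cutS_contDiff (s : Finset ι) (R : ℝ) : ContDiff ℝ 1 (cutS T s R) := by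
  refine contDiff_prod fun i _ => ?_
  exact cutShape.contDiff.comp (((contDiff_apply ℝ ℝ i).comp T.contDiff).div_const R)

lemma cutS_eq_one {s : Finset ι} {R : ℝ} (hR : 0 < R) {x : Sp n} (h : ∀ i ∈ s, |T x i| ≤ R) :
    cutS T s R x = 1 := Finset.prod_eq_one fun i hi => by
  apply cutShape.one_of_mem_closedBall
  simp [cutShape, abs_of_pos hR, div_le_one hR, h i hi]

lemma cutS_eq_zero {s : Finset ι} {R : ℝ} (hR : 0 < R) {x : Sp n} {i : ι} (hi : i ∈ s)
    (h : 2 * R ≤ |T x i|) : cutS T s R x = 0 := by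
  refine Finset.prod_eq_zero hi (cutShape.zero_of_le_dist ?_)
  simp only [cutShape, dist_zero_right, Real.norm_eq_abs, abs_div, abs_of_pos hR]
  rw [le_div_iff₀ hR]; linarith

lemma cutS_dd_zero {s : Finset ι} {R : ℝ} (hR : 0 < R) {x : Sp n} (a : Sp n)
    (h : (∀ i ∈ s, |T x i| < R) ∨ ∃ i ∈ s, 2 * R < |T x i|) : dd a (cutS T s R) x = 0 := by
  have hc : ∀ i, Continuous fun y => |T y i| := fun i => by fun_prop
  have : ∃ c : ℝ, cutS T s R =ᶠ[𝓝 x] fun _ => c := by
    rcases h with h | ⟨i, hi, h⟩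
    · refine ⟨1, ?_⟩
      have : ∀ᶠ y in 𝓝 x, ∀ i ∈ s, |T y i| < R :=
        (Finset.eventually_all s).2 fun i hi => ((hc i).tendsto x).eventually (eventually_lt_nhds (h i hi))
      filter_upwards [this] with y hy
      exact cutS_eq_one T hR fun i hi => (hy i hi).le
    · refine ⟨0, ?_⟩
      filter_upwards [((hc i).tendsto x).eventually (eventually_gt_nhds h)] with y hy
      exact cutS_eq_zero T hR hi hy.le
  obtain ⟨c, hc⟩ := this
  simp [dd, hc.fderiv_eq]

lemma cutS_dd_bound (a : Sp n) :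
    ∃ K : ℝ, 0 ≤ K ∧ ∀ (s : Finset ι) (R : ℝ) (x : Sp n), 0 < R →
      |dd a (cutS T s R) x| ≤ K / R := by
  classical
  have hd : Continuous (deriv (cutShape : ℝ → ℝ)) :=
    (cutShape.contDiff (n := 1)).continuous_deriv le_rfl
  obtain ⟨C, hC⟩ := (cutShape.hasCompactSupport.deriv).exists_bound_of_continuous hd
  refine ⟨∑ i, |T a i| * |C|, by positivity, fun s R x hR => ?_⟩
  have hf : ∀ i ∈ s, HasDerivAt (fun r : ℝ => cutShape (T (x + r • a) i / R))
      (deriv (cutShape : ℝ → ℝ) (T x i / R) * (T a i / R)) 0 := by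
    intro i _
    have h1 : HasDerivAt (fun r : ℝ => T (x + r • a) i / R) (T a i / R) 0 := by
      have : (fun r : ℝ => T (x + r • a) i / R) = fun r => (T x i + r * T a i) / R := by
        funext r; simp
      rw [this]
      simpa using (((hasDerivAt_id (0:ℝ)).mul_const (T a i)).const_add (T x i)).div_const R
    have h2 : HasDerivAt (cutShape : ℝ → ℝ) (deriv (cutShape : ℝ → ℝ) (T x i / R)) (T x i / R) :=
      ((cutShape.contDiff (n := 1)).differentiable one_ne_zero _).hasDerivAt
    exact h2.comp_of_eq 0 h1 (by simp)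
  have hp := HasDerivAt.fun_finsetProd hf
  have hl := line_hasDerivAt ((cutS_contDiff T s R).differentiable one_ne_zero) x a 0
  rw [zero_smul, add_zero] at hl
  rw [hl.unique hp]
  refine (Finset.abs_sum_le_sum_abs _ _).trans ?_
  rw [Finset.sum_div]
  refine (Finset.sum_le_sum fun i _ => ?_).trans
    (Finset.sum_le_sum_of_subset_of_nonneg (Finset.subset_univ s) fun i _ _ => by positivity)
  rw [smul_eq_mul, abs_mul, abs_mul, abs_div, abs_of_pos hR]
  have h1 : |∏ j ∈ s.erase i, cutShape (T (x + (0:ℝ) • a) j / R)| ≤ 1 := by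
    rw [abs_of_nonneg (Finset.prod_nonneg fun _ _ => cutShape.nonneg)]
    exact Finset.prod_le_one (fun _ _ => cutShape.nonneg) fun _ _ => cutShape.le_one
  have h2 : |deriv (cutShape : ℝ → ℝ) (T x i / R)| ≤ |C| := (hC _).trans (le_abs_self C)
  calc _ ≤ 1 * (|deriv (cutShape : ℝ → ℝ) (T x i / R)| * (|T a i| / R)) :=
        mul_le_mul_of_nonneg_right h1 (by positivity)
    _ ≤ 1 * (|C| * (|T a i| / R)) := by gcongr
    _ = _ := by ring

lemma cut_hasCompactSupport {Y : ι → Bool} {R M : ℝ} (hR : 0 < R) (hM : 0 < M) {f : Sp n → ℝ}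
    (hf : ∀ x, cutS T (inY Y) R x = 0 → f x = 0) :
    HasCompactSupport fun x => f x * cutS T (outY Y) M x := by
  refine HasCompactSupport.intro (box_compact T (rad Y (2 * R) (2 * M))) fun x hx => ?_
  rw [mem_box_rad, not_and_or] at hx
  push Not at hx
  rcases hx with ⟨i, hi, h⟩ | ⟨i, hi, h⟩
  · simp [hf x (cutS_eq_zero T hR hi h.le)]
  · simp [cutS_eq_zero T hM hi h.le]

def grad2 (u : Sp n → ℝ) (x : Sp n) : ℝ := ∑ i, dd (ev i) u x ^ 2

lemma grad2_nonneg (u : Sp n → ℝ) (x : Sp n) : 0 ≤ grad2 u x :=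
  Finset.sum_nonneg fun _ _ => sq_nonneg _

/-- Quadratic growth in the bounded coordinates, for boxes long enough in the others. -/
def Growth (u : Sp n → ℝ) (Y : ι → Bool) (C : ℝ) (thr : ℝ → ℝ) : Prop :=
  ∀ R M : ℝ, 1 ≤ R → R ≤ M → thr R ≤ M →
    ∫ x in box T (rad Y R M), grad2 u x ≤ C * R ^ 2 * M ^ (outY Y).card

variable {u : Sp n → ℝ} {m : Fin n}

lemma growth_of_card (m : Fin n) {Y : ι → Bool} (hY : (inY Y).card ≤ 2) :
    ∃ C : ℝ, ∀ u : Sp n → ℝ, Sol u m → Growth T u Y C (fun _ => 0) := by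
  obtain ⟨c, hc0, hc⟩ := box_volume T
  refine ⟨n * gBound n ^ 2 * c, fun u h R M hR hM _ => ?_⟩
  have hbd : ∀ x, ‖grad2 u x‖ ≤ n * gBound n ^ 2 := fun x => by
    rw [Real.norm_eq_abs, abs_of_nonneg (grad2_nonneg u x), grad2]
    calc ∑ i, dd (ev i) u x ^ 2 ≤ ∑ _i : Fin n, gBound n ^ 2 :=
          Finset.sum_le_sum fun i _ => sq_le_sq' (abs_le.mp (h.grad_le i x)).1
            (abs_le.mp (h.grad_le i x)).2
      _ = n * gBound n ^ 2 := by simp
  have := norm_setIntegral_le_of_norm_le_const (μ := volume) (f := grad2 u) (C := n * gBound n ^ 2)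
    (box_compact T (rad Y R M)).measure_lt_top (fun x _ => hbd x)
  refine (le_abs_self _).trans (this.trans ?_)
  calc n * gBound n ^ 2 * volume.real (box T (rad Y R M))
      ≤ n * gBound n ^ 2 * (c * R ^ (inY Y).card * M ^ (outY Y).card) :=
        mul_le_mul_of_nonneg_left (hc Y R M (by linarith) (by linarith)) (by positivity)
    _ ≤ n * gBound n ^ 2 * (c * R ^ 2 * M ^ (outY Y).card) := by
        have : 0 ≤ M := by linarith
        gcongr
    _ = _ := by ring

lemma rigidity (m : Fin n) {Y : ι → Bool} (C : ℝ) (thr : ℝ → ℝ) (l : Fin n) :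
    ∀ ε > 0, ∀ ρ ≥ (1:ℝ), ∀ᶠ M : ℝ in atTop, ∀ u : Sp n → ℝ, Sol u m → Growth T u Y C thr →
      ∫ x in box T (rad Y ρ M), quad u m (ev l) x ≤ ε * M ^ (outY Y).card := by
  classical
  intro ε hε ρ hρ
  choose K hK0 hK using fun i : Fin n => cutS_dd_bound T (ev i)
  set b := (outY Y).card
  set κ : ℝ := ∑ i, K i ^ 2 with hκ
  set C1 : ℝ := 4 * (2 * κ) * (4 * |C| * 2 ^ b) with hC1
  obtain ⟨N, hN⟩ := exists_nat_gt (2 * C1 / ε + 1)
  have hN0 : (0:ℝ) < N := by
    have : 0 ≤ 2 * C1 / ε := by positivity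
    linarith
  set Rmax : ℝ := ρ * 4 ^ N with hRmax
  have hRmax1 : 1 ≤ Rmax := by
    rw [hRmax]; exact one_le_mul_of_one_le_of_one_le hρ (one_le_pow₀ (by norm_num))
  filter_upwards [eventually_ge_atTop Rmax, eventually_ge_atTop (2 * C1 * Rmax ^ 2 / ε),
    eventually_ge_atTop (1:ℝ),
    eventually_ge_atTop ((∑ j ∈ Finset.range N, |thr (2 * (ρ * 4 ^ j))|) + |thr (2 * Rmax)|)]
    with M hMR hMbig hM1 hMthr u h hC
  have hM0 : 0 < M := by linarith
  let R : ℕ → ℝ := fun j => ρ * 4 ^ j
  have hR0 : ∀ j, 0 < R j := fun j => by simp only [R]; positivity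
  have hRρ : ∀ j, ρ ≤ R j := fun j => le_mul_of_one_le_right (by linarith) (one_le_pow₀ (by norm_num))
  have hRle : ∀ j ∈ Finset.range N, 4 * R j ≤ Rmax := fun j hj => by
    have : (4:ℝ) ^ (j + 1) ≤ 4 ^ N := pow_le_pow_right₀ (by norm_num) (Finset.mem_range.1 hj)
    simp only [R, hRmax]; rw [pow_succ] at this; nlinarith
  let P : Sp n → ℝ := fun x => (∑ j ∈ Finset.range N, cutS T (inY Y) (R j) x) * (N:ℝ)⁻¹
  let Q : Sp n → ℝ := cutS T (outY Y) M
  let φ : Sp n → ℝ := fun x => P x * Q x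
  have hPc : ContDiff ℝ 1 P := (ContDiff.sum fun j _ => cutS_contDiff T _ _).mul contDiff_const
  have hQc : ContDiff ℝ 1 Q := cutS_contDiff T _ _
  have hφc : ContDiff ℝ 1 φ := hPc.mul hQc
  have hφs : HasCompactSupport φ := by
    refine HasCompactSupport.intro (box_compact T (rad Y (2 * Rmax) (2 * M))) fun x hx => ?_
    rw [mem_box_rad, not_and_or] at hx
    push Not at hx
    rcases hx with ⟨i, hi, hx⟩ | ⟨i, hi, hx⟩
    · simp only [φ, P]
      rw [Finset.sum_eq_zero fun j hj => cutS_eq_zero T (hR0 j) hi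
        (by linarith [hRle j hj, hR0 j])]
      simp
    · simp [φ, Q, cutS_eq_zero T hM0 hi hx.le]
  have hP01 : ∀ x, 0 ≤ P x ∧ P x ≤ 1 := fun x => by
    refine ⟨mul_nonneg (Finset.sum_nonneg fun j _ => cutS_nonneg T _ _ _) (by positivity), ?_⟩
    calc P x ≤ (∑ _j ∈ Finset.range N, (1:ℝ)) * (N:ℝ)⁻¹ :=
          mul_le_mul_of_nonneg_right (Finset.sum_le_sum fun j _ => cutS_le_one T _ _ _) (by positivity)
      _ = 1 := by simp [hN0.ne']
  let ind : ℝ → Sp n → ℝ := fun r => (box T (rad Y r (2 * M))).indicator fun _ => (1:ℝ)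
  have hind : ∀ r x, 0 ≤ ind r x := fun r x => indicator_nonneg (fun _ _ => zero_le_one) x
  have hgrad : ∀ x, ∑ i, dd (ev i) φ x ^ 2
      ≤ 2 * κ / (N:ℝ) ^ 2 * (∑ j ∈ Finset.range N, ind (2 * R j) x / R j ^ 2)
        + 2 * κ / M ^ 2 * ind (2 * Rmax) x := by
    intro x
    simp only [hκ, Finset.mul_sum, Finset.sum_div, Finset.sum_mul]
    rw [Finset.sum_comm, ← Finset.sum_add_distrib]
    refine Finset.sum_le_sum fun i _ => ?_
    have hprod : dd (ev i) φ x = P x * dd (ev i) Q x + Q x * dd (ev i) P x :=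
      dd_mul (hPc.differentiable one_ne_zero) (hQc.differentiable one_ne_zero) _ _
    have hdP : dd (ev i) P x = (∑ j ∈ Finset.range N, dd (ev i) (cutS T (inY Y) (R j)) x) * (N:ℝ)⁻¹ := by
      have h1 := line_hasDerivAt (hPc.differentiable one_ne_zero) x (ev i) 0
      have h2 := (HasDerivAt.fun_sum (u := Finset.range N) fun j _ =>
        line_hasDerivAt ((cutS_contDiff T (inY Y) (R j)).differentiable one_ne_zero) x (ev i) 0).mul_const
          ((N:ℝ)⁻¹)
      simp only [zero_smul, add_zero] at h1 h2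
      exact h1.unique h2
    have hP2 : (Q x * dd (ev i) P x) ^ 2
        ≤ K i ^ 2 / (N:ℝ) ^ 2 * ∑ j ∈ Finset.range N, ind (2 * R j) x / R j ^ 2 := by
      by_cases hQ0 : ∀ k ∈ outY Y, |T x k| ≤ 2 * M
      · rw [hdP]
        set d : ℕ → ℝ := fun j => dd (ev i) (cutS T (inY Y) (R j)) x with hd
        have hdz : ∀ j, d j ≠ 0 → (∀ k ∈ inY Y, |T x k| ≤ 2 * R j) ∧ ∃ k ∈ inY Y, R j ≤ |T x k| := by
          intro j hj
          by_contra hcon
          apply hj
          apply cutS_dd_zero T (hR0 j)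
          rw [not_and_or] at hcon
          push Not at hcon
          exact hcon.symm
        have hsep : ∀ j j', j < j' → d j = 0 ∨ d j' = 0 := by
          intro j j' hjj
          by_contra hcon
          push Not at hcon
          obtain ⟨h1, -⟩ := hdz j hcon.1
          obtain ⟨-, k, hk, h2⟩ := hdz j' hcon.2
          have : 4 * R j ≤ R j' := by
            have : (4:ℝ) ^ (j + 1) ≤ 4 ^ j' := pow_le_pow_right₀ (by norm_num) hjj
            simp only [R]; rw [pow_succ] at this; nlinarith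
          linarith [h1 k hk, hR0 j]
        have hsq : (∑ j ∈ Finset.range N, d j) ^ 2 = ∑ j ∈ Finset.range N, d j ^ 2 := by
          rw [sq, Finset.sum_mul_sum]
          refine Finset.sum_congr rfl fun j hj => ?_
          rw [Finset.sum_eq_single j (fun j' _ hne => ?_) (fun h => absurd hj h), sq]
          rcases lt_or_gt_of_ne hne with h | h
          · rcases hsep j' j h with e | e <;> simp [e]
          · rcases hsep j j' h with e | e <;> simp [e]
        have hQ1 : Q x ^ 2 ≤ 1 := pow_le_one₀ (cutS_nonneg T _ _ _) (cutS_le_one T _ _ _)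
        calc (Q x * ((∑ j ∈ Finset.range N, d j) * (N:ℝ)⁻¹)) ^ 2
            = Q x ^ 2 * ((∑ j ∈ Finset.range N, d j) ^ 2 / (N:ℝ) ^ 2) := by ring
          _ ≤ 1 * ((∑ j ∈ Finset.range N, d j ^ 2) / (N:ℝ) ^ 2) := by
              rw [hsq]; exact mul_le_mul_of_nonneg_right hQ1 (by positivity)
          _ ≤ 1 * ((∑ j ∈ Finset.range N, K i ^ 2 * (ind (2 * R j) x / R j ^ 2)) / (N:ℝ) ^ 2) := by
              gcongr with j hj
              by_cases hj0 : d j = 0
              · rw [hj0]; simp only [ne_eq, OfNat.ofNat_ne_zero, not_false_iff, zero_pow]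
                have := hind (2 * R j) x; positivity
              · have hmem : x ∈ box T (rad Y (2 * R j) (2 * M)) :=
                  mem_box_rad.2 ⟨(hdz j hj0).1, hQ0⟩
                simp only [ind, indicator_of_mem hmem, mul_one_div, ← div_pow]
                have := hK i (inY Y) (R j) x (hR0 j)
                rw [← sq_abs]; gcongr
          _ = _ := by rw [← Finset.mul_sum]; ring
      · push Not at hQ0
        obtain ⟨k, hk, hk2⟩ := hQ0
        have : Q x = 0 := cutS_eq_zero T hM0 hk hk2.le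
        rw [this]
        have : 0 ≤ ∑ j ∈ Finset.range N, ind (2 * R j) x / R j ^ 2 :=
          Finset.sum_nonneg fun j _ => div_nonneg (hind _ x) (sq_nonneg _)
        simp only [zero_mul, ne_eq, OfNat.ofNat_ne_zero, not_false_iff, zero_pow]; positivity
    have hQ2 : (P x * dd (ev i) Q x) ^ 2 ≤ K i ^ 2 / M ^ 2 * ind (2 * Rmax) x := by
      by_cases hmem : x ∈ box T (rad Y (2 * Rmax) (2 * M))
      · simp only [ind, indicator_of_mem hmem, mul_one, ← div_pow]
        rw [← sq_abs]; gcongr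
        rw [abs_mul, abs_of_nonneg (hP01 x).1]
        calc P x * |dd (ev i) Q x| ≤ 1 * (K i / M) := by
              gcongr
              · exact (hP01 x).2
              · exact hK i _ M x hM0
          _ = _ := one_mul _
      · have : P x * dd (ev i) Q x = 0 := by
          rw [mem_box_rad, not_and_or] at hmem
          push Not at hmem
          rcases hmem with ⟨k, hk, hx⟩ | ⟨k, hk, hx⟩
          · simp only [P]
            rw [Finset.sum_eq_zero fun j hj => cutS_eq_zero T (hR0 j) hk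
              (by linarith [hRle j hj, hR0 j])]
            simp
          · simp [Q, cutS_dd_zero T hM0 (ev i) (Or.inr ⟨k, hk, hx⟩)]
        rw [this]; have := hind (2 * Rmax) x
        simp only [ne_eq, OfNat.ofNat_ne_zero, not_false_iff, zero_pow]; positivity
    rw [hprod]
    have := sq_nonneg (P x * dd (ev i) Q x - Q x * dd (ev i) P x)
    have e1 : ∀ S : ℝ, 2 * K i ^ 2 / (N:ℝ) ^ 2 * S = 2 * (K i ^ 2 / (N:ℝ) ^ 2 * S) := fun S => by ring
    have e2 : ∀ S : ℝ, 2 * K i ^ 2 / M ^ 2 * S = 2 * (K i ^ 2 / M ^ 2 * S) := fun S => by ring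
    rw [← Finset.mul_sum, e1, e2]
    nlinarith
  have hdl := h.ddcont (ev l)
  have hqi : ∀ r, Integrable fun x => dd (ev l) u x ^ 2 * ind r x := fun r => by
    have : (fun x => dd (ev l) u x ^ 2 * ind r x)
        = (box T (rad Y r (2 * M))).indicator fun x => dd (ev l) u x ^ 2 := by
      funext x; simp [ind, indicator_apply]
    rw [this]
    exact ((hdl.pow 2).continuousOn.integrableOn_compact (box_compact T _)).integrable_indicator
      (box_compact T _).measurableSet
  have hind_int : ∀ r, 1 ≤ r → r ≤ 2 * M → thr r ≤ 2 * M →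
      ∫ x, dd (ev l) u x ^ 2 * ind r x ≤ |C| * r ^ 2 * (2 * M) ^ b := by
    intro r hr hr2 hr3
    have : (fun x => dd (ev l) u x ^ 2 * ind r x)
        = (box T (rad Y r (2 * M))).indicator fun x => dd (ev l) u x ^ 2 := by
      funext x; simp [ind, indicator_apply]
    rw [this, integral_indicator (box_compact T _).measurableSet]
    have h2 : Continuous (grad2 u) := continuous_finsetSum _ fun i _ => (h.ddcont _).pow 2
    refine (setIntegral_mono_on ((hdl.pow 2).continuousOn.integrableOn_compact (box_compact T _))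
      (h2.continuousOn.integrableOn_compact (box_compact T _)) (box_compact T _).measurableSet
      fun x _ => Finset.single_le_sum (f := fun i => dd (ev i) u x ^ 2)
        (fun i _ => sq_nonneg _) (Finset.mem_univ l)).trans ((hC r (2 * M) hr hr2 hr3).trans ?_)
    gcongr; exact le_abs_self C
  have hquad : 0 ≤ᵐ[volume] fun x => φ x ^ 2 * quad u m (ev l) x :=
    Eventually.of_forall fun x => mul_nonneg (sq_nonneg _) (quad_nonneg _ _ _ _)
  have hqint : Integrable fun x => φ x ^ 2 * quad u m (ev l) x :=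
    ((hφc.continuous.pow 2).mul (h.quad_continuous _)).integrable_of_hasCompactSupport
      (by simp only [sq]; exact hφs.mul_right.mul_right)
  have hlhs : ∫ x in box T (rad Y ρ M), quad u m (ev l) x ≤ ∫ x, φ x ^ 2 * quad u m (ev l) x := by
    refine le_trans (le_of_eq (setIntegral_congr_fun (box_compact T _).measurableSet fun x hx => ?_))
      (setIntegral_le_integral hqint hquad)
    obtain ⟨h1, h2⟩ := mem_box_rad.1 hx
    have hP : P x = 1 := by
      simp only [P]
      rw [Finset.sum_congr rfl fun j _ => cutS_eq_one T (hR0 j) fun i hi => (h1 i hi).trans (hRρ j)]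
      simp [hN0.ne']
    simp [φ, hP, Q, cutS_eq_one T hM0 h2]
  have hcc := h.caccioppoli (ev l) hφc hφs
  have hrhs : ∫ x, dd (ev l) u x ^ 2 * ∑ i, dd (ev i) φ x ^ 2
      ≤ 2 * κ / (N:ℝ) ^ 2 * (∑ _j ∈ Finset.range N, 4 * |C| * (2 * M) ^ b)
        + 2 * κ / M ^ 2 * (4 * |C| * Rmax ^ 2 * (2 * M) ^ b) := by
    have hI1 : ∀ j, Integrable fun x => dd (ev l) u x ^ 2 * (ind (2 * R j) x / R j ^ 2) := fun j => by
      simp only [← mul_div_assoc]; exact (hqi _).div_const _
    calc ∫ x, dd (ev l) u x ^ 2 * ∑ i, dd (ev i) φ x ^ 2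
        ≤ ∫ x, (2 * κ / (N:ℝ) ^ 2 * (∑ j ∈ Finset.range N, dd (ev l) u x ^ 2 * (ind (2 * R j) x / R j ^ 2))
            + 2 * κ / M ^ 2 * (dd (ev l) u x ^ 2 * ind (2 * Rmax) x)) := by
          refine integral_mono_of_nonneg (Eventually.of_forall fun x =>
              mul_nonneg (sq_nonneg _) (Finset.sum_nonneg fun i _ => sq_nonneg _))
            (((integrable_finsetSum _ fun j _ => hI1 j).const_mul _).add ((hqi _).const_mul _))
            (Eventually.of_forall fun x => ?_)
          refine le_trans (mul_le_mul_of_nonneg_left (hgrad x) (sq_nonneg _)) (le_of_eq ?_)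
          simp only [Finset.mul_sum, mul_add]
          congr 1
          · exact Finset.sum_congr rfl fun j _ => by ring
          · ring
      _ ≤ _ := by
          rw [integral_add ((integrable_finsetSum _ fun j _ => hI1 j).const_mul _) ((hqi _).const_mul _),
            integral_const_mul, integral_const_mul, integral_finsetSum _ fun j _ => hI1 j]
          gcongr with j hj
          · simp only [← mul_div_assoc]
            rw [integral_div, div_le_iff₀ (by have := hR0 j; positivity)]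
            refine (hind_int _ (by linarith [hRρ j]) (by linarith [hRle j hj, hR0 j]) ?_).trans (le_of_eq ?_)
            · have := Finset.single_le_sum (f := fun j => |thr (2 * R j)|) (fun i _ => abs_nonneg _) hj
              simp only [R] at this ⊢
              linarith [le_abs_self (thr (2 * (ρ * 4 ^ j))), abs_nonneg (thr (2 * Rmax))]
            ring
          · refine (hind_int _ (by linarith) (by linarith) ?_).trans (le_of_eq ?_)
            · have : 0 ≤ ∑ j ∈ Finset.range N, |thr (2 * (ρ * 4 ^ j))| :=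
                Finset.sum_nonneg fun i _ => abs_nonneg _
              linarith [le_abs_self (thr (2 * Rmax))]
            ring
  refine hlhs.trans (hcc.trans ?_)
  refine (mul_le_mul_of_nonneg_left hrhs (by norm_num)).trans ?_
  have e : 4 * (2 * κ / (N:ℝ) ^ 2 * (∑ _j ∈ Finset.range N, 4 * |C| * (2 * M) ^ b)
      + 2 * κ / M ^ 2 * (4 * |C| * Rmax ^ 2 * (2 * M) ^ b))
      = (C1 / N + C1 * Rmax ^ 2 / M ^ 2) * M ^ b := by
    simp only [Finset.sum_const, Finset.card_range, nsmul_eq_mul, hC1, mul_pow]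
    field_simp
  rw [e]
  refine mul_le_mul_of_nonneg_right ?_ (by positivity)
  have a1 : C1 / N ≤ ε / 2 := by
    rw [div_le_iff₀ hN0]
    have := mul_le_mul_of_nonneg_left hN.le (by linarith : (0:ℝ) ≤ ε / 2)
    have e2 : ε / 2 * (2 * C1 / ε + 1) = C1 + ε / 2 := by field_simp
    linarith
  have a2 : C1 * Rmax ^ 2 / M ^ 2 ≤ ε / 2 := by
    rw [div_le_iff₀ (by positivity)]
    rw [div_le_iff₀ hε] at hMbig
    nlinarith [mul_le_mul_of_nonneg_left (by nlinarith : M ≤ M ^ 2) hε.le]
  linarith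

end Vale.Agent.P134
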