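import Vale.Agent.P134.Basic

/-! Weak identities for a monotone bounded Allen-Cahn solution: linearised equation,
Caccioppoli inequality for the quotient of derivatives, stability, dissipation of energy. -/

open MeasureTheory Filter Topology Set

noncomputable section

namespace Vale.Agent.P134

variable {n : ℕ}

structure Sol (u : Sp n → ℝ) (m : Fin n) : Prop where
  smooth : ContDiff ℝ 2 u
  bdd : ∀ x, |u x| ≤ 1
  eqn : ∀ x, lap u x = u x ^ 3 - u x
  mono : ∀ x, 0 < dd (ev m) u x

def gBound (n : ℕ) : ℝ := n + 1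

lemma gBound_pos (n : ℕ) : 0 < gBound n := by unfold gBound; positivity

lemma cubic_bound {s : ℝ} (h : |s| ≤ 1) : |s ^ 3 - s| ≤ 1 := by
  obtain ⟨h1, h2⟩ := abs_le.mp h
  rw [abs_le]; constructor <;>
    nlinarith [mul_nonneg (sub_nonneg.2 h1) (sub_nonneg.2 h2), sq_nonneg s,
      mul_nonneg (mul_nonneg (sub_nonneg.2 h1) (sub_nonneg.2 h2)) (sub_nonneg.2 h1)]

lemma cubic_lip {a b : ℝ} (ha : |a| ≤ 1) (hb : |b| ≤ 1) :
    |(a ^ 3 - a) - (b ^ 3 - b)| ≤ 2 * |a - b| := by
  rw [show (a ^ 3 - a) - (b ^ 3 - b) = (a - b) * (a ^ 2 + a * b + b ^ 2 - 1) by ring, abs_mul,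
    mul_comm]
  gcongr
  obtain ⟨h1, h2⟩ := abs_le.mp ha
  obtain ⟨h3, h4⟩ := abs_le.mp hb
  rw [abs_le]; constructor <;> nlinarith [sq_nonneg (a + b), sq_nonneg a, sq_nonneg b]

variable {u : Sp n → ℝ} {m : Fin n}

namespace Sol

lemma diff (h : Sol u m) : Differentiable ℝ u := h.smooth.differentiable (by norm_num)
lemma cont (h : Sol u m) : Continuous u := h.smooth.continuous
lemma ddc (h : Sol u m) (a : Sp n) : ContDiff ℝ 1 (dd a u) := dd_contDiff h.smooth a
lemma ddcont (h : Sol u m) (a : Sp n) : Continuous (dd a u) := (h.ddc a).continuous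
lemma ddd (h : Sol u m) (a : Sp n) : Differentiable ℝ (dd a u) :=
  (h.ddc a).differentiable one_ne_zero

lemma translate (h : Sol u m) (c : Sp n) : Sol (fun x => u (x + c)) m := by
  refine ⟨h.smooth.comp (contDiff_id.add contDiff_const), fun x => h.bdd _, fun x => ?_, fun x => ?_⟩
  · have e : ∀ a, dd a (fun y => u (y + c)) = fun y => dd a u (y + c) :=
      fun a => funext fun y => dd_translate u c a y
    simp only [lap, e, dd_translate]
    exact h.eqn _
  · rw [dd_translate]; exact h.mono _

lemma grad_le (h : Sol u m) (i : Fin n) (x : Sp n) : |dd (ev i) u x| ≤ gBound n := by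
  have := grad_bound h.smooth x (A := 1) (B := 1) (fun y _ => h.bdd y)
    (fun y _ => by rw [h.eqn]; exact cubic_bound (h.bdd y)) i
  unfold gBound; linarith

/-- Gradients of two solutions are close when the solutions are close on a cube. -/
lemma grad_diff {w : Sp n → ℝ} (h : Sol u m) (hw : Sol w m) (x : Sp n) {ε : ℝ}
    (hε : ∀ y, InCube x y → |u y - w y| ≤ ε) (i : Fin n) :
    |dd (ev i) u x - dd (ev i) w x| ≤ gBound n * ε := by
  have e : ∀ a, dd a (fun y => u y - w y) = fun y => dd a u y - dd a w y :=
    fun a => funext fun y => dd_sub h.diff hw.diff a y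
  have hl : ∀ y, lap (fun y => u y - w y) y = lap u y - lap w y := by
    intro y
    simp only [lap, e, ← Finset.sum_sub_distrib]
    exact Finset.sum_congr rfl fun j _ => dd_sub (h.ddd _) (hw.ddd _) _ _
  have := grad_bound (h.smooth.sub hw.smooth) x (A := ε) (B := 2 * ε) hε
    (fun y hy => by
      rw [hl, h.eqn, hw.eqn]
      exact (cubic_lip (h.bdd y) (hw.bdd y)).trans (by linarith [hε y hy])) i
  rw [dd_sub h.diff hw.diff] at this
  unfold gBound; linarith

/-- Weak form of the equation. -/
lemma weak (h : Sol u m) {η : Sp n → ℝ} (hη : ContDiff ℝ 1 η) (hc : HasCompactSupport η) :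
    ∫ x, ((∑ i, dd (ev i) u x * dd (ev i) η x) + (u x ^ 3 - u x) * η x) = 0 := by
  have h1 : ∀ i, Integrable fun x => dd (ev i) u x * dd (ev i) η x := fun i =>
    integrable_mul_compact (h.ddcont _) (dd_continuous hη _) (dd_hasCompactSupport hc _)
  have h2 : Integrable fun x => (u x ^ 3 - u x) * η x :=
    integrable_mul_compact (by have := h.cont; fun_prop) hη.continuous hc
  have h3 : ∀ i, Integrable fun x => dd (ev i) (dd (ev i) u) x * η x := fun i =>
    integrable_mul_compact (dd_continuous (h.ddc _) _) hη.continuous hc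
  rw [integral_add (integrable_finsetSum _ fun i _ => h1 i) h2,
    integral_finsetSum _ fun i _ => h1 i]
  simp only [ibp (h.ddc _) hη hc, Finset.sum_neg_distrib]
  rw [← integral_finsetSum _ fun i _ => h3 i, neg_add_eq_zero]
  congr 1; funext x
  rw [← h.eqn, lap, Finset.sum_mul]

/-- Linearised equation satisfied weakly by each directional derivative. -/
lemma linearised (h : Sol u m) (a : Sp n) {η : Sp n → ℝ} (hη : ContDiff ℝ 1 η)
    (hc : HasCompactSupport η) :
    ∫ x, ((∑ i, dd (ev i) (dd a u) x * dd (ev i) η x) + (3 * u x ^ 2 - 1) * dd a u x * η x) = 0 := by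
  let Φ : ℝ → Sp n → ℝ := fun s x =>
    (∑ i, dd (ev i) u (x + s • a) * dd (ev i) η x) + (u (x + s • a) ^ 3 - u (x + s • a)) * η x
  let Φ' : ℝ → Sp n → ℝ := fun s x =>
    (∑ i, dd a (dd (ev i) u) (x + s • a) * dd (ev i) η x)
      + (3 * u (x + s • a) ^ 2 - 1) * dd a u (x + s • a) * η x
  have hcu := h.cont
  have hcd := fun i => h.ddcont (ev i)
  have hca := h.ddcont a
  have hcdd := fun i => dd_continuous (h.ddc (ev i)) a
  have hce := fun i => dd_continuous hη (ev i)
  have hcη := hη.continuous
  have hder := param_deriv (Φ := Φ) (Φ' := Φ') (by fun_prop) (by fun_prop) hc.isCompact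
    (fun s x hx => by
      have e0 : η x = 0 := image_eq_zero_of_notMem_tsupport hx
      have e1 : ∀ i, dd (ev i) η x = 0 := fun i => by
        simp [dd, fderiv_of_notMem_tsupport ℝ hx]
      simp [Φ, e0, e1])
    (fun s x => by
      have q := line_hasDerivAt h.diff x a s
      have q1 : ∀ i, HasDerivAt (fun r : ℝ => dd (ev i) u (x + r • a) * dd (ev i) η x)
          (dd a (dd (ev i) u) (x + s • a) * dd (ev i) η x) s := fun i =>
        (line_hasDerivAt (h.ddd _) x a s).mul_const _
      have q2 := ((q.fun_pow 3).fun_sub q).mul_const (η x)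
      have := (HasDerivAt.fun_sum (u := Finset.univ) fun i _ => q1 i).fun_add q2
      refine this.congr_deriv ?_
      simp only [Φ']; push_cast; ring) 0
  have hzero : (fun s => ∫ x, Φ s x) = fun _ => 0 := by
    funext s
    have := (h.translate (s • a)).weak hη hc
    simpa only [Φ, dd_translate] using this
  rw [hzero] at hder
  have e := (hder.unique (hasDerivAt_const (0:ℝ) (0:ℝ)))
  simpa [Φ', dd_comm h.smooth a] using e

end Sol

/-- The density controlled by the Caccioppoli inequality. -/
def quad (u : Sp n → ℝ) (m : Fin n) (a : Sp n) (x : Sp n) : ℝ :=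
  ∑ i, ((dd (ev m) u x * dd (ev i) (dd a u) x - dd a u x * dd (ev i) (dd (ev m) u) x)
    / dd (ev m) u x) ^ 2

lemma quad_nonneg (u : Sp n → ℝ) (m : Fin n) (a x : Sp n) : 0 ≤ quad u m a x :=
  Finset.sum_nonneg fun _ _ => sq_nonneg _

namespace Sol

lemma quad_continuous (h : Sol u m) (a : Sp n) : Continuous (quad u m a) := by
  unfold quad
  refine continuous_finsetSum _ fun i _ => ?_
  exact ((((h.ddcont _).mul (dd_continuous (h.ddc a) _)).sub
    ((h.ddcont a).mul (dd_continuous (h.ddc _) _))).div (h.ddcont _) fun x => (h.mono x).ne').pow 2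

lemma caccioppoli (h : Sol u m) (a : Sp n) {φ : Sp n → ℝ} (hφ : ContDiff ℝ 1 φ)
    (hc : HasCompactSupport φ) :
    ∫ x, φ x ^ 2 * quad u m a x ≤ 4 * ∫ x, dd a u x ^ 2 * ∑ i, dd (ev i) φ x ^ 2 := by
  set g := dd (ev m) u with hg
  set v := dd a u with hv
  have hg1 : ContDiff ℝ 1 g := h.ddc _
  have hv1 : ContDiff ℝ 1 v := h.ddc _
  have hgne : ∀ x, g x ≠ 0 := fun x => (h.mono x).ne'
  let η1 : Sp n → ℝ := fun x => φ x * φ x * v x
  let η2 : Sp n → ℝ := fun x => φ x * φ x * (v x * v x) / g x
  have hη1 : ContDiff ℝ 1 η1 := (hφ.mul hφ).mul hv1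
  have hη2 : ContDiff ℝ 1 η2 := ((hφ.mul hφ).mul (hv1.mul hv1)).div hg1 hgne
  have hc1 : HasCompactSupport η1 := hc.mul_right.mul_right
  have hc2 : HasCompactSupport η2 := by
    show HasCompactSupport (fun x => φ x * φ x * (v x * v x) / g x)
    simp only [div_eq_mul_inv]
    exact hc.mul_right.mul_right.mul_right
  have hfd : Differentiable ℝ φ := hφ.differentiable one_ne_zero
  have hvd : Differentiable ℝ v := hv1.differentiable one_ne_zero
  have hgd : Differentiable ℝ g := hg1.differentiable one_ne_zero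
  let A : Sp n → ℝ := fun x =>
    (∑ i, dd (ev i) v x * dd (ev i) η1 x) + (3 * u x ^ 2 - 1) * v x * η1 x
  let B : Sp n → ℝ := fun x =>
    (∑ i, dd (ev i) g x * dd (ev i) η2 x) + (3 * u x ^ 2 - 1) * g x * η2 x
  have hA : ∫ x, A x = 0 := h.linearised a hη1 hc1
  have hB : ∫ x, B x = 0 := h.linearised (ev m) hη2 hc2
  have hAi : Integrable A :=
    (integrable_finsetSum _ fun i _ => integrable_mul_compact (dd_continuous hv1 _)
      (dd_continuous hη1 _) (dd_hasCompactSupport hc1 _)).add
      (integrable_mul_compact (by have := h.cont; have := hv1.continuous; fun_prop)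
        hη1.continuous hc1)
  have hBi : Integrable B :=
    (integrable_finsetSum _ fun i _ => integrable_mul_compact (dd_continuous hg1 _)
      (dd_continuous hη2 _) (dd_hasCompactSupport hc2 _)).add
      (integrable_mul_compact (by have := h.cont; have := hg1.continuous; fun_prop)
        hη2.continuous hc2)
  have hP : Integrable fun x => φ x ^ 2 * quad u m a x := by
    refine ((hφ.continuous.pow 2).mul (h.quad_continuous a)).integrable_of_hasCompactSupport ?_
    simp only [sq]
    exact hc.mul_right.mul_right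
  have hQ : Integrable fun x => v x ^ 2 * ∑ i, dd (ev i) φ x ^ 2 := by
    simp only [Finset.mul_sum]
    refine integrable_finsetSum _ fun i _ => ?_
    refine integrable_mul_compact (by have := hv1.continuous; fun_prop)
      ((dd_continuous hφ _).pow 2) ?_
    simp only [sq]; exact (dd_hasCompactSupport hc _).mul_right
  have hpt : ∀ x, φ x ^ 2 * quad u m a x - 4 * (v x ^ 2 * ∑ i, dd (ev i) φ x ^ 2)
      ≤ 2 * (A x - B x) := by
    intro x
    have hcan : (3 * u x ^ 2 - 1) * v x * η1 x = (3 * u x ^ 2 - 1) * g x * η2 x := by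
      have := hgne x; simp only [η1, η2]; field_simp
    simp only [A, B, quad, ← hg, ← hv, hcan]
    simp only [add_sub_add_right_eq_sub, ← Finset.sum_sub_distrib, Finset.mul_sum]
    refine Finset.sum_le_sum fun i _ => ?_
    have d1 : dd (ev i) η1 x = φ x * φ x * dd (ev i) v x + v x * (2 * φ x * dd (ev i) φ x) := by
      simp only [η1]
      rw [dd_mul (hfd.fun_mul hfd) hvd, dd_mul hfd hfd]; ring
    have d2 : dd (ev i) η2 x = (g x * (φ x * φ x * (2 * v x * dd (ev i) v x)
        + v x * v x * (2 * φ x * dd (ev i) φ x))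
        - φ x * φ x * (v x * v x) * dd (ev i) g x) / g x ^ 2 := by
      simp only [η2]
      rw [dd_div ((hfd.fun_mul hfd).fun_mul (hvd.fun_mul hvd)) hgd _ _ (hgne x),
        dd_mul (hfd.fun_mul hfd) (hvd.fun_mul hvd), dd_mul hfd hfd, dd_mul hvd hvd]
      ring
    rw [d1, d2]
    have hgx := hgne x
    have key : dd (ev i) v x * (φ x * φ x * dd (ev i) v x + v x * (2 * φ x * dd (ev i) φ x))
        - dd (ev i) g x * ((g x * (φ x * φ x * (2 * v x * dd (ev i) v x)
        + v x * v x * (2 * φ x * dd (ev i) φ x))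
        - φ x * φ x * (v x * v x) * dd (ev i) g x) / g x ^ 2)
        = φ x ^ 2 * ((g x * dd (ev i) v x - v x * dd (ev i) g x) / g x) ^ 2
          + 2 * (φ x * ((g x * dd (ev i) v x - v x * dd (ev i) g x) / g x))
            * (v x * dd (ev i) φ x) := by
      field_simp; ring
    rw [key]
    nlinarith [sq_nonneg (φ x * ((g x * dd (ev i) v x - v x * dd (ev i) g x) / g x)
      + 2 * (v x * dd (ev i) φ x))]
  have := integral_mono (hP.sub (hQ.const_mul 4)) ((hAi.sub hBi).const_mul 2) hpt
  rw [integral_sub' hP (hQ.const_mul 4)] at this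
  simp only [Pi.sub_apply] at this
  rw [integral_const_mul, integral_const_mul, integral_sub hAi hBi, hA, hB] at this
  linarith

lemma stable (h : Sol u m) {η : Sp n → ℝ} (hη : ContDiff ℝ 1 η) (hc : HasCompactSupport η) :
    0 ≤ ∫ x, ((∑ i, dd (ev i) η x ^ 2) + (3 * u x ^ 2 - 1) * η x ^ 2) := by
  set g := dd (ev m) u with hg
  have hg1 : ContDiff ℝ 1 g := h.ddc _
  have hgne : ∀ x, g x ≠ 0 := fun x => (h.mono x).ne'
  let η2 : Sp n → ℝ := fun x => η x * η x / g x
  have hη2 : ContDiff ℝ 1 η2 := (hη.mul hη).div hg1 hgne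
  have hc2 : HasCompactSupport η2 := by
    show HasCompactSupport (fun x => η x * η x / g x)
    simp only [div_eq_mul_inv]
    exact hc.mul_right.mul_right
  let B : Sp n → ℝ := fun x =>
    (∑ i, dd (ev i) g x * dd (ev i) η2 x) + (3 * u x ^ 2 - 1) * g x * η2 x
  have hB : ∫ x, B x = 0 := h.linearised (ev m) hη2 hc2
  have hBi : Integrable B :=
    (integrable_finsetSum _ fun i _ => integrable_mul_compact (dd_continuous hg1 _)
      (dd_continuous hη2 _) (dd_hasCompactSupport hc2 _)).add
      (integrable_mul_compact (by have := h.cont; have := hg1.continuous; fun_prop)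
        hη2.continuous hc2)
  rw [← hB]
  refine integral_mono hBi ?_ fun x => ?_
  · refine Integrable.add (integrable_finsetSum _ fun i _ => ?_) ?_
    · simp only [sq]
      exact integrable_mul_compact (dd_continuous hη _) (dd_continuous hη _)
        (dd_hasCompactSupport hc _)
    · refine integrable_mul_compact (by have := h.cont; fun_prop) (hη.continuous.pow 2) ?_
      simp only [sq]; exact hc.mul_right
  · have hgx := hgne x
    simp only [B]
    refine add_le_add (Finset.sum_le_sum fun i _ => ?_) (le_of_eq ?_)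
    · simp only [η2]
      have hd : Differentiable ℝ η := hη.differentiable one_ne_zero
      rw [dd_div (hd.fun_mul hd) (hg1.differentiable one_ne_zero) _ _ hgx, dd_mul hd hd]
      have : 0 ≤ (dd (ev i) η x - η x * dd (ev i) g x / g x) ^ 2 := sq_nonneg _
      have e : dd (ev i) η x ^ 2 - dd (ev i) g x * ((g x * (η x * dd (ev i) η x + η x * dd (ev i) η x)
          - η x * η x * dd (ev i) g x) / g x ^ 2)
          = (dd (ev i) η x - η x * dd (ev i) g x / g x) ^ 2 := by field_simp; ring
      linarith
    · simp only [η2]; field_simp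

end Sol

def energy (u : Sp n → ℝ) (φ : Sp n → ℝ) : ℝ :=
  ∫ x, φ x * ((∑ i, dd (ev i) u x ^ 2) / 2 + (1 - u x ^ 2) ^ 2 / 4)

lemma Sol.dissipation (h : Sol u m) {φ : Sp n → ℝ} (hφ : ContDiff ℝ 1 φ)
    (hc : HasCompactSupport φ) {T : ℝ} (hT : 0 ≤ T) :
    energy u φ ≤ energy (fun x => u (x + T • ev m)) φ
      + 2 * gBound n * ∫ x, ∑ i, |dd (ev i) φ x| := by
  have hcu := h.cont
  have hcd := fun a => h.ddcont a
  have hcdd := fun i => dd_continuous (h.ddc (ev i)) (ev m)
  have hce := fun i => dd_continuous hφ (ev i)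
  have hcφ := hφ.continuous
  let S : Sp n → ℝ := fun x => ∑ i, |dd (ev i) φ x|
  have hS0 : ∀ x, 0 ≤ S x := fun x => Finset.sum_nonneg fun _ _ => abs_nonneg _
  have hScont : Continuous S := by fun_prop
  have hSz : ∀ x, x ∉ tsupport φ → S x = 0 := fun x hx => by
    simp [S, dd, fderiv_of_notMem_tsupport ℝ hx]
  let e : ℝ → Sp n → ℝ := fun s x =>
    φ x * ((∑ i, dd (ev i) u (x + s • ev m) ^ 2) / 2 + (1 - u (x + s • ev m) ^ 2) ^ 2 / 4)
  let e' : ℝ → Sp n → ℝ := fun s x =>
    φ x * ((∑ i, dd (ev i) u (x + s • ev m) * dd (ev m) (dd (ev i) u) (x + s • ev m))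
      + (u (x + s • ev m) ^ 3 - u (x + s • ev m)) * dd (ev m) u (x + s • ev m))
  have hd1 := param_deriv (Φ := e) (Φ' := e') (by fun_prop) (by fun_prop) hc.isCompact
    (fun s x hx => by simp [e, image_eq_zero_of_notMem_tsupport hx])
    (fun s x => by
      have q := line_hasDerivAt h.diff x (ev m) s
      have q1 := HasDerivAt.fun_sum (u := Finset.univ) fun i _ =>
        (line_hasDerivAt (h.ddd (ev i)) x (ev m) s).fun_pow 2
      have := ((q1.div_const 2).fun_add (((q.fun_pow 2).const_sub 1).fun_pow 2 |>.div_const 4)).const_mul (φ x)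
      refine this.congr_deriv ?_
      simp only [e', Finset.sum_div]
      push_cast
      congr 1
      congr 1
      · exact Finset.sum_congr rfl fun i _ => by ring
      · ring)
  have hd2 := param_deriv (Φ := fun s x => S x * u (x + s • ev m))
    (Φ' := fun s x => S x * dd (ev m) u (x + s • ev m)) (by fun_prop) (by fun_prop) hc.isCompact
    (fun s x hx => by simp [hSz x hx])
    (fun s x => (line_hasDerivAt h.diff x (ev m) s).const_mul (S x))
  have hIe' : ∀ s, Integrable (e' s) := fun s =>
    Continuous.integrable_of_hasCompactSupport (by fun_prop)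
      (HasCompactSupport.intro hc.isCompact fun x hx => by
        simp [e', image_eq_zero_of_notMem_tsupport hx])
  have hI2 : ∀ s : ℝ, Integrable fun x => S x * dd (ev m) u (x + s • ev m) := fun s =>
    Continuous.integrable_of_hasCompactSupport
      (hScont.mul ((hcd _).comp (continuous_id.add continuous_const)))
      (HasCompactSupport.intro hc.isCompact fun x hx => by simp [hSz x hx])
  have hmon : Monotone fun s => (∫ x, e s x) + gBound n * ∫ x, S x * u (x + s • ev m) := by
    refine monotone_of_hasDerivAt_nonneg (fun s => (hd1 s).add ((hd2 s).const_mul (gBound n)))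
      fun s => ?_
    have hts := h.translate (s • ev m)
    let η : Sp n → ℝ := fun x => φ x * dd (ev m) u (x + s • ev m)
    have hη : ContDiff ℝ 1 η := hφ.mul ((h.ddc _).comp (contDiff_id.add contDiff_const))
    have hηc : HasCompactSupport η := hc.mul_right
    have hw := hts.weak hη hηc
    simp only [dd_translate] at hw
    have hpt : ∀ x, -(gBound n * (S x * dd (ev m) u (x + s • ev m))) ≤ e' s x
        - ((∑ i, dd (ev i) u (x + s • ev m) * dd (ev i) η x)
          + (u (x + s • ev m) ^ 3 - u (x + s • ev m)) * η x) := by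
      intro x
      have de : ∀ i, dd (ev i) η x = φ x * dd (ev m) (dd (ev i) u) (x + s • ev m)
          + dd (ev m) u (x + s • ev m) * dd (ev i) φ x := fun i => by
        simp only [η]
        have hD : Differentiable ℝ fun y => dd (ev m) u (y + s • ev m) :=
          (h.ddd _).comp (differentiable_id.add_const _)
        rw [dd_mul (hφ.differentiable one_ne_zero) hD, dd_translate, dd_comm h.smooth]
      have hkey : (∑ i, dd (ev i) u (x + s • ev m) * dd (ev i) η x)
          = φ x * (∑ i, dd (ev i) u (x + s • ev m) * dd (ev m) (dd (ev i) u) (x + s • ev m))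
            + dd (ev m) u (x + s • ev m) * ∑ i, dd (ev i) u (x + s • ev m) * dd (ev i) φ x := by
        simp only [de, Finset.mul_sum, ← Finset.sum_add_distrib]
        exact Finset.sum_congr rfl fun i _ => by ring
      have hb : ∑ i, dd (ev i) u (x + s • ev m) * dd (ev i) φ x ≤ gBound n * S x := by
        simp only [S, Finset.mul_sum]
        refine Finset.sum_le_sum fun i _ => (le_abs_self _).trans ?_
        rw [abs_mul]; exact mul_le_mul_of_nonneg_right (h.grad_le i _) (abs_nonneg _)
      simp only [e', η] at *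
      rw [hkey]
      nlinarith [mul_le_mul_of_nonneg_left hb (h.mono (x + s • ev m)).le]
    have hIw : Integrable fun x => (∑ i, dd (ev i) u (x + s • ev m) * dd (ev i) η x)
        + (u (x + s • ev m) ^ 3 - u (x + s • ev m)) * η x :=
      (integrable_finsetSum _ fun i _ => integrable_mul_compact (by fun_prop)
        (dd_continuous hη _) (dd_hasCompactSupport hηc _)).add
        (integrable_mul_compact (by fun_prop) hη.continuous hηc)
    have := integral_mono ((hI2 s).const_mul (gBound n)).neg ((hIe' s).sub hIw) hpt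
    rw [integral_neg', integral_const_mul] at this
    simp only [Pi.sub_apply] at this
    rw [integral_sub (hIe' s) hIw, hw] at this
    simp only [Pi.zero_apply]
    linarith
  have h0 := hmon hT
  have hIu : ∀ s : ℝ, |∫ x, S x * u (x + s • ev m)| ≤ ∫ x, S x := by
    intro s
    refine (abs_integral_le_integral_abs).trans (integral_mono_of_nonneg
      (Eventually.of_forall fun x => abs_nonneg _)
      (hScont.integrable_of_hasCompactSupport (HasCompactSupport.intro hc.isCompact hSz))
      (Eventually.of_forall fun x => ?_))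
    simp only [abs_mul, abs_of_nonneg (hS0 x)]
    exact mul_le_of_le_one_right (hS0 x) (h.bdd _)
  have a1 := abs_le.mp (hIu 0)
  have a2 := abs_le.mp (hIu T)
  have hgp := gBound_pos n
  simp only [zero_smul, add_zero, e] at h0 a1
  have eT : energy (fun x => u (x + T • ev m)) φ
      = ∫ x, φ x * ((∑ i, dd (ev i) u (x + T • ev m) ^ 2) / 2 + (1 - u (x + T • ev m) ^ 2) ^ 2 / 4) := by
    simp only [energy, dd_translate]
  rw [eT, energy]
  nlinarith

end Vale.Agent.P134
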