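import Vale.Agent.P134.Compact
import Vale.Agent.P134.Classify

/-! Windows: a solution far from one-dimensional functions in a window has a definite amount of
Caccioppoli density there, and one with little density has little energy. -/

open MeasureTheory Filter Topology Set Metric

noncomputable section

namespace Vale.Agent.P134

variable {n : ℕ} {m : Fin n}

/-- The Caccioppoli densities of all coordinate derivatives. -/
def quadSum (u : Sp n → ℝ) (m : Fin n) (x : Sp n) : ℝ := ∑ a, quad u m (ev a) x

/-- The density in a centred window. -/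
def winMass (u : Sp n → ℝ) (m : Fin n) (r : ℝ) : ℝ := ∫ x in closedBall (0 : Sp n) r, quadSum u m x

lemma quadSum_nonneg (u : Sp n → ℝ) (m : Fin n) (x : Sp n) : 0 ≤ quadSum u m x :=
  Finset.sum_nonneg fun _ _ => quad_nonneg _ _ _ _

lemma Sol.quadSum_continuous {u : Sp n → ℝ} (h : Sol u m) : Continuous (quadSum u m) :=
  continuous_finsetSum _ fun _ _ => h.quad_continuous _

lemma winMass_mono {u : Sp n → ℝ} (h : Sol u m) {r r' : ℝ} (hr : r ≤ r') :
    winMass u m r ≤ winMass u m r' :=
  setIntegral_mono_set (h.quadSum_continuous.continuousOn.integrableOn_compact (isCompact_closedBall _ _))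
    (Eventually.of_forall (quadSum_nonneg u m)) (closedBall_subset_closedBall hr).eventuallyLE

lemma winMass_translate (u : Sp n → ℝ) (m : Fin n) (p : Sp n) (r : ℝ) :
    winMass (fun y => u (y + p)) m r = ∫ x in closedBall (0 : Sp n) r, quadSum u m (x + p) := by
  have e : ∀ b, dd b (fun y => u (y + p)) = fun y => dd b u (y + p) :=
    fun b => funext fun y => dd_translate u p b y
  simp only [winMass, quadSum, quad, e, dd_translate]

/-- A limit along which the density disappears is one-dimensional. -/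
lemma parallel_of_no_mass {w : ℕ → Sp n → ℝ} {W : Sp n → ℝ} (hw : ∀ j, Sol (w j) m)
    (hc : C1Conv w W) (hmass : ∀ r : ℝ, ∀ c > 0, ∀ᶠ j in atTop, winMass (w j) m r < c) :
    ∃ c : Sp n, ∀ x, ∃ l : ℝ, ∀ i, dd (ev i) W x = l * c i := by
  refine parallel_of_local hc.smooth fun x0 b hb => ?_
  have hpos := abs_pos.2 hb
  obtain ⟨δ0, hδ0, hδ⟩ := Metric.eventually_nhds_iff.1
    ((((dd_continuous hc.smooth (ev b)).abs).tendsto x0).eventually (eventually_gt_nhds (half_lt_self hpos)))
  refine ⟨δ0 / 3, by positivity, fun a x hx => ?_⟩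
  set G1 := dd (ev a) W
  set G2 := dd (ev b) W
  set δ := |G2 x0| / 2
  have hδp : 0 < δ := half_pos hpos
  have hG2 : ∀ y ∈ closedBall x0 (2 * (δ0 / 3)), δ ≤ |G2 y| := fun y hy =>
    (hδ (lt_of_le_of_lt (mem_closedBall.1 hy) (by linarith))).le
  set Gt : Sp n → ℝ := fun x => G1 x * G2 x / max (G2 x ^ 2) (δ ^ 2) with hGt
  have h1 : Continuous G1 := dd_continuous hc.smooth _
  have h2 : Continuous G2 := dd_continuous hc.smooth _
  have hGtc : Continuous Gt := (h1.mul h2).div ((h2.pow 2).max continuous_const)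
    fun x => (lt_max_of_lt_right (by positivity)).ne'
  have hconst := ratio_witness hGtc (x0 := x0) (r := δ0 / 3) fun ζ hζ hζc hζs i => by
    by_contra hI
    obtain ⟨ε, hε, c, hcpos, hlow⟩ := mass_lower h1 h2 hδp hG2 hζ hζc hζs hI
    obtain ⟨j, hj1, hj2⟩ := ((hc.unif _ (isCompact_closedBall x0 (2 * (δ0 / 3))) ε hε).and
      (hmass (‖x0‖ + 2 * (δ0 / 3)) (c / 2) (half_pos hcpos))).exists
    have hl := hlow _ m (hw j) a b fun y hy => ⟨(hj1 y hy).2 a, (hj1 y hy).2 b⟩
    have hsub : closedBall x0 (2 * (δ0 / 3)) ⊆ closedBall 0 (‖x0‖ + 2 * (δ0 / 3)) :=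
      closedBall_subset_closedBall' (by rw [dist_zero_right]; linarith)
    have hq := (hw j).quadSum_continuous
    have hle : ∀ y, quad (w j) m (ev a) y + quad (w j) m (ev b) y ≤ 2 * quadSum (w j) m y := fun y => by
      have ha := Finset.single_le_sum (f := fun i => quad (w j) m (ev i) y)
        (fun i _ => quad_nonneg _ _ _ _) (Finset.mem_univ a)
      have hb := Finset.single_le_sum (f := fun i => quad (w j) m (ev i) y)
        (fun i _ => quad_nonneg _ _ _ _) (Finset.mem_univ b)
      simp only [quadSum] at *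
      linarith
    have hup : ∫ y in closedBall x0 (2 * (δ0 / 3)), (quad (w j) m (ev a) y + quad (w j) m (ev b) y) ≤
        2 * winMass (w j) m (‖x0‖ + 2 * (δ0 / 3)) := by
      rw [winMass, ← integral_const_mul]
      refine le_trans (setIntegral_mono_on ?_ ?_ measurableSet_closedBall fun y _ => hle y)
        (setIntegral_mono_set ?_ (Eventually.of_forall fun y => mul_nonneg two_pos.le (quadSum_nonneg _ _ _))
          hsub.eventuallyLE)
      · exact (((hw j).quad_continuous _).add ((hw j).quad_continuous _)).continuousOn.integrableOn_compact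
          (isCompact_closedBall _ _)
      · exact (continuous_const.mul hq).continuousOn.integrableOn_compact (isCompact_closedBall _ _)
      · exact (continuous_const.mul hq).continuousOn.integrableOn_compact (isCompact_closedBall _ _)
    linarith
  have hgt : ∀ y ∈ closedBall x0 (δ0 / 3), G2 y ≠ 0 ∧ Gt y = G1 y / G2 y := by
    intro y hy
    have h5 := hG2 y (closedBall_subset_closedBall (by linarith) hy)
    have hne : G2 y ≠ 0 := fun h0 => by rw [h0, abs_zero] at h5; linarith
    refine ⟨hne, ?_⟩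
    simp only [hGt]
    rw [max_eq_left (by rw [← sq_abs (G2 y)]; gcongr)]
    field_simp
  have hx' := ball_subset_closedBall hx
  have hx0 : x0 ∈ closedBall x0 (δ0 / 3) := mem_closedBall_self (by linarith)
  have := hconst x hx'
  rw [(hgt x hx').2, (hgt x0 hx0).2, div_eq_div_iff (hgt x hx').1 (hgt x0 hx0).1] at this
  exact this

/-- A solution far from every one-dimensional function in a window has a definite density nearby. -/
theorem window_far (m : Fin n) (R δ : ℝ) (hδ : 0 < δ) :
    ∃ r : ℝ, ∃ c > 0, ∀ w : Sp n → ℝ, Sol w m →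
      (∀ e : Sp n, ‖e‖ = 1 → ∀ h : ℝ → ℝ, ∃ x ∈ closedBall (0 : Sp n) R, δ ≤ |w x - h (inner ℝ e x)|) →
      c ≤ winMass w m r := by
  by_contra hcon
  push Not at hcon
  choose w hw hfar hsmall using fun j : ℕ => hcon (j : ℝ) (1 / ((j : ℝ) + 1)) (by positivity)
  obtain ⟨φ, hφ, W, hc⟩ := exists_subseq hw
  obtain ⟨c, hpar⟩ := parallel_of_no_mass (fun j => hw (φ j)) hc fun r c hcpos => by
    obtain ⟨N, hN⟩ := exists_nat_ge (max r (1 / c))
    filter_upwards [eventually_ge_atTop N] with j hj
    have hjN : (N : ℝ) ≤ φ j := by exact_mod_cast hj.trans (hφ.id_le j)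
    refine (winMass_mono (hw _) (((le_max_left _ _).trans hN).trans hjN)).trans_lt ((hsmall _).trans_le ?_)
    rw [div_le_iff₀ (by positivity)]
    have := ((le_max_right _ _).trans hN).trans hjN
    rw [div_le_iff₀ hcpos] at this
    nlinarith
  obtain ⟨e, he, hrep⟩ := oneDim_of_parallel (hc.smooth.differentiable one_ne_zero) hpar m.pos
  obtain ⟨j, hj⟩ := (hc.unif _ (isCompact_closedBall (0 : Sp n) R) (δ / 2) (half_pos hδ)).exists
  obtain ⟨x, hx, hxd⟩ := hfar (φ j) e he fun s => W (s • e)
  have := (hj x hx).1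
  rw [← hrep x] at hxd
  linarith

/-- A solution with little density nearby has the energy of a transition layer. -/
theorem window_energy (m : Fin n) {φ : Sp n → ℝ} (hφ : ContDiff ℝ 1 φ) (hφc : HasCompactSupport φ)
    (hφ0 : ∀ x, 0 ≤ φ x) :
    ∃ r : ℝ, ∃ c > 0, ∀ w : Sp n → ℝ, Sol w m → winMass w m r < c →
      energy w φ ≤ (∫ x, ∑ i, |dd (ev i) φ x|) + 1 := by
  by_contra hcon
  push Not at hcon
  choose w hw hsmall hbig using fun j : ℕ => hcon (j : ℝ) (1 / ((j : ℝ) + 1)) (by positivity)
  obtain ⟨ψ, hψ, W, hc⟩ := exists_subseq hw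
  obtain ⟨c, hpar⟩ := parallel_of_no_mass (fun j => hw (ψ j)) hc fun r c hcpos => by
    obtain ⟨N, hN⟩ := exists_nat_ge (max r (1 / c))
    filter_upwards [eventually_ge_atTop N] with j hj
    have hjN : (N : ℝ) ≤ ψ j := by exact_mod_cast hj.trans (hψ.id_le j)
    refine (winMass_mono (hw _) (((le_max_left _ _).trans hN).trans hjN)).trans_lt ((hsmall _).trans_le ?_)
    rw [div_le_iff₀ (by positivity)]
    have := ((le_max_right _ _).trans hN).trans hjN
    rw [div_le_iff₀ hcpos] at this
    nlinarith
  have hsol := fun j => hw (ψ j)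
  have hl : LimSol W := ⟨hc.smooth, hc.bdd hsol, fun hη hηc => hc.weak hsol hη hηc,
    fun hη hηc => hc.stable hsol hη hηc⟩
  have hW := profile_energy m.pos hl hpar hφ hφc hφ0
  obtain ⟨j, hj⟩ := ((hc.tendsto_energy hsol hφ hφc).eventually (eventually_lt_nhds (lt_add_one (energy W φ)))).exists
  linarith [hbig (ψ j)]

end Vale.Agent.P134
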